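import Vale.Agent.P147.Flux.Defs

/-!
# Powers of the number of visited sites per level: definitions
-/

namespace Vale.Agent.P147.Flux

open MeasureTheory Set Filter Regen
open scoped ENNReal

variable {d : ℕ}

/-- Sum over levels of the `α`-th power of the number of sites of `S` at that level. -/
noncomputable def levelPow (φ : Site d →+ ℤ) (α : ℝ) (S : Finset (Site d)) : ℝ :=
  ∑ m ∈ S.image φ, ((S.filter fun z => φ z = m).card : ℝ) ^ α

/-- Mean of the level power of the sites of a block. -/
noncomputable def meanPow (μ : Measure (Step d → ℝ)) (φ : Site d →+ ℤ) (α : ℝ) : ℝ≥0∞ :=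
  ∫⁻ s, ENNReal.ofReal (levelPow φ α (trace 0 s)) ∂blockLaw μ φ

/-- Level power of the sites visited up to time `n`. -/
noncomputable def powCount (φ : Site d →+ ℤ) (α : ℝ) (u : ℕ → Step d) (n : ℕ) : ℝ :=
  levelPow φ α ((Finset.range (n + 1)).image (path 0 u))

end Vale.Agent.P147.Flux
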