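import Vale.Agent.P147.Flux.AlphaDefs
import Vale.Agent.P147.Regen.Pair

/-!
# Overlaps of two chains of blocks counted with a power of at most one

Per level, the power of the number of sites of a chain of blocks is at most the sum of the powers
of the numbers of sites of its blocks, so the mean is at most the mean level power of a block.
-/

namespace Vale.Agent.P147.Flux

open MeasureTheory Set Filter Regen
open scoped ENNReal

variable {d : ℕ}

/-- The number of sites of a word from `0` at level `m`. -/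
def levelCard (φ : Site d →+ ℤ) (s : Word d) (m : ℤ) : ℕ :=
  ((trace 0 s).filter fun z => φ z = m).card

/-- The power of the number of sites at a level. -/
noncomputable def levelCardPow (φ : Site d →+ ℤ) (α : ℝ) (s : Word d) (m : ℤ) : ℝ≥0∞ :=
  (levelCard φ s m : ℝ≥0∞) ^ α

variable (φ : Site d →+ ℤ) {α : ℝ}

theorem card_trace_level_eq (x : Site d) (s : Word d) (a : ℤ) :
    ((trace x s).filter fun z => φ z = a).card = levelCard φ s (a - φ x) := by
  have e : trace x s = (trace 0 s).image (x + ·) := by simpa using trace_translate 0 x s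
  rw [e, Finset.filter_image, Finset.card_image_of_injective _ (add_right_injective x), levelCard]
  congr 1
  refine Finset.filter_congr fun z _ => ?_
  rw [map_add]
  constructor <;> intro h <;> omega

theorem levelCard_append_le (s t : Word d) (m : ℤ) :
    levelCard φ (s ++ t) m ≤ levelCard φ s m + levelCard φ t (m - φ (disp s)) := by
  rw [← card_trace_level_eq φ (disp s) t m, levelCard, trace_append, Finset.filter_union, zero_add]
  exact Finset.card_union_le _ _

theorem levelCardPow_append_le (h0 : 0 < α) (h1 : α ≤ 1) (s t : Word d) (m : ℤ) :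
    levelCardPow φ α (s ++ t) m ≤
      levelCardPow φ α s m + levelCardPow φ α t (m - φ (disp s)) := by
  refine le_trans (ENNReal.rpow_le_rpow ?_ h0.le) (ENNReal.rpow_add_le_add_rpow _ _ h0.le h1)
  exact_mod_cast levelCard_append_le φ s t m

theorem levelCardPow_nil (h0 : 0 < α) (m : ℤ) : levelCardPow φ α [] m = 0 := by
  simp [levelCardPow, levelCard, trace, h0]

theorem levelCardPow_flatten_le (h0 : 0 < α) (h1 : α ≤ 1) (L : List (Word d)) (ω : ℕ → Word d)
    (hω : ω ∈ Beg L) (m : ℤ) :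
    levelCardPow φ α L.flatten m ≤ ∑ i ∈ Finset.range L.length,
      levelCardPow φ α (ω i) (m - ∑ k ∈ Finset.range i, φ (disp (ω k))) := by
  induction L generalizing ω m with
  | nil => simp [levelCardPow_nil φ h0]
  | cons b L ih =>
    rw [Beg_cons] at hω
    obtain ⟨h0' : ω 0 = b, h1'⟩ := hω
    rw [List.length_cons, Finset.sum_range_succ', List.flatten_cons]
    refine (levelCardPow_append_le φ h0 h1 b _ m).trans ?_
    rw [add_comm]
    refine add_le_add ((ih _ h1' _).trans (le_of_eq (Finset.sum_congr rfl fun i _ => ?_))) ?_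
    · congr 1
      · simp [Nat.add_comm]
      · rw [Finset.sum_range_succ']
        simp [Nat.add_comm 1, h0']
        ring
    · simp [h0']

theorem levelCardPow_flatten_reverse_le [NeZero d] (h0 : 0 < α) (h1 : α ≤ 1) (L : List (Word d))
    (ω : ℕ → Word d) (hω : ω ∈ Beg L) (ℓ : ℤ) :
    levelCardPow φ α L.reverse.flatten (φ (disp L.flatten) - ℓ) ≤ ∑ i ∈ Finset.range L.length,
      levelCardPow φ α (ω i) ((∑ k ∈ Finset.range i, φ (disp (ω k))) + φ (disp (ω i)) - ℓ) := by
  induction L generalizing ω ℓ with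
  | nil => simp [levelCardPow_nil φ h0]
  | cons b L ih =>
    rw [Beg_cons] at hω
    obtain ⟨h0' : ω 0 = b, h1'⟩ := hω
    rw [List.length_cons, Finset.sum_range_succ', List.reverse_cons, List.flatten_append,
      List.flatten_cons, List.flatten_cons, List.flatten_nil, List.append_nil]
    refine (levelCardPow_append_le φ h0 h1 _ b _).trans ?_
    rw [disp_flatten_reverse, disp_append, map_add,
      show φ (disp b) + φ (disp L.flatten) - ℓ = φ (disp L.flatten) - (ℓ - φ (disp b)) by ring]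
    refine add_le_add ((ih _ h1' _).trans (le_of_eq (Finset.sum_congr rfl fun i _ => ?_))) ?_
    · congr 1
      · simp [Nat.add_comm]
      · rw [Finset.sum_range_succ']
        simp [Nat.add_comm 1, h0']
        ring
    · simp [h0']

/-- The sum over the levels is the level power. -/
theorem tsum_levelCardPow (h0 : 0 < α) (s : Word d) :
    ∑' m : ℤ, levelCardPow φ α s m = ENNReal.ofReal (levelPow φ α (trace 0 s)) := by
  rw [levelPow, ENNReal.ofReal_sum_of_nonneg fun m _ => Real.rpow_nonneg (Nat.cast_nonneg _) _,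
    tsum_eq_sum (s := (trace 0 s).image φ) fun m hm => ?_]
  · exact Finset.sum_congr rfl fun m _ => by
      rw [levelCardPow, levelCard, ← ENNReal.ofReal_rpow_of_nonneg (Nat.cast_nonneg _) h0.le,
        ENNReal.ofReal_natCast]
  · have h : levelCard φ s m = 0 := Finset.card_eq_zero.2 (Finset.filter_eq_empty_iff.2
      fun z hz hzm => hm (Finset.mem_image.2 ⟨z, hz, hzm⟩))
    simp [levelCardPow, h, h0]

variable [NeZero d] (μ : Measure (Step d → ℝ))

omit [NeZero d] in
/-- Visits of a single chain at a level. -/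
theorem lintegral_chain_pow_le [IsProbabilityMeasure (blockLaw μ φ)] (g : ℤ → Word d → ℝ≥0∞) :
    ∫⁻ ω, ∑' i : ℕ, g (∑ k ∈ Finset.range i, φ (disp (ω k))) (ω i) ∂blocksLaw μ φ
      ≤ ∫⁻ b, ∑' m : ℤ, g m b ∂blockLaw μ φ := by
  classical
  let H : ℕ → (ℕ → Word d) → ℤ := fun i ω => ∑ k ∈ Finset.range i, φ (disp (ω k))
  let one : ℕ → ℤ → (ℕ → Word d) → ℝ≥0∞ := fun i m ω => if H i ω = m then 1 else 0
  have hdep : ∀ i (m : ℤ), DependsOn (one i m) (Iio i) := by
    intro i m ω ω' h
    have : H i ω = H i ω' := Finset.sum_congr rfl fun k hk => by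
      rw [h k (mem_Iio.2 (Finset.mem_range.1 hk))]
    simp only [one, this]
  have hsplit : ∀ i ω, g (H i ω) (ω i) = ∑' m : ℤ, one i m ω * g m (ω i) := fun i ω => by
    rw [tsum_eq_single (H i ω) fun m hm => by simp [one, Ne.symm hm]]
    simp [one]
  have hm1 : ∀ i (m : ℤ), Measurable (one i m) := fun i m => measurable_of_dependsOn (hdep i m)
  have hm3 : ∀ i (m : ℤ), Measurable fun ω : ℕ → Word d => one i m ω * g m (ω i) := fun i m =>
    (hm1 i m).mul ((Measurable.of_discrete (f := g m)).comp (measurable_pi_apply i))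
  have hpos : ∀ᵐ ω ∂blocksLaw μ φ, ∀ i, IsBlock φ (ω i) :=
    (SegAux.blocks_allPos μ (φ := φ)).mono fun ω h => h.2
  calc ∫⁻ ω, ∑' i : ℕ, g (H i ω) (ω i) ∂blocksLaw μ φ
      = ∑' i : ℕ, ∑' m : ℤ, ∫⁻ ω, one i m ω * g m (ω i) ∂blocksLaw μ φ := by
        simp only [hsplit]
        rw [lintegral_tsum fun i => (Measurable.tsum fun m => hm3 i m).aemeasurable]
        exact tsum_congr fun i => lintegral_tsum fun m => (hm3 i m).aemeasurable
    _ = ∑' i : ℕ, ∑' m : ℤ, (∫⁻ ω, one i m ω ∂blocksLaw μ φ) * ∫⁻ b, g m b ∂blockLaw μ φ :=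
        tsum_congr fun i => tsum_congr fun m =>
          lintegral_past_mul_eval (blockLaw μ φ) i (hm1 i m) (hdep i m) Measurable.of_discrete
    _ = ∑' m : ℤ, (∫⁻ ω, ∑' i : ℕ, one i m ω ∂blocksLaw μ φ) * ∫⁻ b, g m b ∂blockLaw μ φ := by
        rw [ENNReal.tsum_comm]
        refine tsum_congr fun m => ?_
        rw [ENNReal.tsum_mul_right, lintegral_tsum fun i => (hm1 i m).aemeasurable]
    _ ≤ ∑' m : ℤ, 1 * ∫⁻ b, g m b ∂blockLaw μ φ := by
        refine ENNReal.tsum_le_tsum fun m => mul_le_mul' ?_ le_rfl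
        have : IsProbabilityMeasure (blocksLaw μ φ) := by unfold blocksLaw; infer_instance
        refine (lintegral_mono_ae (g := fun _ => 1) (hpos.mono fun ω hω => ?_)).trans (by simp)
        have hinj : StrictMono fun i => H i ω := strictMono_nat_of_lt_succ fun i => by
          simp only [H, Finset.sum_range_succ]
          linarith [seg_height_pos (hω i).1]
        by_cases hex : ∃ i, H i ω = m
        · obtain ⟨i, hi⟩ := hex
          rw [tsum_eq_single i fun j hj => if_neg fun hj' => hj (hinj.injective (hj'.trans hi.symm))]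
          simp [hi]
        · simp [one, not_exists.1 hex]
    _ = ∫⁻ b, ∑' m : ℤ, g m b ∂blockLaw μ φ := by
        simp only [one_mul]
        rw [lintegral_tsum fun m => Measurable.of_discrete.aemeasurable]

/-- The power of the number of contacts of the pairs in the top `N + 1` levels has mean at most
`N + 1` times the product of the mean level powers of the blocks. -/
theorem pairs_powOverlap_le {d : ℕ} [NeZero d] (μ : Measure (Step d → ℝ)) [IsProbabilityMeasure μ]
    (φ : Site d →+ ℤ) (h : Hyp μ φ) {α : ℝ} (h0 : 0 < α) (h1 : α ≤ 1) (n N : ℕ) :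
    ∫⁻ ω, (((xSites 0 ω 0 n ×ˢ ySites 0 ω 0 n).filter
        fun pq => φ pq.1 = φ pq.2 ∧ -(N : ℤ) ≤ φ pq.1).card : ℝ≥0∞) ^ α ∂pairsLaw μ φ
      ≤ (N + 1) * (meanPow μ φ α * meanPow μ (-φ) α) := by
  classical
  have := h.probUp
  have := h.probDown
  have := h.probBlocks
  have := h.probBlocks'
  let cnt : List (PairW d) → ℝ≥0∞ := fun P =>
    (((trace (-disp (xw P)) (xw P) ×ˢ trace 0 (yw P)).filter
      fun pq => φ pq.1 = φ pq.2 ∧ -(N : ℤ) ≤ φ pq.1).card : ℝ≥0∞) ^ α
  rw [lintegral_pairs μ φ h n cnt fun P ω hω => ?hval]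
  case hval =>
    have e : (List.range n).map ω = P.1 := by
      have := mem_Beg_iff.1 hω; rwa [P.2.2] at this
    simp only [cnt]
    rw [(xSites_eq_trace ω n).2, (ySites_eq_trace ω n).2, xWord_eq_xw, yWord_eq_yw, e]
  let NX : ℕ → (ℕ → Word d) → ℝ≥0∞ := fun ℓ X => ∑' i : ℕ,
    levelCardPow φ α (X i) ((∑ k ∈ Finset.range i, φ (disp (X k))) + φ (disp (X i)) - ℓ)
  let NY : ℕ → (ℕ → Word d) → ℝ≥0∞ := fun ℓ Y => ∑' i : ℕ,
    levelCardPow (-φ) α (Y i) ((ℓ : ℤ) - ∑ k ∈ Finset.range i, (-φ) (disp (Y k)))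
  have hXm : ∀ ℓ, Measurable (NX ℓ) := fun ℓ => Measurable.tsum fun i =>
    measurable_of_dependsOn (n := i + 1) fun X X' hX => by
      have hi : X i = X' i := hX i (by simp)
      have hs : ∑ k ∈ Finset.range i, φ (disp (X k)) = ∑ k ∈ Finset.range i, φ (disp (X' k)) :=
        Finset.sum_congr rfl fun k hk => by
          rw [hX k (mem_Iio.2 (Nat.lt_succ_of_lt (Finset.mem_range.1 hk)))]
      simp only [hs, hi]
  have hYm : ∀ ℓ, Measurable (NY ℓ) := fun ℓ => Measurable.tsum fun i =>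
    measurable_of_dependsOn (n := i + 1) fun X X' hX => by
      have hi : X i = X' i := hX i (by simp)
      have hs : ∑ k ∈ Finset.range i, (-φ) (disp (X k)) =
          ∑ k ∈ Finset.range i, (-φ) (disp (X' k)) :=
        Finset.sum_congr rfl fun k hk => by
          rw [hX k (mem_Iio.2 (Nat.lt_succ_of_lt (Finset.mem_range.1 hk)))]
      simp only [hs, hi]
  have hXE : ∀ ℓ : ℕ, ∫⁻ X, NX ℓ X ∂blocksLaw μ φ ≤ meanPow μ φ α := fun ℓ =>
    (lintegral_chain_pow_le φ μ fun m b => levelCardPow φ α b (m + φ (disp b) - ℓ)).trans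
      (le_of_eq (lintegral_congr fun b => ((tsum_congr fun m => by simp [add_sub_assoc]).trans
        ((Equiv.addRight (φ (disp b) - (ℓ : ℤ))).tsum_eq fun m => levelCardPow φ α b m)).trans
          (tsum_levelCardPow φ h0 b)))
  have hYE : ∀ ℓ : ℕ, ∫⁻ Y, NY ℓ Y ∂blocksLaw μ (-φ) ≤ meanPow μ (-φ) α := fun ℓ =>
    (lintegral_chain_pow_le (-φ) μ fun m b => levelCardPow (-φ) α b ((ℓ : ℤ) - m)).trans
      (le_of_eq (lintegral_congr fun b =>
        ((Equiv.subLeft (ℓ : ℤ)).tsum_eq fun m => levelCardPow (-φ) α b m).trans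
          (tsum_levelCardPow (-φ) h0 b)))
  -- on a cylinder the power of the count is below the product of the chain powers
  have hcnt : ∀ P : PLn φ n, ∀ z ∈ Cyl φ P.1,
      cnt P.1 ≤ ∑ ℓ ∈ Finset.range (N + 1), NX ℓ z.1 * NY ℓ z.2 := by
    intro P z hz
    have hneg : ∀ p ∈ trace (-disp (xw P.1)) (xw P.1), φ p ≤ 0 := fun p hp => by
      rcases eq_or_ne P.1 [] with he | hne
      · simp [he, xw, trace] at hp
      · have := seg_level_trace (seg_xw P.2.1 hne).1 hp
        simp only [map_neg] at this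
        omega
    set A := trace (-disp (xw P.1)) (xw P.1)
    set B := trace 0 (yw P.1)
    have hsub : ((A ×ˢ B).filter fun pq => φ pq.1 = φ pq.2 ∧ -(N : ℤ) ≤ φ pq.1) ⊆
        (Finset.range (N + 1)).biUnion fun ℓ : ℕ =>
          (A.filter fun p => φ p = -(ℓ : ℤ)) ×ˢ (B.filter fun p => (-φ) p = (ℓ : ℤ)) := by
      intro pq hpq
      simp only [Finset.mem_filter, Finset.mem_product] at hpq
      obtain ⟨⟨hA, hB⟩, he, hN⟩ := hpq
      have := hneg _ hA
      refine Finset.mem_biUnion.2 ⟨(-φ pq.1).toNat, Finset.mem_range.2 (by omega),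
        Finset.mem_product.2 ⟨Finset.mem_filter.2 ⟨hA, by omega⟩, Finset.mem_filter.2 ⟨hB, ?_⟩⟩⟩
      simp only [AddMonoidHom.neg_apply]
      omega
    obtain ⟨p1, p2⟩ := xBlocks_spec P.2.1
    obtain ⟨q1, q2⟩ := yBlocks_spec P.2.1
    refine (ENNReal.rpow_le_rpow
      (Nat.cast_le.2 ((Finset.card_le_card hsub).trans Finset.card_biUnion_le)) h0.le).trans ?_
    rw [Nat.cast_sum]
    refine (Finset.le_sum_of_subadditive (fun x : ℝ≥0∞ => x ^ α) (by simp [h0])
      (fun x y => ENNReal.rpow_add_le_add_rpow x y h0.le h1) _ _).trans ?_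
    refine Finset.sum_le_sum fun ℓ _ => ?_
    rw [Finset.card_product, Nat.cast_mul, ENNReal.mul_rpow_of_nonneg _ _ h0.le,
      card_trace_level_eq φ, card_trace_level_eq (-φ)]
    refine mul_le_mul' ?_ ?_
    · rw [map_neg, sub_neg_eq_add, neg_add_eq_sub, ← p2, disp_flatten_reverse]
      exact (levelCardPow_flatten_reverse_le φ h0 h1 _ z.1 hz.1 ℓ).trans (ENNReal.sum_le_tsum _)
    · rw [map_zero, sub_zero, ← q2]
      exact (levelCardPow_flatten_le (-φ) h0 h1 _ z.2 hz.2 _).trans (ENNReal.sum_le_tsum _)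
  calc ∑' P : PLn φ n, wtP μ P.1 * cnt P.1
      = ∑' P : PLn φ n, ∫⁻ _z in Cyl φ P.1, cnt P.1 ∂chains μ φ := tsum_congr fun P => by
        rw [setLIntegral_const, chains_Cyl h P.2.1, mul_comm]
    _ ≤ ∑' P : PLn φ n, ∫⁻ z in Cyl φ P.1,
          ∑ ℓ ∈ Finset.range (N + 1), NX ℓ z.1 * NY ℓ z.2 ∂chains μ φ :=
        ENNReal.tsum_le_tsum fun P => setLIntegral_mono' (measurableSet_Cyl φ P.1) (hcnt P)
    _ = ∫⁻ z in ⋃ P : PLn φ n, Cyl φ P.1,
          ∑ ℓ ∈ Finset.range (N + 1), NX ℓ z.1 * NY ℓ z.2 ∂chains μ φ :=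
        (lintegral_iUnion (s := fun P : PLn φ n => Cyl φ P.1) (fun P => measurableSet_Cyl φ P.1)
          (fun P Q hPQ => Set.disjoint_left.2 fun z hi hj =>
            hPQ (PLn_inj (compat_of_mem_Cyl P.2.1 Q.2.1 hi hj))) _).symm
    _ ≤ ∫⁻ z, ∑ ℓ ∈ Finset.range (N + 1), NX ℓ z.1 * NY ℓ z.2 ∂chains μ φ :=
        setLIntegral_le_lintegral _ _
    _ = ∑ ℓ ∈ Finset.range (N + 1),
          (∫⁻ X, NX ℓ X ∂blocksLaw μ φ) * ∫⁻ Y, NY ℓ Y ∂blocksLaw μ (-φ) := by
        refine (lintegral_finsetSum _ fun ℓ _ =>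
          ((hXm ℓ).comp measurable_fst).mul ((hYm ℓ).comp measurable_snd)).trans ?_
        exact Finset.sum_congr rfl fun ℓ _ =>
          lintegral_prod_mul (hXm ℓ).aemeasurable (hYm ℓ).aemeasurable
    _ ≤ ∑ _ℓ ∈ Finset.range (N + 1), meanPow μ φ α * meanPow μ (-φ) α :=
        Finset.sum_le_sum fun ℓ _ => mul_le_mul' (hXE ℓ) (hYE ℓ)
    _ = _ := by simp

end Vale.Agent.P147.Flux
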