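import Vale.Agent.P147.Flux.AlphaOverlap
import Vale.Agent.P147.Regen.CaseA
import Vale.Agent.P147.Regen.Criterion

/-!
# Finite level powers on both sides exclude escapes in both directions

For `α > 2/(d-1)` the probabilities of meetings in the bands `[4^j, 4^(j+1))` are summable,
uniformly in the start, which is incompatible with the budget of avoiding pairs.
-/

namespace Vale.Agent.P147.Flux

open MeasureTheory Set Filter Regen
open scoped ENNReal Topology

theorem le_rpow_of_le_of_le_one {x y : ℝ≥0∞} {α : ℝ} (h0 : 0 ≤ α) (h1 : α ≤ 1) (hx : x ≤ 1)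
    (hxy : x ≤ y) : x ≤ y ^ α := by
  refine le_trans ?_ (ENNReal.rpow_le_rpow hxy h0)
  conv_lhs => rw [← ENNReal.rpow_one x]
  exact ENNReal.rpow_le_rpow_of_exponent_ge hx h1

variable {k : ℕ} {μ : Measure (Step (k + 1) → ℝ)} [IsProbabilityMeasure μ]
  {φ : Site (k + 1) →+ ℤ}

omit [IsProbabilityMeasure μ] in
theorem contact_pow_le [IsProbabilityMeasure (pairLaw μ φ)] (i₀ : Fin (k + 1))
    (o : Site (k + 1)) (n m L : ℕ) {α : ℝ} (h0 : 0 ≤ α) (h1 : α ≤ 1) {s : ℝ≥0∞}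
    (hs : ∀ x, pairsLaw μ φ {ω | seqSum (vlat i₀) n ω = x} ≤ s) :
    pairsLaw μ φ {ω | ∃ pq ∈ contacts φ m L (shiftSeq n ω),
        seqSum (vlat i₀) n ω = lat i₀ o - lat i₀ (pq.2 - pq.1)} ≤
      s ^ α * ∫⁻ ω, ((contacts φ m L ω).card : ℝ≥0∞) ^ α ∂pairsLaw μ φ := by
  classical
  have : IsProbabilityMeasure (pairsLaw μ φ) := by rw [pairsLaw]; infer_instance
  set P := pairsLaw μ φ
  set A : Finset (Site (k + 1) × Site (k + 1)) → Set (ℕ → PairW (k + 1)) := fun C =>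
    {ω | ∃ pq ∈ C, seqSum (vlat i₀) n ω = lat i₀ o - lat i₀ (pq.2 - pq.1)}
  set B : Finset (Site (k + 1) × Site (k + 1)) → Set (ℕ → PairW (k + 1)) := fun C =>
    {ω | contacts φ m L ω = C}
  have hAd : ∀ C, DependsOn (· ∈ A C) (Iio n) := fun C ω ω' h => by
    simp only [A, mem_ofPred_eq, seqSum]
    rw [Finset.sum_congr rfl fun i hi => by rw [h i (mem_Iio.2 (Finset.mem_range.1 hi))]]
  have hBd : ∀ C, DependsOn (· ∈ B C) (Iio m) := fun C ω ω' h => by
    have e : contacts φ m L ω = contacts φ m L ω' :=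
      Finset.ext fun pq => iff_of_eq (dependsOn_contacts φ m L pq h)
    simp only [B, mem_ofPred_eq, e]
  have hBm : ∀ C, MeasurableSet (B C) := fun C => measurableSet_of_dependsOn (hBd C)
  have hA : ∀ C, P (A C) ≤ s ^ α * (C.card : ℝ≥0∞) ^ α := fun C => by
    rw [← ENNReal.mul_rpow_of_nonneg _ _ h0]
    refine le_rpow_of_le_of_le_one h0 h1 prob_le_one ?_
    refine (measure_mono (t := ⋃ pq ∈ C, {ω | seqSum (vlat i₀) n ω =
      lat i₀ o - lat i₀ (pq.2 - pq.1)}) fun ω (hω : ∃ pq ∈ C, _) => ?_).trans ?_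
    · simpa [mem_iUnion] using hω
    refine (measure_biUnion_finset_le _ _).trans ?_
    refine (Finset.sum_le_sum fun pq _ => hs _).trans (le_of_eq ?_)
    rw [Finset.sum_const, nsmul_eq_mul, mul_comm]
  calc _ ≤ P (⋃ C, A C ∩ shiftSeq n ⁻¹' B C) :=
        measure_mono fun ω hω => mem_iUnion.2 ⟨contacts φ m L (shiftSeq n ω), hω, rfl⟩
    _ ≤ ∑' C, P (A C ∩ shiftSeq n ⁻¹' B C) := measure_iUnion_le _
    _ = ∑' C, P (A C) * P (B C) := tsum_congr fun C =>
        measure_past_inter_future (pairLaw μ φ) n (measurableSet_of_dependsOn (hAd C)) (hAd C)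
          (hBm C)
    _ ≤ ∑' C, s ^ α * ((C.card : ℝ≥0∞) ^ α * P (B C)) := ENNReal.tsum_le_tsum fun C => by
        rw [← mul_assoc]
        exact mul_le_mul' (hA C) le_rfl
    _ = _ := by
        rw [ENNReal.tsum_mul_left]
        congr 1
        simp only [← lintegral_indicator_const (hBm _)]
        rw [← lintegral_tsum fun C => (measurable_const.indicator (hBm C)).aemeasurable]
        refine lintegral_congr fun ω => ?_
        rw [tsum_eq_single (contacts φ m L ω) fun C hC =>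
          indicator_of_notMem (show ω ∉ B C from fun e => hC (Eq.symm e)) _,
          indicator_of_mem (show ω ∈ B (contacts φ m L ω) from rfl)]

theorem meet_pow_le (i₀ : Fin (k + 1)) (h : Hyp μ φ) {α : ℝ} (h0 : 0 < α) (h1 : α ≤ 1)
    {o : Site (k + 1)} (ho : φ o = 0) (n L : ℕ) {s : ℝ≥0∞}
    (hs : ∀ x, pairsLaw μ φ {ω | seqSum (vlat i₀) n ω = x} ≤ s) :
    pairsLaw μ φ (Meet o n (4 * n)) ≤
      ((3 * n + 1 : ℕ) : ℝ≥0∞) * (aUp μ φ * aUp μ (-φ))⁻¹ / ((L : ℝ≥0∞) + 1) +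
        s ^ α * (((L : ℝ≥0∞) + 1) * (meanPow μ φ α * meanPow μ (-φ) α)) := by
  have := isProbabilityMeasure_pairLaw μ φ h
  set G₁ : Set (ℕ → PairW (k + 1)) :=
    {ω | L < ∑ i ∈ Finset.range (3 * n + 1), (φ (disp (shiftSeq n ω i).1)).toNat}
  set G₂ : Set (ℕ → PairW (k + 1)) := {ω | ∃ pq ∈ contacts φ (3 * n + 1) L (shiftSeq n ω),
    seqSum (vlat i₀) n ω = lat i₀ o - lat i₀ (pq.2 - pq.1)}
  have hsub : pairsLaw μ φ (Meet o n (4 * n)) ≤ pairsLaw μ φ (G₁ ∪ G₂) := by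
    refine measure_mono_ae ?_
    filter_upwards [ae_forall_isPair] with ω hω hM'
    by_cases hG : ω ∈ G₁
    · exact Or.inl hG
    · refine Or.inr (meet_subset i₀ ho hω hM' ?_)
      rw [height_eq_sum_toNat fun i => by exact hω (n + i)]
      exact Int.ofNat_le.2 (not_lt.1 hG)
  refine hsub.trans ((measure_union_le _ _).trans (add_le_add ?_ ?_))
  · rw [ENNReal.le_div_iff_mul_le (Or.inl (by simp)) (Or.inl (by simp)), mul_comm]
    exact (height_tail (3 * n + 1) n L).trans (mul_le_mul' le_rfl (lintegral_pair_height μ φ h))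
  · exact (contact_pow_le i₀ o n (3 * n + 1) L h0.le h1 hs).trans
      (mul_le_mul' le_rfl (pairs_powOverlap_le μ φ h h0 h1 (3 * n + 1) L))

/-- The band probabilities have a summable bound, uniform in the start. -/
theorem exists_band_bound (h : Hyp μ φ) {i₀ : Fin (k + 1)} (hi : φ (stp (i₀, true)) ≠ 0)
    {α : ℝ} (hα : 2 / (k : ℝ) < α) (h1 : α ≤ 1) (hp : meanPow μ φ α ≠ ∞)
    (hm : meanPow μ (-φ) α ≠ ∞) (hk : 0 < k) :
    ∃ b : ℕ → ℝ≥0∞, (∑' j, b j ≠ ∞) ∧ ∀ (j : ℕ) (o : Site (k + 1)), φ o = 0 →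
      pairsLaw μ φ (Meet o (4 ^ j) (4 ^ (j + 1))) ≤ b j := by
  have := isProbabilityMeasure_pairLaw μ φ h
  have hk' : (0 : ℝ) < k := Nat.cast_pos.2 hk
  have h0 : 0 < α := lt_trans (div_pos two_pos hk') hα
  obtain ⟨Q, hQ0, hQ⟩ := exists_law_le (ν := pairLaw μ φ) (V := vlat i₀) fun j => by
    obtain ⟨a, b, ha, hb, hab⟩ := exists_pairs_axis h.lev hi j
    refine ⟨a, b, ?_, ?_, hab⟩
    · rw [pairLaw_singleton μ ha]
      exact ENNReal.mul_pos (wt_pos μ h.ell _).ne' (wt_pos μ h.ell _).ne'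
    · rw [pairLaw_singleton μ hb]
      exact ENNReal.mul_pos (wt_pos μ h.ell _).ne' (wt_pos μ h.ell _).ne'
  set H := (aUp μ φ * aUp μ (-φ))⁻¹
  have hH : H ≠ ∞ := ENNReal.inv_ne_top.2 (ENNReal.mul_pos h.up.ne' h.down.ne').ne'
  have hM : meanPow μ φ α * meanPow μ (-φ) α ≠ ∞ := ENNReal.mul_ne_top hp hm
  set M := (meanPow μ φ α * meanPow μ (-φ) α).toReal
  set e : ℝ := (k : ℝ) / 2 * α
  have he : 1 < e := by
    rw [div_lt_iff₀ hk'] at hα
    simp only [e]
    linarith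
  set q : ℝ := 4 / (4 : ℝ) ^ e
  have h4e : 0 < (4 : ℝ) ^ e := by positivity
  have hq : q < 1 := by
    rw [div_lt_one h4e]
    calc (4 : ℝ) = (4 : ℝ) ^ (1 : ℝ) := (Real.rpow_one _).symm
      _ < _ := Real.rpow_lt_rpow_of_exponent_lt (by norm_num) he
  set c₁ : ℝ := 4 * H.toReal
  set c₂ : ℝ := 2 * Q ^ α * M
  set f : ℕ → ℝ := fun j => c₁ * (1 / ((j : ℝ) + 1) ^ 2) + c₂ * (((j : ℝ) + 1) ^ 2 * q ^ j)
  have hf : Summable f := by
    refine Summable.add (Summable.mul_left _ ?_) (Summable.mul_left _ ?_)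
    · have hs := (summable_nat_add_iff 1).2
        (Real.summable_one_div_nat_pow.2 (show 1 < 2 by norm_num))
      simpa using hs
    · have hn : ‖q‖ < 1 := by rwa [Real.norm_eq_abs, abs_of_nonneg (by positivity)]
      have hs := ((summable_pow_mul_geometric_of_norm_lt_one 2 hn).add
        ((summable_pow_mul_geometric_of_norm_lt_one 1 hn).mul_left 2)).add
        (summable_pow_mul_geometric_of_norm_lt_one 0 hn)
      refine hs.congr fun j => ?_
      ring
  refine ⟨fun j => ENNReal.ofReal (f j), hf.tsum_ofReal_ne_top, fun j o ho => ?_⟩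
  set n := 4 ^ j with hn
  set L := n * (j + 1) ^ 2
  have hb := meet_pow_le i₀ h h0 h1 ho n L
    (s := ENNReal.ofReal (Q / ((n : ℝ) + 1) ^ ((k : ℝ) / 2))) fun x => hQ n x
  rw [show 4 * n = 4 ^ (j + 1) by rw [hn, pow_succ, mul_comm]] at hb
  refine hb.trans ?_
  change _ ≤ ENNReal.ofReal (c₁ * (1 / ((j : ℝ) + 1) ^ 2) + c₂ * (((j : ℝ) + 1) ^ 2 * q ^ j))
  rw [ENNReal.ofReal_add (by positivity) (by positivity)]
  have hn1 : (1 : ℝ) ≤ n := by exact_mod_cast Nat.one_le_pow j 4 (by norm_num)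
  have hj : (1 : ℝ) ≤ ((j : ℝ) + 1) ^ 2 := one_le_pow₀ (by simp)
  refine add_le_add ?_ ?_
  · change ((3 * n + 1 : ℕ) : ℝ≥0∞) * H / ((L : ℝ≥0∞) + 1) ≤ _
    rw [← ENNReal.ofReal_toReal hH, ← ENNReal.ofReal_natCast (3 * n + 1),
      ← ENNReal.ofReal_natCast L, ← ENNReal.ofReal_one,
      ← ENNReal.ofReal_add (by positivity) zero_le_one, ← ENNReal.ofReal_mul (by positivity),
      ← ENNReal.ofReal_div_of_pos (by positivity)]
    refine ENNReal.ofReal_le_ofReal ?_
    simp only [L, c₁]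
    push_cast
    rw [mul_one_div, div_le_div_iff₀ (by positivity) (by positivity)]
    have : 0 ≤ H.toReal := ENNReal.toReal_nonneg
    nlinarith [mul_le_mul_of_nonneg_right hn1 (mul_nonneg this (zero_le_one.trans hj))]
  · rw [ENNReal.ofReal_rpow_of_nonneg (by positivity) h0.le, ← ENNReal.ofReal_toReal hM,
      ← ENNReal.ofReal_natCast L, ← ENNReal.ofReal_one,
      ← ENNReal.ofReal_add (by positivity) zero_le_one, ← ENNReal.ofReal_mul (by positivity),
      ← ENNReal.ofReal_mul (by positivity)]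
    refine ENNReal.ofReal_le_ofReal ?_
    have hd : (Q / ((n : ℝ) + 1) ^ ((k : ℝ) / 2)) ^ α ≤ Q ^ α / ((4 : ℝ) ^ e) ^ j := by
      rw [Real.div_rpow hQ0 (by positivity), ← Real.rpow_mul (by positivity)]
      refine div_le_div_of_nonneg_left (by positivity) (by positivity) ?_
      rw [Real.rpow_pow_comm (by norm_num), show ((4 : ℝ) ^ j) = (n : ℝ) by simp [hn]]
      exact Real.rpow_le_rpow (by positivity) (by linarith) (by linarith)
    refine (mul_le_mul_of_nonneg_right hd (by positivity)).trans ?_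
    simp only [L, c₂, q]
    rw [div_pow]
    push_cast
    rw [show ((4 : ℝ) ^ j) = (n : ℝ) by simp [hn]]
    calc Q ^ α / ((4 : ℝ) ^ e) ^ j * (((n : ℝ) * ((j : ℝ) + 1) ^ 2 + 1) * M)
        ≤ Q ^ α / ((4 : ℝ) ^ e) ^ j * (2 * ((n : ℝ) * ((j : ℝ) + 1) ^ 2) * M) := by
          have : 0 ≤ M := ENNReal.toReal_nonneg
          gcongr
          nlinarith
      _ = _ := by ring

theorem false_of_band_summable {d : ℕ} [NeZero d] {μ : Measure (Step d → ℝ)}
    [IsProbabilityMeasure μ] {φ : Site d →+ ℤ} (hd : 2 ≤ d) (h : Hyp μ φ) {b : ℕ → ℝ≥0∞}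
    (hb : ∑' j, b j ≠ ∞)
    (hM : ∀ (j : ℕ) (o : Site d), φ o = 0 →
      pairsLaw μ φ (Meet o (4 ^ j) (4 ^ (j + 1))) ≤ b j) : False := by
  classical
  have := isProbabilityMeasure_pairLaw μ φ h
  have : IsProbabilityMeasure (pairsLaw μ φ) := by rw [pairsLaw]; infer_instance
  obtain ⟨j₀, hj₀⟩ := ((ENNReal.tendsto_sum_nat_add b hb).eventually
    (Iic_mem_nhds (show (0 : ℝ≥0∞) < 1 / 4 by simp))).exists
  obtain ⟨v, hv, hv0, hc⟩ := exists_connector hd h.lev
  obtain ⟨m, hm⟩ := ((avoidTop_far h v hv (4 ^ j₀)).eventually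
    (lt_mem_nhds (show (3 / 4 : ℝ≥0∞) < 1 by
      rw [ENNReal.div_lt_iff (Or.inl (by norm_num)) (Or.inl (by norm_num))]; norm_num))).exists
  obtain ⟨c, hcd, hcl⟩ := hc (-(m : ℤ))
  have ho : -disp c = (m : ℤ) • v := by rw [hcd, neg_smul, neg_neg]
  have hc0 : φ (disp c) = 0 := by rw [hcd, map_zsmul, hv0, smul_zero]
  set o : Site d := -disp c
  rw [← ho] at hm
  have hφo : φ o = 0 := by rw [ho, map_zsmul, hv0, smul_zero]
  have hstep : ∀ J : ℕ, (3 / 4 : ℝ≥0∞) ≤ pairsLaw μ φ (AvoidTop o (4 ^ (J + j₀))) +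
      ∑ i ∈ Finset.range J, b (i + j₀) := by
    intro J
    induction J with
    | zero => simpa using hm.le
    | succ J ih =>
      refine ih.trans ?_
      rw [Finset.sum_range_succ, add_comm _ (b (J + j₀)), ← add_assoc, show J + 1 + j₀ = J + j₀ + 1
        by omega]
      refine add_le_add ?_ le_rfl
      refine le_trans (measure_mono_ae ?_)
        ((measure_union_le _ _).trans (add_le_add le_rfl (hM (J + j₀) o hφo)))
      filter_upwards [ae_all_isPair h] with ω hω hA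
      by_cases hW : ω ∈ Meet o (4 ^ (J + j₀)) (4 ^ (J + j₀ + 1))
      · exact Or.inr hW
      · exact Or.inl (avoidTop_extend hφo hω hA hW)
  have hhalf : ∀ n, (1 / 2 : ℝ≥0∞) ≤ pairsLaw μ φ (AvoidTop o n) := by
    intro n
    have h2 : (3 / 4 : ℝ≥0∞) = 1 / 2 + 1 / 4 := by
      rw [← ENNReal.toReal_eq_toReal_iff' (ENNReal.div_ne_top (by norm_num) (by norm_num))
        (by simp), ENNReal.toReal_add (by simp) (by simp)]
      simp; norm_num
    have h3 := (hstep n).trans (add_le_add le_rfl ((ENNReal.sum_le_tsum _).trans hj₀))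
    rw [h2] at h3
    refine (ENNReal.le_of_add_le_add_right (by simp) h3).trans (measure_mono (avoidTop_anti o ?_))
    exact (Nat.lt_pow_self (by norm_num : 1 < 4)).le.trans
      (Nat.pow_le_pow_right (by norm_num) (Nat.le_add_right n j₀))
  refine ne_top_of_le_ne_top ?_ (budget h c hc0 hcl) ?_
  · exact ENNReal.inv_ne_top.2 (mul_ne_zero h.down.ne' (wt_pos μ h.ell c).ne')
  · refine top_le_iff.1 (le_trans (le_of_eq ?_) (ENNReal.tsum_le_tsum hhalf))
    rw [ENNReal.tsum_const_eq_top_of_ne_zero (by simp)]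

/-- Finite level powers on both sides exclude escapes in both directions. -/
theorem false_of_finite_pow {d : ℕ} [NeZero d] (μ : Measure (Step d → ℝ)) [IsProbabilityMeasure μ]
    (φ : Site d →+ ℤ) (hd : 4 ≤ d) {α : ℝ} (hα : 2 / ((d : ℝ) - 1) < α) (hα1 : α ≤ 1)
    (h : Hyp μ φ) (hp : meanPow μ φ α ≠ ∞) (hm : meanPow μ (-φ) α ≠ ∞) : False := by
  obtain ⟨k, rfl⟩ : ∃ k, d = k + 1 := ⟨d - 1, by omega⟩
  have hk : 2 / (k : ℝ) < α := by
    push_cast at hα
    rwa [add_sub_cancel_right] at hα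
  obtain ⟨⟨i₀, s⟩, hs⟩ := h.lev.2
  have hi : φ (stp (i₀, true)) ≠ 0 := by
    cases s
    · intro h0
      have := Regen.stp_neg (i₀, true)
      simp only [Bool.not_true] at this
      rw [this, map_neg, h0, neg_zero] at hs
      exact zero_ne_one hs
    · rw [hs]; exact one_ne_zero
  obtain ⟨b, hb, hM⟩ := exists_band_bound h hi hk hα1 hp hm (by omega)
  exact false_of_band_summable (by omega) h hb hM

end Vale.Agent.P147.Flux
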