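import Vale.Agent.P147.Flux.RangeSpeed
import Vale.Agent.P147.Flux.AlphaDefs

/-!
# Speed measured in level powers of the visited sites

If opposite escapes with finite mean level power of the blocks exclude each other, then either
every directional escape event has probability zero or one, or with positive probability each
coordinate is, along a subsequence, negligible against its power count of visited sites.
-/

namespace Vale.Agent.P147.Flux

open MeasureTheory Set Filter Regen
open scoped ENNReal Topology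

variable {d : ℕ}

theorem levelPow_nonneg (φ : Site d →+ ℤ) (α : ℝ) (S : Finset (Site d)) :
    0 ≤ levelPow φ α S :=
  Finset.sum_nonneg fun _ _ => Real.rpow_nonneg (Nat.cast_nonneg _) _

theorem levelPow_mono (φ : Site d →+ ℤ) {α : ℝ} (hα : 0 ≤ α) {S T : Finset (Site d)}
    (h : S ⊆ T) : levelPow φ α S ≤ levelPow φ α T := by
  refine (Finset.sum_le_sum fun m _ => ?_).trans
    (Finset.sum_le_sum_of_subset_of_nonneg (Finset.image_subset_image h)
      fun _ _ _ => Real.rpow_nonneg (Nat.cast_nonneg _) _)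
  exact Real.rpow_le_rpow (Nat.cast_nonneg _)
    (Nat.cast_le.2 (Finset.card_le_card (Finset.filter_subset_filter _ h))) hα

theorem one_le_levelPow (φ : Site d →+ ℤ) {α : ℝ} (hα : 0 ≤ α) {S : Finset (Site d)}
    (h : S.Nonempty) : 1 ≤ levelPow φ α S := by
  obtain ⟨z, hz⟩ := h
  have h1 : (1 : ℝ) ≤ ((S.filter fun y => φ y = φ z).card : ℝ) ^ α :=
    Real.one_le_rpow (Nat.one_le_cast.2 (Finset.card_pos.2 ⟨z, Finset.mem_filter.2 ⟨hz, rfl⟩⟩)) hα
  exact h1.trans (Finset.single_le_sum (f := fun m => ((S.filter fun y => φ y = m).card : ℝ) ^ α)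
    (fun _ _ => Real.rpow_nonneg (Nat.cast_nonneg _) _) (Finset.mem_image_of_mem φ hz))

theorem levelPow_translate (φ : Site d →+ ℤ) (α : ℝ) (a : Site d) (S : Finset (Site d)) :
    levelPow φ α (S.image (a + ·)) = levelPow φ α S := by
  have e : (S.image (a + ·)).image φ = (S.image φ).image (φ a + ·) := by
    simp only [Finset.image_image]
    exact Finset.image_congr fun z _ => map_add φ a z
  rw [levelPow, e, Finset.sum_image fun x _ y _ h => add_left_cancel h]
  refine Finset.sum_congr rfl fun m _ => ?_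
  congr 2
  rw [Finset.filter_image, Finset.card_image_of_injective _ fun x y h => add_left_cancel h]
  exact congrArg Finset.card (Finset.filter_congr fun z _ => by rw [map_add, add_right_inj])

theorem levelPow_neg (φ : Site d →+ ℤ) (α : ℝ) (S : Finset (Site d)) :
    levelPow (-φ) α S = levelPow φ α S := by
  have e : S.image (-φ : Site d →+ ℤ) = (S.image φ).image Neg.neg := by
    rw [Finset.image_image]; rfl
  rw [levelPow, e, Finset.sum_image fun x _ y _ h => neg_injective h]
  refine Finset.sum_congr rfl fun m _ => ?_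
  congr 2
  exact congrArg Finset.card (Finset.filter_congr fun z _ => by simp)

theorem levelPow_union (φ : Site d →+ ℤ) (α : ℝ) {S T : Finset (Site d)}
    (h : ∀ x ∈ S, ∀ y ∈ T, φ x < φ y) :
    levelPow φ α (S ∪ T) = levelPow φ α S + levelPow φ α T := by
  have hd : Disjoint (S.image φ) (T.image φ) := by
    refine Finset.disjoint_left.2 fun m h1 h2 => ?_
    obtain ⟨x, hx, rfl⟩ := Finset.mem_image.1 h1
    obtain ⟨y, hy, hxy⟩ := Finset.mem_image.1 h2
    exact absurd hxy (h x hx y hy).ne'
  rw [levelPow, Finset.image_union, Finset.sum_union hd]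
  refine congrArg₂ (· + ·) (Finset.sum_congr rfl fun m hm => ?_) (Finset.sum_congr rfl fun m hm => ?_)
  · rw [Finset.filter_union, Finset.filter_eq_empty_iff.2 fun y hy he =>
      Finset.disjoint_left.1 hd hm (Finset.mem_image.2 ⟨y, hy, he⟩), Finset.union_empty]
  · rw [Finset.filter_union, Finset.filter_eq_empty_iff.2 fun x hx he =>
      Finset.disjoint_right.1 hd hm (Finset.mem_image.2 ⟨x, hx, he⟩), Finset.empty_union]

theorem one_le_powCount (φ : Site d →+ ℤ) {α : ℝ} (hα : 0 ≤ α) (u : ℕ → Step d) (n : ℕ) :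
    1 ≤ powCount φ α u n :=
  one_le_levelPow φ hα (Finset.nonempty_range_add_one.image _)

theorem measurable_powCount (φ : Site d →+ ℤ) (α : ℝ) (n : ℕ) :
    Measurable fun u : ℕ → Step d => powCount φ α u n := by
  have h : (fun u : ℕ → Step d => powCount φ α u n) =
      (fun g : Fin (n + 1) → Site d => levelPow φ α (Finset.univ.image g)) ∘
        fun u k => path 0 u (k : ℕ) := by
    funext u
    simp only [powCount, Function.comp]
    congr 1
    ext z
    simp only [Finset.mem_image, Finset.mem_range, Finset.mem_univ, true_and]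
    exact ⟨fun ⟨k, hk, hz⟩ => ⟨⟨k, hk⟩, hz⟩, fun ⟨k, hz⟩ => ⟨k, k.2, hz⟩⟩
  rw [h]
  exact Measurable.of_discrete.comp (measurable_pi_lambda _ fun k =>
    (measurable_pi_apply (k : ℕ)).comp (measurable_path 0))

theorem powCount_shift_le (φ : Site d →+ ℤ) {α : ℝ} (hα : 0 ≤ α) (u : ℕ → Step d) (m k : ℕ) :
    powCount φ α (shiftSeq m u) k ≤ powCount φ α u (m + k) := by
  rw [powCount, powCount, ← levelPow_translate φ α (path 0 u m), Finset.image_image]
  refine levelPow_mono φ hα fun z hz => ?_
  obtain ⟨j, hj, rfl⟩ := Finset.mem_image.1 hz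
  exact Finset.mem_image.2
    ⟨m + j, by rw [Finset.mem_range] at hj ⊢; omega, path_add_shift u m j⟩

/-- The level is negligible against its power count, which is unbounded. -/
def PQuick (φ : Site d →+ ℤ) (α : ℝ) : Set (ℕ → Step d) :=
  {u | Tendsto (fun n => (|(φ (path 0 u n) : ℝ)| + 1) / powCount φ α u n) atTop (𝓝 0)}

theorem measurableSet_PQuick (φ : Site d →+ ℤ) (α : ℝ) : MeasurableSet (PQuick φ α) :=
  measurableSet_tendsto _ fun n =>
    (((Measurable.of_discrete (f := fun z : Site d => |(φ z : ℝ)| + 1)).comp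
      ((measurable_pi_apply n).comp (measurable_path 0)))).div (measurable_powCount φ α n)

theorem pquick_of_shift {φ : Site d →+ ℤ} {α : ℝ} (hα : 0 ≤ α) {u : ℕ → Step d} (m : ℕ)
    (h : shiftSeq m u ∈ PQuick φ α) : u ∈ PQuick φ α := by
  refine (tendsto_add_atTop_iff_nat m).1 ?_
  refine squeeze_zero (fun k => div_nonneg (by positivity) (levelPow_nonneg _ _ _))
    (g := fun k => (|(φ (path 0 u m) : ℝ)| + 1) *
      ((|(φ (path 0 (shiftSeq m u) k) : ℝ)| + 1) / powCount φ α (shiftSeq m u) k)) (fun k => ?_)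
    (by simpa using h.const_mul (|(φ (path 0 u m) : ℝ)| + 1))
  rw [add_comm k m, path_add_shift, map_add, Int.cast_add, ← mul_div_assoc]
  refine div_le_div₀ (by positivity) ?_ (one_pos.trans_le (one_le_powCount φ hα _ _))
    (powCount_shift_le φ hα u m k)
  have h1 := abs_add_le (φ (path 0 u m) : ℝ) (φ (path 0 (shiftSeq m u) k) : ℝ)
  have h2 : 0 ≤ |(φ (path 0 u m) : ℝ)| * |(φ (path 0 (shiftSeq m u) k) : ℝ)| := by positivity
  linarith

/-- A level unbounded in both directions vanishes infinitely often. -/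
theorem frequently_zero_of_two_sided {φ : Site d →+ ℤ} {u : ℕ → Step d} (h1 : u ∈ Unb φ)
    (h2 : u ∈ Unb (-φ)) (hl : IsLevel φ) : ∃ᶠ n in atTop, φ (path 0 u n) = 0 := by
  have hstep : ∀ n, |φ (path 0 u (n + 1)) - φ (path 0 u n)| ≤ 1 := fun n => by
    rw [path_succ, map_add, add_sub_cancel_left]
    exact hl.1 _
  refine frequently_atTop.2 fun N => ?_
  by_contra hc
  push Not at hc
  set B : ℤ := ∑ k ∈ Finset.range (N + 1), |φ (path 0 u k)|
  have hB : ∀ k ≤ N, |φ (path 0 u k)| ≤ B := fun k hk =>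
    Finset.single_le_sum (f := fun k => |φ (path 0 u k)|) (fun _ _ => abs_nonneg _)
      (Finset.mem_range.2 (Nat.lt_succ_of_le hk))
  rcases lt_or_gt_of_ne (hc N le_rfl) with hs | hs
  · have hneg : ∀ n ≥ N, φ (path 0 u n) < 0 := fun n hn => by
      induction n, hn using Nat.le_induction with
      | base => exact hs
      | succ n hn ih =>
        have := abs_le.1 (hstep n); have := hc (n + 1) (by omega); omega
    obtain ⟨n, hn⟩ := h1 (B + 1)
    have h0 : 0 ≤ B := Finset.sum_nonneg fun _ _ => abs_nonneg _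
    rcases le_or_gt n N with h | h
    · have := abs_le.1 (hB n h); omega
    · have := hneg n h.le; omega
  · have hpos : ∀ n ≥ N, 0 < φ (path 0 u n) := fun n hn => by
      induction n, hn using Nat.le_induction with
      | base => exact hs
      | succ n hn ih =>
        have := abs_le.1 (hstep n); have := hc (n + 1) (by omega); omega
    obtain ⟨n, hn⟩ := h2 (B + 1)
    have h0 : 0 ≤ B := Finset.sum_nonneg fun _ _ => abs_nonneg _
    simp only [AddMonoidHom.neg_apply] at hn
    rcases le_or_gt n N with h | h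
    · have := abs_le.1 (hB n h); omega
    · have := hpos n h.le; omega

variable [NeZero d]

/-- If one escape is possible and the opposite one is not, it is certain. -/
theorem esc_eq_one_of_down_null (μ : Measure (Step d → ℝ)) [IsProbabilityMeasure μ]
    (φ : Site d →+ ℤ) (hd : 2 ≤ d) (hell : IsElliptic μ) (hl : IsLevel φ) (ha : 0 < aUp μ φ)
    (hdown : ann μ 0 (Esc (-φ)) = 0) : ann μ 0 (Esc φ) = 1 := by
  have hm := SegAux.measurableSet_EscAux φ
  have hm' := SegAux.measurableSet_EscAux (-φ)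
  have hU := SegAux.measurableSet_UnbAux φ
  rw [← SegAux.annM_apply μ hm, ← prob_compl_eq_zero_iff hm]
  refine measure_mono_null (t := (Unb φ \ Esc φ) ∪ ((Unb φ)ᶜ \ Esc (-φ)) ∪ Esc (-φ)) ?_ ?_
  · intro u hu
    by_cases h1 : u ∈ Unb φ
    · exact Or.inl (Or.inl ⟨h1, hu⟩)
    · by_cases h2 : u ∈ Esc (-φ)
      · exact Or.inr h2
      · exact Or.inl (Or.inr ⟨h1, h2⟩)
  · refine measure_union_null (measure_union_null ?_ ?_) ?_
    · rw [SegAux.annM_apply μ (hU.diff hm)]
      exact ann_unb_diff_esc μ φ hell hl ha 0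
    · rw [SegAux.annM_apply μ (hU.compl.diff hm')]
      exact ann_bounded_diff_esc μ φ hd hell hl
    · rw [SegAux.annM_apply μ hm', hdown]

/-- Distinct blocks occupy distinct levels. -/
theorem sum_levelPow_trace_le {φ : Site d →+ ℤ} {α : ℝ} (hα : 0 ≤ α) {b : ℕ → Word d}
    (hb : ∀ i, IsBlock φ (b i)) {n m : ℕ} (hm : stepsUpTo b n ≤ m) :
    ∑ i ∈ Finset.range n, levelPow φ α (trace 0 (b i)) ≤ powCount φ α (glue b) m := by
  set p : ℕ → Site d := fun i => ∑ j ∈ Finset.range i, disp (b j) with hp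
  set S : ℕ → Finset (Site d) := fun j =>
    (Finset.range j).biUnion fun i => trace (p i) (b i) with hS
  have key : ∀ j, (∀ z ∈ S j, φ z < φ (p j)) ∧
      levelPow φ α (S j) = ∑ i ∈ Finset.range j, levelPow φ α (trace 0 (b i)) := by
    intro j
    induction j with
    | zero => simp [hS, levelPow]
    | succ j ih =>
      have hsucc : S (j + 1) = S j ∪ trace (p j) (b j) := by
        ext z
        simp only [hS, Finset.mem_biUnion, Finset.mem_range, Finset.mem_union, Nat.lt_succ_iff]
        constructor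
        · rintro ⟨i, hi, hz⟩
          rcases hi.eq_or_lt with rfl | h
          · exact Or.inr hz
          · exact Or.inl ⟨i, h, hz⟩
        · rintro (⟨i, hi, hz⟩ | hz)
          · exact ⟨i, hi.le, hz⟩
          · exact ⟨j, le_rfl, hz⟩
      have hj : φ (p (j + 1)) = φ (p j) + φ (disp (b j)) := by
        simp only [hp, Finset.sum_range_succ, map_add]
      refine ⟨fun z hz => ?_, ?_⟩
      · rw [hsucc, Finset.mem_union] at hz
        rcases hz with hz | hz
        · have := ih.1 z hz
          have := (hb j).1.height_pos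
          omega
        · exact ((hb j).1.level_trace hz).2.trans_eq hj.symm
      · rw [hsucc, levelPow_union φ α fun x hx y hy =>
          (ih.1 x hx).trans_le ((hb j).1.level_trace hy).1, ih.2, Finset.sum_range_succ]
        congr 1
        rw [show trace (p j) (b j) = trace (p j + 0) (b j) by rw [add_zero], trace_translate,
          levelPow_translate]
  rw [← (key n).2, powCount]
  refine levelPow_mono φ hα fun z hz => ?_
  obtain ⟨i, hi, hz⟩ := Finset.mem_biUnion.1 hz
  obtain ⟨k, hk, rfl⟩ := mem_trace.1 hz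
  refine Finset.mem_image.2 ⟨stepsUpTo b i + k, Finset.mem_range.2 ?_,
    path_glue (fun j => (hb j).1.1) i k hk.le⟩
  have h1 : stepsUpTo b (i + 1) = stepsUpTo b i + (b i).length := Finset.sum_range_succ _ _
  have h2 := stepsUpTo_mono b (show i + 1 ≤ n from Finset.mem_range.1 hi)
  omega

variable (μ : Measure (Step d → ℝ)) [IsProbabilityMeasure μ]

/-- Blocks with infinite mean level power give escapes slower than the power count. -/
theorem quick_of_meanPow_top (φ : Site d →+ ℤ) {α : ℝ} (hα : 0 ≤ α) (hell : IsElliptic μ)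
    (hl : IsLevel φ) (ha : 0 < aUp μ φ) (hR : meanPow μ φ α = ∞) :
    ann μ 0 (Esc φ \ PQuick φ α) = 0 := by
  have := isProbabilityMeasure_blockLaw μ φ hell hl ha
  refine ann_esc_diff_of_blocks hell hl ha (measurableSet_PQuick φ α)
    (fun m u h => pquick_of_shift hα m h) ?_
  have hlp : ∀ (K : ℕ) (s : Word d), 0 ≤ min (levelPow φ α (trace 0 s)) K := fun K s =>
    le_min (levelPow_nonneg _ _ _) (Nat.cast_nonneg _)
  have hmin : ∀ K : ℕ, Integrable (fun s : Word d => min (levelPow φ α (trace 0 s)) (K : ℝ))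
      (blockLaw μ φ) := fun K =>
    (integrable_const (K : ℝ)).mono' Measurable.of_discrete.aestronglyMeasurable
      (Eventually.of_forall fun s => by
        rw [Real.norm_eq_abs, abs_of_nonneg (hlp K s)]; exact min_le_right _ _)
  have hsup : Tendsto (fun K : ℕ => ∫ s, min (levelPow φ α (trace 0 s)) (K : ℝ) ∂blockLaw μ φ)
      atTop atTop := by
    have hI : ∀ K : ℕ, ∫⁻ s, ENNReal.ofReal (min (levelPow φ α (trace 0 s)) (K : ℝ)) ∂blockLaw μ φ =
        ENNReal.ofReal (∫ s, min (levelPow φ α (trace 0 s)) (K : ℝ) ∂blockLaw μ φ) := fun K =>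
      (ofReal_integral_eq_lintegral_ofReal (hmin K) (Eventually.of_forall (hlp K))).symm
    have h1 : Tendsto (fun K : ℕ => ∫⁻ s, ENNReal.ofReal (min (levelPow φ α (trace 0 s)) (K : ℝ))
        ∂blockLaw μ φ) atTop (𝓝 ∞) := by
      rw [← hR, meanPow]
      refine lintegral_tendsto_of_tendsto_of_monotone (fun K => Measurable.of_discrete.aemeasurable)
        (Eventually.of_forall fun s a b hab =>
          ENNReal.ofReal_le_ofReal (min_le_min le_rfl (Nat.cast_le.2 hab)))
        (Eventually.of_forall fun s => ?_)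
      refine tendsto_const_nhds.congr' ?_
      filter_upwards [eventually_ge_atTop ⌈levelPow φ α (trace 0 s)⌉₊] with K hK
      rw [min_eq_left ((Nat.le_ceil _).trans (Nat.cast_le.2 hK))]
    simp only [hI] at h1
    refine tendsto_atTop.2 fun R => ?_
    filter_upwards [h1.eventually (Ioi_mem_nhds (ENNReal.ofReal_lt_top (r := R)))] with K hK
    by_contra hlt
    exact not_lt.2 (ENNReal.ofReal_le_ofReal (not_le.1 hlt).le) hK
  filter_upwards [ae_all_blocks (μ := μ) (φ := φ), slln (integrable_height hell hl ha),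
    ae_all_iff.2 fun K : ℕ => slln (hmin K)] with b hb hH hK
  have hpos : ∀ i, 0 < (b i).length := fun i => (hb i).1.1
  obtain ⟨N, hN, hNt⟩ := exists_index hpos
  set Hs : ℕ → ℝ := fun n => ∑ i ∈ Finset.range n, ((φ (disp (b i))).toNat : ℝ)
  set Rs : ℕ → ℝ := fun n => ∑ i ∈ Finset.range n, levelPow φ α (trace 0 (b i))
  have hRs : Tendsto (fun n => Rs n / n) atTop atTop := by
    refine tendsto_atTop.2 fun R => ?_
    obtain ⟨K, hKR⟩ := (hsup.eventually (eventually_gt_atTop R)).exists
    filter_upwards [(hK K).eventually (Ioi_mem_nhds hKR)] with n hn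
    exact hn.le.trans (div_le_div_of_nonneg_right
      (Finset.sum_le_sum fun i _ => min_le_left _ _) (Nat.cast_nonneg _))
  have hH1 : Tendsto (fun n => (Hs (n + 1) + 1) / n) atTop
      (𝓝 (∫ s, ((φ (disp s)).toNat : ℝ) ∂blockLaw μ φ)) := by
    have h1 := (hH.comp (tendsto_add_atTop_nat 1)).mul
      ((tendsto_const_div_atTop_nhds_zero_nat (1 : ℝ)).const_add 1)
    have h2 := h1.add (tendsto_const_div_atTop_nhds_zero_nat (1 : ℝ))
    simp only [add_zero, mul_one] at h2
    refine h2.congr' ?_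
    filter_upwards [eventually_ge_atTop 1] with n hn
    have : (n : ℝ) ≠ 0 := Nat.cast_ne_zero.2 (by omega)
    simp only [Function.comp_apply, Hs, Nat.cast_add, Nat.cast_one]
    field_simp
  have hlev : ∀ m, |(φ (path 0 (glue b) m) : ℝ)| ≤ Hs (N m + 1) := by
    intro m
    obtain ⟨h1, h2⟩ := hN m
    obtain ⟨k, hk⟩ := Nat.exists_eq_add_of_le h1
    have hk' : k < (b (N m)).length := by
      have : stepsUpTo b (N m + 1) = stepsUpTo b (N m) + (b (N m)).length :=
        Finset.sum_range_succ _ _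
      omega
    have hseg := (hb (N m)).1.2 k hk'
    have hnn : ∀ i, 0 ≤ φ (disp (b i)) := fun i => (hb i).1.height_pos.le
    have e := path_glue hpos (N m) k hk'.le
    rw [← hk] at e
    rw [e, map_add, map_sum, abs_of_nonneg
      (Int.cast_nonneg_iff.2 (add_nonneg (Finset.sum_nonneg fun i _ => hnn i) hseg.1))]
    simp only [Hs]
    rw [Finset.sum_range_succ, Int.cast_add, Int.cast_sum]
    refine add_le_add (le_of_eq (Finset.sum_congr rfl fun i _ => ?_)) ?_
    · rw [← Int.cast_natCast, Int.toNat_of_nonneg (hnn i)]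
    · rw [← Int.cast_natCast, Int.toNat_of_nonneg (hnn _)]
      exact Int.cast_le.2 hseg.2.le
  refine squeeze_zero' (Eventually.of_forall fun m => div_nonneg (by positivity) (levelPow_nonneg _ _ _))
    ?_ ((hH1.comp hNt).div_atTop (hRs.comp hNt))
  filter_upwards [hNt.eventually (eventually_ge_atTop 1),
    (hRs.comp hNt).eventually (eventually_gt_atTop 0)] with m h1 h2
  simp only [Function.comp_apply] at h2 ⊢
  have h1' : (0 : ℝ) < N m := Nat.cast_pos.2 (by omega)
  rw [div_div_div_cancel_right₀ h1'.ne']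
  have hc : Rs (N m) ≤ powCount φ α (glue b) m := by
    exact sum_levelPow_trace_le hα hb (hN m).1
  exact div_le_div₀ (by linarith [abs_nonneg (φ (path 0 (glue b) m) : ℝ), hlev m])
    (by linarith [hlev m]) (by
      rcases le_or_gt (Rs (N m)) 0 with h | h
      · exact absurd h2 (not_lt.2 (div_nonpos_of_nonpos_of_nonneg h h1'.le))
      · exact h) hc

/-- If finite mean powers exclude opposite escapes, then either every directional escape event is
trivial, or each coordinate is, with positive probability, negligible against its power count. -/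
theorem pow_dichotomy_of (hd : 2 ≤ d) (hell : IsElliptic μ) {α : ℝ} (hα0 : 0 ≤ α)
    (hpow : ∀ φ : Site d →+ ℤ, Hyp μ φ → meanPow μ φ α ≠ ∞ → meanPow μ (-φ) α ≠ ∞ → False) :
    (∀ l : Fin d → ℝ, ann μ 0 (escEv l 0) = 0 ∨ ann μ 0 (escEv l 0) = 1) ∨
      ∀ i : Fin d, 0 < ann μ 0 {u | liminf (fun n =>
        |(path 0 u n i : ℝ)| / powCount (axisLevel (i, true)) α u n) atTop = 0} := by
  by_cases hone : ∃ φ : Site d →+ ℤ, IsLevel φ ∧ 0 < ann μ 0 (Esc φ) ∧ ann μ 0 (Esc (-φ)) = 0
  · obtain ⟨φ, hl, hp, hn⟩ := hone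
    have ha := Regen.aUp_pos μ φ hell hp
    refine Or.inl fun l => escEv_zero_one μ φ hell hl ha ?_ l
    exact esc_eq_one_of_down_null μ φ (by omega) hell hl ha hn
  refine Or.inr fun i => ?_
  set φ : Site d →+ ℤ := axisLevel (i, true)
  have hl : IsLevel φ := isLevel_axisLevel _
  have hφ : ∀ u n, φ (path 0 u n) = path 0 u n i := fun u n => by simp [φ, axisLevel]
  set Z : Set (ℕ → Step d) :=
    {u | liminf (fun n => |(path 0 u n i : ℝ)| / powCount φ α u n) atTop = 0}
  have hsq : ∀ ψ : Site d →+ ℤ, (ψ = φ ∨ ψ = -φ) → PQuick ψ α ⊆ Z := by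
    intro ψ hψ u hu
    refine Tendsto.liminf_eq (squeeze_zero
      (fun n => div_nonneg (abs_nonneg _) (levelPow_nonneg _ _ _)) (fun n => ?_) hu)
    have e : |(ψ (path 0 u n) : ℝ)| = |(path 0 u n i : ℝ)| ∧
        powCount ψ α u n = powCount φ α u n := by
      rcases hψ with rfl | rfl
      · exact ⟨by rw [hφ], rfl⟩
      · exact ⟨by simp [hφ], levelPow_neg _ _ _⟩
    rw [e.1, e.2]
    exact div_le_div_of_nonneg_right (le_add_of_nonneg_right zero_le_one) (levelPow_nonneg _ _ _)
  have side : ∀ ψ : Site d →+ ℤ, (ψ = φ ∨ ψ = -φ) → IsLevel ψ → 0 < ann μ 0 (Esc ψ) →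
      meanPow μ ψ α = ∞ → 0 < ann μ 0 Z := by
    intro ψ hψ hlψ hp hR
    have h0 := quick_of_meanPow_top μ ψ hα0 hell hlψ (Regen.aUp_pos μ ψ hell hp) hR
    have hQ := measurableSet_PQuick ψ α
    have hE := SegAux.measurableSet_EscAux ψ
    refine hp.trans_le ?_
    calc ann μ 0 (Esc ψ) = SegAux.annM μ (Esc ψ) := (SegAux.annM_apply μ hE).symm
      _ ≤ SegAux.annM μ ((Esc ψ \ PQuick ψ α) ∪ PQuick ψ α) :=
        measure_mono fun u hu => by by_cases h : u ∈ PQuick ψ α <;> simp [h, hu]
      _ ≤ _ := measure_union_le _ _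
      _ = ann μ 0 (PQuick ψ α) := by
        rw [SegAux.annM_apply μ (hE.diff hQ), h0, zero_add, SegAux.annM_apply μ hQ]
      _ ≤ ann μ 0 Z := ann_mono 0 (hsq ψ hψ)
  have hcase : (ann μ 0 (Esc φ) = 0 ∧ ann μ 0 (Esc (-φ)) = 0) ∨
      (0 < ann μ 0 (Esc φ) ∧ 0 < ann μ 0 (Esc (-φ))) := by
    rcases eq_or_ne (ann μ 0 (Esc φ)) 0 with h | h <;>
      rcases eq_or_ne (ann μ 0 (Esc (-φ))) 0 with h' | h'
    · exact Or.inl ⟨h, h'⟩
    · exact absurd ⟨-φ, isLevel_neg hl, pos_iff_ne_zero.2 h', by rwa [neg_neg]⟩ hone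
    · exact absurd ⟨φ, hl, pos_iff_ne_zero.2 h, h'⟩ hone
    · exact Or.inr ⟨pos_iff_ne_zero.2 h, pos_iff_ne_zero.2 h'⟩
  rcases hcase with ⟨hz, hz'⟩ | ⟨hp, hn⟩
  · have hb := ann_bounded_diff_esc μ φ (by omega) hell hl
    have hb' := ann_bounded_diff_esc μ (-φ) (by omega) hell (isLevel_neg hl)
    rw [neg_neg] at hb'
    have hU := SegAux.measurableSet_UnbAux φ
    have hU' := SegAux.measurableSet_UnbAux (-φ)
    have hE := SegAux.measurableSet_EscAux φ
    have hE' := SegAux.measurableSet_EscAux (-φ)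
    have hnull : SegAux.annM μ (Unb φ ∩ Unb (-φ))ᶜ = 0 := by
      refine measure_mono_null (t := (((Unb φ)ᶜ \ Esc (-φ)) ∪ Esc (-φ)) ∪
        (((Unb (-φ))ᶜ \ Esc φ) ∪ Esc φ)) ?_ ?_
      · intro u hu
        simp only [mem_compl_iff, mem_inter_iff, not_and_or] at hu
        rcases hu with h | h
        · by_cases h2 : u ∈ Esc (-φ)
          · exact Or.inl (Or.inr h2)
          · exact Or.inl (Or.inl ⟨h, h2⟩)
        · by_cases h2 : u ∈ Esc φ
          · exact Or.inr (Or.inr h2)
          · exact Or.inr (Or.inl ⟨h, h2⟩)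
      · refine measure_union_null (measure_union_null ?_ ?_) (measure_union_null ?_ ?_)
        · rw [SegAux.annM_apply μ (hU.compl.diff hE')]; exact hb
        · rw [SegAux.annM_apply μ hE']; exact hz'
        · rw [SegAux.annM_apply μ (hU'.compl.diff hE)]; exact hb'
        · rw [SegAux.annM_apply μ hE]; exact hz
    have h1 : ann μ 0 (Unb φ ∩ Unb (-φ)) = 1 := by
      rw [← SegAux.annM_apply μ (hU.inter hU')]
      exact (prob_compl_eq_zero_iff (hU.inter hU')).1 hnull
    refine (show (0 : ℝ≥0∞) < 1 from zero_lt_one).trans_le (h1.symm.le.trans (ann_mono 0 ?_))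
    intro u hu
    have hzero := frequently_zero_of_two_sided hu.1 hu.2 hl
    have hnn : ∀ n, 0 ≤ |(path 0 u n i : ℝ)| / powCount φ α u n := fun n =>
      div_nonneg (abs_nonneg _) (levelPow_nonneg _ _ _)
    have hf : ∃ᶠ n in atTop, |(path 0 u n i : ℝ)| / powCount φ α u n ≤ 0 :=
      hzero.mono fun n hn => by
        rw [hφ] at hn
        simp [hn]
    exact le_antisymm
      (liminf_le_of_frequently_le hf (isBoundedUnder_of_eventually_ge (Eventually.of_forall hnn)))
      (le_liminf_of_le (IsCoboundedUnder.of_frequently_le hf) (Eventually.of_forall hnn))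
  · by_cases h : meanPow μ φ α = ∞
    · exact side φ (Or.inl rfl) hl hp h
    · refine side (-φ) (Or.inr rfl) (isLevel_neg hl) hn ?_
      by_contra h'
      exact hpow φ ⟨hell, hl, Regen.aUp_pos μ φ hell hp, Regen.aUp_pos μ _ hell hn⟩ h h'

end Vale.Agent.P147.Flux
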