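import Vale.Agent.P147.Flux.Final
import Vale.Agent.P147.Regen.OneVelocity

/-!
# Ballistic laws obey the zero-one law in dimension at least four
-/

namespace Vale.Agent.P147.Flux

open MeasureTheory Set Filter Regen
open scoped ENNReal Topology

variable {d : ℕ} [NeZero d] (μ : Measure (Step d → ℝ)) [IsProbabilityMeasure μ]

/-- A direction with finite mean range is taken almost surely. -/
theorem esc_full (φ : Site d →+ ℤ) (hd : 4 ≤ d) (hell : IsElliptic μ) (hl : IsLevel φ)
    (ha : 0 < aUp μ φ) (hR : meanRange μ φ ≠ ∞) : ann μ 0 (Esc φ) = 1 := by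
  have hdown : ann μ 0 (Esc (-φ)) = 0 := by
    by_contra h
    exact false_of_finite_range μ φ hd
      ⟨hell, hl, ha, Regen.aUp_pos μ _ hell (pos_iff_ne_zero.2 h)⟩ hR
  have hm := SegAux.measurableSet_EscAux φ
  have hm' := SegAux.measurableSet_EscAux (-φ)
  have hU := SegAux.measurableSet_UnbAux φ
  have h0 : ann μ 0 (Esc φ)ᶜ = 0 := by
    rw [← SegAux.annM_apply μ hm.compl]
    refine measure_mono_null (t := (Unb φ \ Esc φ) ∪ ((Unb φ)ᶜ \ Esc (-φ)) ∪ Esc (-φ)) ?_ ?_
    · intro u hu
      by_cases h1 : u ∈ Unb φ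
      · exact Or.inl (Or.inl ⟨h1, hu⟩)
      · by_cases h2 : u ∈ Esc (-φ)
        · exact Or.inr h2
        · exact Or.inl (Or.inr ⟨h1, h2⟩)
    · refine measure_union_null (measure_union_null ?_ ?_) ?_
      · rw [SegAux.annM_apply μ (hU.diff hm)]
        exact ann_unb_diff_esc μ φ hell hl ha 0
      · rw [SegAux.annM_apply μ (hU.compl.diff hm')]
        exact ann_bounded_diff_esc μ φ (by omega) hell hl
      · rw [SegAux.annM_apply μ hm', hdown]
  rw [ann_compl 0 hm] at h0
  exact le_antisymm (ann_le_one 0 _) (tsub_eq_zero_iff_le.1 h0)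

/-- Either every coordinate has zero lower speed, or there is a deterministic nonzero velocity and
every directional escape event has probability zero or one. -/
theorem ballistic_dichotomy (hd : 4 ≤ d) (hell : IsElliptic μ) :
    ann μ 0 {u | ∀ i, liminf (fun n => |(path 0 u n i : ℝ)| / n) atTop = 0} = 1 ∨
      ((∀ l : Fin d → ℝ, ann μ 0 (escEv l 0) = 0 ∨ ann μ 0 (escEv l 0) = 1) ∧
        ∃ v : Fin d → ℝ, v ≠ 0 ∧ ann μ 0 (Conv v) = 1) := by
  classical
  set Z : Set (ℕ → Step d) := {u | ∀ i, liminf (fun n => |(path 0 u n i : ℝ)| / n) atTop = 0}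
  obtain ⟨v, hv⟩ := one_velocity μ (by omega) hell
  by_cases hpos : ∃ e : Step d, ∃ w : Fin d → ℝ, 0 < slope (axisLevel e) w ∧ 0 < ann μ 0 (Conv w)
  · right
    obtain ⟨e, w, hw, hc⟩ := hpos
    have hl := isLevel_axisLevel e
    obtain ⟨ha, hL⟩ := ballistic_of_conv hell hl hw hc
    have hfull := esc_full μ _ hd hell hl ha
      (ne_top_of_le_ne_top hL (meanRange_le_meanLen μ _))
    refine ⟨fun l => escEv_zero_one μ _ hell hl ha hfull l, ?_⟩
    obtain ⟨v₀, hs, hnull⟩ := lln_of_meanLen_ne_top μ _ hell hl ha hL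
    refine ⟨v₀, fun hz => ?_, le_antisymm (ann_le_one 0 _) ?_⟩
    · change 0 < slope _ v₀ at hs
      rw [hz, slope_zero_right] at hs
      exact lt_irrefl _ hs
    · have hE := SegAux.measurableSet_EscAux (axisLevel e)
      rw [← SegAux.annM_apply μ (measurableSet_Conv v₀)]
      calc (1 : ℝ≥0∞) = SegAux.annM μ (Esc (axisLevel e)) := by
            rw [SegAux.annM_apply μ hE, hfull]
        _ ≤ SegAux.annM μ ((Esc (axisLevel e) \ Conv v₀) ∪ Conv v₀) :=
            measure_mono fun u hu => by by_cases h : u ∈ Conv v₀ <;> simp [h, hu]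
        _ ≤ _ := measure_union_le _ _
        _ = SegAux.annM μ (Conv v₀) := by
            rw [SegAux.annM_apply μ (hE.diff (measurableSet_Conv v₀))]
            change ann μ 0 (_ \ {u | _}) + _ = _
            rw [hnull, zero_add]
  · left
    have hsub : Conv v ⊆ Z ∨ ann μ 0 (Conv v) = 0 := by
      rcases eq_or_ne v 0 with rfl | hv0
      · refine Or.inl fun u hu i => Tendsto.liminf_eq ?_
        have h1 := (tendsto_pi_nhds.1 hu i).abs
        simp only [Pi.zero_apply, abs_zero] at h1
        exact h1.congr fun n => by rw [abs_div, Nat.abs_cast]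
      · obtain ⟨e, he⟩ := exists_sign hv0
        refine Or.inr (nonpos_iff_eq_zero.1 (not_lt.1 fun h => hpos ⟨e, v, he, h⟩))
    refine le_antisymm (ann_le_one 0 _) ?_
    have hle : ann μ 0 (Z ∪ Conv v) ≤ ann μ 0 Z := by
      rcases hsub with h | h
      · rw [union_eq_self_of_subset_right h]
      · simp only [ann] at h ⊢
        calc ∫⁻ w, W w 0 (Z ∪ Conv v) ∂envLaw μ
            ≤ ∫⁻ w, (W w 0 Z + W w 0 (Conv v)) ∂envLaw μ :=
              lintegral_mono fun w => measure_union_le _ _
          _ = _ := by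
            rw [lintegral_add_right _ (measurable_W 0 (measurableSet_Conv v)), h, add_zero]
    exact le_trans (le_of_eq hv.symm) hle

end Vale.Agent.P147.Flux
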