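import Vale.Agent.P147.Flux.Defs

/-!
# A walk bounded above in a level escapes downwards

At infinitely many visits of one site the walk takes a given step, by ellipticity; at infinitely
many first visits it takes the step too, since the rows there are fresh.
-/

namespace Vale.Agent.P147.Flux

open MeasureTheory Set Filter Regen Regen.SegAux
open scoped ENNReal

variable {d : ℕ}

/-- Infinitely often at a word with the property `P`, and never taking the step `e` there. -/
def avoidStep (P : Word d → Prop) (e : Step d) : Set (ℕ → Step d) :=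
  {u | (∃ᶠ n in atTop, P (pref u n)) ∧ ∀ n, P (pref u n) → u n ≠ e}

theorem measurableSet_prefProp (P : Word d → Prop) (n : ℕ) :
    MeasurableSet {u : ℕ → Step d | P (pref u n)} := by
  have h : {u : ℕ → Step d | P (pref u n)} =
      ⋃ v : {v : Word d // P v ∧ v.length = n}, Pre v.1 := by
    ext u
    simp only [mem_ofPred_eq, mem_iUnion]
    constructor
    · intro hu
      exact ⟨⟨pref u n, hu, pref_length u n⟩, pref_mem u n⟩
    · rintro ⟨⟨v, hv, rfl⟩, hu⟩
      rw [pref_eq hu]
      exact hv
  rw [h]
  exact MeasurableSet.iUnion fun v => measurableSet_Pre _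

theorem measurableSet_avoidStep (P : Word d → Prop) (e : Step d) :
    MeasurableSet (avoidStep P e) := by
  have h : avoidStep P e = (⋂ N, ⋃ n ∈ Ici N, {u | P (pref u n)}) ∩
      ⋂ n, ({u | P (pref u n)} ∩ (fun u : ℕ → Step d => u n) ⁻¹' {e})ᶜ := by
    ext u
    simp only [avoidStep, mem_ofPred_eq, mem_inter_iff, mem_iInter, mem_iUnion, mem_Ici,
      mem_compl_iff, mem_preimage, mem_singleton_iff, frequently_atTop, exists_prop, not_and]
  rw [h]
  exact (MeasurableSet.iInter fun N => MeasurableSet.biUnion (to_countable _)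
    fun n _ => measurableSet_prefProp P n).inter (MeasurableSet.iInter fun n =>
      ((measurableSet_prefProp P n).inter
        (measurable_pi_apply (X := fun _ : ℕ => Step d) n (measurableSet_singleton e))).compl)

/-- A step with a fixed positive conditional probability is not avoided infinitely often. -/
theorem avoidStep_null (ν : Measure (ℕ → Step d)) [IsProbabilityMeasure ν] (P : Word d → Prop)
    (e : Step d) {c : ℝ≥0∞} (hc : 0 < c)
    (hstep : ∀ s, P s → ν (Pre (s ++ [e])) = ν (Pre s) * c) : ν (avoidStep P e) = 0 := by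
  have hdisj : ∀ Q : Word d → Prop, Pairwise (Function.onFun Disjoint
      fun v : Stops Q => (Pre v.1 : Set (ℕ → Step d))) := fun Q v v' hne =>
    disjoint_left.2 fun u h1 h2 => hne (Subtype.ext (eq_of_Stops v.2 v'.2 h1 h2))
  have key : ∀ (j : ℕ) (s : Word d), P s →
      ν (Pre s ∩ avoidStep P e) ≤ (1 - c) ^ j * ν (Pre s) := by
    intro j
    induction j with
    | zero => intro s _; rw [pow_zero, one_mul]; exact measure_mono inter_subset_left
    | succ j ih =>
      intro s hs
      set Q : Word d → Prop := fun v => s.length < v.length ∧ v.take s.length = s ∧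
        v.take (s.length + 1) ≠ s ++ [e] ∧ P v
      have hsub : Pre s ∩ avoidStep P e ⊆ ⋃ v : Stops Q, Pre v.1 ∩ avoidStep P e := by
        rintro u ⟨hus, hu⟩
        obtain ⟨n, hn, hPn⟩ := frequently_atTop.1 hu.1 (s.length + 1)
        have hne : pref u (s.length + 1) ≠ s ++ [e] := by
          intro he
          refine hu.2 s.length ((pref_eq hus).symm ▸ hs) ?_
          have h1 : u ∈ Pre (s ++ [e]) := he ▸ pref_mem u _
          rw [h1 s.length (by simp)]
          simp
        obtain ⟨v, hv, huv⟩ := exists_stop (P := Q) (u := u) ⟨n, by rw [pref_length]; omega,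
          by rw [take_pref u (by omega), pref_eq hus], by rw [take_pref u (by omega)]; exact hne,
          hPn⟩
        exact mem_iUnion.2 ⟨⟨v, hv⟩, huv, hu⟩
      have hsum : ∑' v : Stops Q, ν (Pre v.1) ≤ ν (Pre s) * (1 - c) := by
        rw [← measure_iUnion (hdisj Q) fun v => measurableSet_Pre _,
          ENNReal.mul_sub (fun _ _ => measure_ne_top _ _), mul_one, ← hstep s hs]
        have hPs : Pre (s ++ [e]) ⊆ Pre s := fun u hu => (Pre_append hu).1
        rw [← measure_sdiff hPs (measurableSet_Pre _).nullMeasurableSet (measure_ne_top _ _)]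
        refine measure_mono (iUnion_subset fun v u hu => ?_)
        obtain ⟨h1, h2, h3, -⟩ := v.2.1
        rw [take_eq_pref hu h1.le] at h2
        rw [take_eq_pref hu h1] at h3
        refine ⟨h2 ▸ pref_mem u _, fun he => h3 ?_⟩
        have h4 := pref_eq he
        rwa [List.length_append, List.length_singleton] at h4
      calc ν (Pre s ∩ avoidStep P e)
          ≤ ∑' v : Stops Q, ν (Pre v.1 ∩ avoidStep P e) :=
            (measure_mono hsub).trans (measure_iUnion_le _)
        _ ≤ ∑' v : Stops Q, (1 - c) ^ j * ν (Pre v.1) :=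
            ENNReal.tsum_le_tsum fun v => ih _ v.2.1.2.2.2
        _ = (1 - c) ^ j * ∑' v : Stops Q, ν (Pre v.1) := ENNReal.tsum_mul_left
        _ ≤ (1 - c) ^ j * (ν (Pre s) * (1 - c)) := mul_le_mul_of_nonneg_left hsum zero_le
        _ = (1 - c) ^ (j + 1) * ν (Pre s) := by rw [pow_succ]; ring
  have hj : ∀ j, ν (avoidStep P e) ≤ (1 - c) ^ j := fun j => by
    calc ν (avoidStep P e) ≤ ν (⋃ v : Stops P, Pre v.1 ∩ avoidStep P e) :=
          measure_mono fun u hu => by
            obtain ⟨v, hv, huv⟩ := exists_stop (P := P) (u := u) hu.1.exists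
            exact mem_iUnion.2 ⟨⟨v, hv⟩, huv, hu⟩
      _ ≤ ∑' v : Stops P, ν (Pre v.1 ∩ avoidStep P e) := measure_iUnion_le _
      _ ≤ ∑' v : Stops P, (1 - c) ^ j * ν (Pre v.1) :=
          ENNReal.tsum_le_tsum fun v => key j _ v.2.1
      _ ≤ (1 - c) ^ j := by
          rw [ENNReal.tsum_mul_left, ← measure_iUnion (hdisj P) fun v => measurableSet_Pre _]
          exact mul_le_of_le_one_right zero_le prob_le_one
  have hlt : 1 - c < 1 := ENNReal.sub_lt_self ENNReal.one_ne_top one_ne_zero hc.ne'
  exact le_antisymm (ge_of_tendsto' (ENNReal.tendsto_pow_atTop_nhds_zero_of_lt_one hlt) hj) zero_le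

theorem qw_snoc (w : Env d) (e : Step d) (x : Site d) (s : Word d) :
    qw w x (s ++ [e]) = qw w x s * ENNReal.ofReal (w (x + disp s) e) := by
  induction s generalizing x with
  | nil => simp [qw, disp_nil]
  | cons a s ih => simp [qw, disp_cons, ih, add_assoc, mul_assoc]

/-- Words from time `N` on which end at the site `z`. -/
def atSite (z : Site d) (N : ℕ) (s : Word d) : Prop := N ≤ s.length ∧ disp s = z

/-- Words from time `N` on which end at a new site of level `m`. -/
def atNew (φ : Site d →+ ℤ) (m : ℤ) (N : ℕ) (s : Word d) : Prop :=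
  N ≤ s.length ∧ φ (disp s) = m ∧ disp s ∉ trace 0 s

theorem disp_pref (u : ℕ → Step d) (n : ℕ) : disp (pref u n) = path 0 u n := by
  have h := path_pre (pref_mem u n) 0 (k := n) (by simp)
  rw [show (pref u n).take n = pref u n from List.take_of_length_le (by simp), zero_add] at h
  exact h.symm

variable [NeZero d] (μ : Measure (Step d → ℝ)) [IsProbabilityMeasure μ] (φ : Site d →+ ℤ)

theorem annM_avoid_site_null (hell : IsElliptic μ) (z : Site d) (N : ℕ) (e : Step d) :
    annM μ (avoidStep (atSite z N) e) = 0 := by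
  rw [annM_apply μ (measurableSet_avoidStep _ e), ann,
    lintegral_eq_zero_iff (measurable_W 0 (measurableSet_avoidStep _ e))]
  filter_upwards [ae_isEnv.ae_all_rows' μ hell] with w hw
  have hE : IsEnv w := ⟨fun y a => ((hw y).1 a).le, fun y => (hw y).2⟩
  refine avoidStep_null (W w 0) _ e (c := ENNReal.ofReal (w z e))
    (ENNReal.ofReal_pos.2 ((hw z).1 e)) fun s hs => ?_
  rw [W_Pre hE, W_Pre hE, qw_snoc, zero_add, hs.2]

theorem annM_avoid_new_null (hell : IsElliptic μ) (m : ℤ) (N : ℕ) (e : Step d) :
    annM μ (avoidStep (atNew φ m N) e) = 0 := by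
  refine avoidStep_null _ _ e (wt_pos μ hell [e]) fun s hs => ?_
  rw [annM_Pre μ hell, annM_Pre μ hell, Regen.wt_append s [e]]
  simpa [trace, Finset.disjoint_singleton_right] using hs.2.2

omit [NeZero d] in
/-- Paths staying eventually at or below a level, reaching it infinitely often, avoid its step. -/
theorem subset_avoid {e : Step d} (he : φ (stp e) = 1) :
    (Unb φ)ᶜ \ Esc (-φ) ⊆ (⋃ p : ℤ × ℕ, avoidStep (atNew φ p.1 p.2) e) ∪
      ⋃ p : Site d × ℕ, avoidStep (atSite p.1 p.2) e := by
  rintro u ⟨hb, hesc⟩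
  simp only [mem_compl_iff, Unb, mem_ofPred_eq, not_forall, not_exists, not_le] at hb
  obtain ⟨M, hM⟩ := hb
  rw [mem_Esc, tendsto_atTop] at hesc
  push Not at hesc
  obtain ⟨b, hb⟩ := hesc
  -- the highest level reached infinitely often
  obtain ⟨m, hm, hmax⟩ := Int.exists_greatest_of_bdd
    (P := fun z => ∃ᶠ n in atTop, z ≤ lev φ u n)
    ⟨M, fun z hz => by obtain ⟨n, hn⟩ := hz.exists; exact (hn.trans_lt (hM n)).le⟩
    ⟨-b, hb.mono fun n hn => by
      have h1 : lev (-φ) u n = -lev φ u n := rfl
      omega⟩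
  have hev : ∀ᶠ n in atTop, lev φ u n ≤ m := by
    by_contra hc
    have := hmax (m + 1) ((not_eventually.1 hc).mono fun n hn => by omega)
    omega
  obtain ⟨N, hN⟩ := eventually_atTop.1 hev
  have heq : ∃ᶠ n in atTop, lev φ u n = m :=
    (hm.and_eventually hev).mono fun n hn => le_antisymm hn.2 hn.1
  have hne : ∀ n, N ≤ n → lev φ u n = m → u n ≠ e := by
    intro n hn hl hue
    have h1 : lev φ u (n + 1) = m + 1 := by
      rw [lev, path_succ, map_add, ← lev, hl, hue, he]
    have := hN (n + 1) (by omega)
    omega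
  by_cases hnew : ∃ᶠ n in atTop, atNew φ m N (pref u n)
  · refine Or.inl (mem_iUnion.2 ⟨(m, N), hnew, fun n hn => hne n (by simpa using hn.1) ?_⟩)
    rw [← lev_pref φ u n]; exact hn.2.1
  · refine Or.inr ?_
    obtain ⟨K, hK⟩ := eventually_atTop.1 (not_frequently.1 hnew)
    classical
    set S := ((Finset.range (max K N)).image fun i => path 0 u i).filter fun z => φ z = m
    have hS : ∀ n, lev φ u n = m → path 0 u n ∈ S := by
      intro n hn
      refine Finset.mem_filter.2 ⟨?_, hn⟩
      have hex : ∃ i, path 0 u i = path 0 u n := ⟨n, rfl⟩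
      have hi := Nat.find_spec hex
      refine Finset.mem_image.2 ⟨Nat.find hex, Finset.mem_range.2 (not_le.1 fun hc => ?_), hi⟩
      refine hK _ ((le_max_left K N).trans hc)
        ⟨by rw [pref_length]; exact (le_max_right K N).trans hc, ?_, ?_⟩
      · rw [disp_pref, hi]; exact hn
      · intro hmem
        obtain ⟨k, hk, hke⟩ := mem_trace.1 hmem
        rw [pref_length] at hk
        rw [zero_add, take_pref u hk.le, disp_pref, disp_pref, hi] at hke
        exact Nat.find_min hex hk hke.symm
    obtain ⟨z, hzS, hz⟩ : ∃ z ∈ S, ∃ᶠ n in atTop, path 0 u n = z := by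
      by_contra hc
      push Not at hc
      refine heq (((eventually_all_finset S).2 fun z hz => hc z hz).mono fun n hn hl => ?_)
      exact hn _ (hS n hl) rfl
    refine mem_iUnion.2 ⟨(z, N), (hz.and_eventually (eventually_ge_atTop N)).mono fun n hn =>
      ⟨by rw [pref_length]; exact hn.2, by rw [disp_pref]; exact hn.1⟩, fun n hn => ?_⟩
    refine hne n (by simpa using hn.1) ?_
    rw [lev, ← disp_pref, hn.2]
    exact (Finset.mem_filter.1 hzS).2

theorem ann_bounded_diff_esc (_hd : 2 ≤ d) (hell : IsElliptic μ) (hl : IsLevel φ) :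
    ann μ 0 ((Unb φ)ᶜ \ Esc (-φ)) = 0 := by
  obtain ⟨e, he⟩ := hl.2
  rw [← annM_apply μ ((measurableSet_UnbAux φ).compl.diff (measurableSet_EscAux (-φ)))]
  exact measure_mono_null (subset_avoid φ he) (measure_union_null
    (measure_iUnion_null fun p => annM_avoid_new_null μ φ hell p.1 p.2 e)
    (measure_iUnion_null fun p => annM_avoid_site_null μ hell p.1 p.2 e))

end Vale.Agent.P147.Flux
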