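import Vale.Agent.P147.Flux.Defs

/-!
# Two walks in a common environment separate with positive probability

As long as their paths are disjoint, two independent walks have the same law as two walks in a
common environment; a connector then moves the second start point to the origin.
-/

namespace Vale.Agent.P147.Flux

open MeasureTheory Set Filter Regen
open scoped ENNReal

variable {d : ℕ}

section Words

variable (n : ℕ) (x y : Site d)

/-- The first `n` steps of both walks. -/
def both (p : (ℕ → Step d) × (ℕ → Step d)) : Word d × Word d :=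
  trunc2 (fun _ => True) (fun _ => True) n x y p

/-- Pairs of words at nonnegative levels with disjoint traces. -/
def cleanPairs (φ : Site d →+ ℤ) : Set (Word d × Word d) :=
  {q | (∀ z ∈ trace x q.1, 0 ≤ φ z) ∧ (∀ z ∈ trace y q.2, 0 ≤ φ z) ∧
    Disjoint (trace x q.1) (trace y q.2)}

theorem cleanPairs_subset (φ : Site d →+ ℤ) : cleanPairs x y φ ⊆ apart x y := fun _ h => h.2.2

/-- Both walks stay at nonnegative levels without meeting, for `n` steps. -/
def CleanUpTo (φ : Site d →+ ℤ) : Set ((ℕ → Step d) × (ℕ → Step d)) :=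
  both n x y ⁻¹' cleanPairs x y φ

theorem mem_trace_both {z : Site d} {u : ℕ → Step d} :
    z ∈ trace x (trunc (fun _ => True) n x u) ↔ ∃ i < n, path x u i = z := by
  rw [mem_trace_trunc]
  simp

/-- Both walks stay at nonnegative levels without meeting. -/
def Clean (φ : Site d →+ ℤ) : Set ((ℕ → Step d) × (ℕ → Step d)) :=
  {p | (∀ i, 0 ≤ φ (path x p.1 i)) ∧ (∀ j, 0 ≤ φ (path y p.2 j)) ∧
    ∀ i j, path x p.1 i ≠ path y p.2 j}

theorem clean_eq_iInter (φ : Site d →+ ℤ) : Clean x y φ = ⋂ n, CleanUpTo n x y φ := by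
  ext p
  simp only [mem_iInter, CleanUpTo, both, trunc2, mem_preimage, cleanPairs, mem_ofPred_eq,
    mem_trace_both, Clean, Finset.disjoint_left]
  constructor
  · rintro ⟨h1, h2, h3⟩ n
    refine ⟨?_, ?_, ?_⟩
    · rintro z ⟨i, -, rfl⟩; exact h1 i
    · rintro z ⟨j, -, rfl⟩; exact h2 j
    · rintro z ⟨i, -, rfl⟩ ⟨j, -, hj⟩; exact h3 i j hj.symm
  · intro h
    exact ⟨fun i => (h (i + 1)).1 _ ⟨i, by omega, rfl⟩,
      fun j => (h (j + 1)).2.1 _ ⟨j, by omega, rfl⟩,
      fun i j he => (h (i + j + 1)).2.2 ⟨i, by omega, rfl⟩ ⟨j, by omega, he.symm⟩⟩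

theorem measurableSet_cleanUpTo (φ : Site d →+ ℤ) : MeasurableSet (CleanUpTo n x y φ) := by
  rw [CleanUpTo, ← biUnion_preimage_singleton]
  exact MeasurableSet.biUnion (to_countable _) fun q _ =>
    measurableSet_trunc2_fibre _ _ n x y q

theorem measurableSet_clean (φ : Site d →+ ℤ) : MeasurableSet (Clean x y φ) := by
  rw [clean_eq_iInter]
  exact MeasurableSet.iInter fun n => measurableSet_cleanUpTo n x y φ

theorem antitone_cleanUpTo (φ : Site d →+ ℤ) : Antitone fun n => CleanUpTo n x y φ := by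
  intro a b hab p hp
  simp only [CleanUpTo, both, trunc2, mem_preimage, cleanPairs, mem_ofPred_eq, mem_trace_both,
    Finset.disjoint_left] at hp ⊢
  exact ⟨fun z ⟨i, hi, e⟩ => hp.1 z ⟨i, hi.trans_le hab, e⟩,
    fun z ⟨j, hj, e⟩ => hp.2.1 z ⟨j, hj.trans_le hab, e⟩,
    fun z ⟨i, hi, e⟩ ⟨j, hj, e'⟩ => hp.2.2 ⟨i, hi.trans_le hab, e⟩ ⟨j, hj.trans_le hab, e'⟩⟩

end Words

variable [NeZero d]

theorem measurable_prod_W (x y : Site d) {S : Set ((ℕ → Step d) × (ℕ → Step d))}
    (hS : MeasurableSet S) : Measurable fun w : Env d => (W w x).prod (W w y) S := by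
  let F : Env d × ((ℕ → ℝ) × (ℕ → ℝ)) → (ℕ → Step d) × (ℕ → Step d) :=
    fun p => (stepSeq p.1 x p.2.1, stepSeq p.1 y p.2.2)
  have hF : Measurable F :=
    ((measurable_stepSeq_joint x).comp (f := fun p : Env d × ((ℕ → ℝ) × (ℕ → ℝ)) => (p.1, p.2.1))
      (measurable_fst.prodMk (measurable_fst.comp measurable_snd))).prodMk
      ((measurable_stepSeq_joint y).comp (f := fun p : Env d × ((ℕ → ℝ) × (ℕ → ℝ)) => (p.1, p.2.2))
        (measurable_fst.prodMk (measurable_snd.comp measurable_snd)))
  have he : ∀ w : Env d, (W w x).prod (W w y) S =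
      ((Measure.infinitePi fun _ : ℕ => unif).prod (Measure.infinitePi fun _ : ℕ => unif))
        (Prod.mk w ⁻¹' (F ⁻¹' S)) := by
    intro w
    simp only [W]
    rw [Measure.map_prod_map _ _ (measurable_stepSeq w x) (measurable_stepSeq w y),
      Measure.map_apply ((measurable_stepSeq w x).prodMap (measurable_stepSeq w y)) hS]
    congr 1
  rw [funext he]
  exact measurable_measure_prodMk_left (hF hS)

variable (μ : Measure (Step d → ℝ)) [IsProbabilityMeasure μ]

/-- The law of two walks in a common environment. -/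
noncomputable def jointLaw (x y : Site d) : Measure ((ℕ → Step d) × (ℕ → Step d)) :=
  (envLaw μ).bind fun w => (W w x).prod (W w y)

omit [IsProbabilityMeasure μ] in
theorem jointLaw_apply (x y : Site d) {S : Set ((ℕ → Step d) × (ℕ → Step d))}
    (hS : MeasurableSet S) : jointLaw μ x y S = ∫⁻ w, (W w x).prod (W w y) S ∂envLaw μ :=
  Measure.bind_apply hS
    (Measure.measurable_of_measurable_coe _ fun _ h => measurable_prod_W x y h).aemeasurable

instance (x y : Site d) : IsProbabilityMeasure (jointLaw μ x y) :=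
  ⟨by simp [jointLaw_apply μ x y MeasurableSet.univ]⟩

/-- On pairs of words with disjoint traces, independent walks are walks in a common environment. -/
theorem annLaw_prod_eq_joint (hell : IsElliptic μ) (n : ℕ) (x y : Site d)
    {D : Set (Word d × Word d)} (hD : D ⊆ apart x y) :
    (annLaw μ x).prod (annLaw μ y) (both n x y ⁻¹' D) = jointLaw μ x y (both n x y ⁻¹' D) := by
  have henv := ae_isEnv μ hell
  have hfib : ∀ q ∈ D, MeasurableSet (both n x y ⁻¹' {q}) := fun q _ =>
    measurableSet_trunc2_fibre _ _ n x y q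
  rw [← tsum_measure_preimage_singleton (to_countable D) hfib,
    ← tsum_measure_preimage_singleton (to_countable D) hfib]
  refine tsum_congr fun q => ?_
  have hq := hfib q q.2
  rw [jointLaw_apply μ x y hq]
  unfold both
  rw [trunc2_preimage, Measure.prod_prod]
  simp only [Measure.prod_prod]
  by_cases hu : (∃ u, trunc (fun _ => True) n x u = q.1.1) ∧
      ∃ v, trunc (fun _ => True) n y v = q.1.2
  · obtain ⟨⟨u, hu⟩, ⟨v, hv⟩⟩ := hu
    have hdq : Disjoint (trace x q.1.1) (trace y q.1.2) := hD q.2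
    rw [← hu, ← hv] at hdq ⊢
    rw [trunc_preimage, trunc_preimage, annLaw_apply x (measurableSet_Pre _),
      annLaw_apply y (measurableSet_Pre _), ann_Pre henv, ann_Pre henv,
      lintegral_congr_ae (g := fun w => qw w x (trunc (fun _ => True) n x u) *
          qw w y (trunc (fun _ => True) n y v))
        (henv.mono fun w hw => by simp only [W_Pre hw]),
      lintegral_mul_dependsOn μ (Finset.disjoint_coe.2 hdq) (measurable_qw x _)
        (measurable_qw y _) (dependsOn_qw x _) (dependsOn_qw y _), lintegral_qw, lintegral_qw]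
  · rcases not_and_or.1 hu with hu | hu
    · rw [show trunc (fun _ => True) n x ⁻¹' {q.1.1} = ∅ from
        eq_empty_of_forall_notMem fun v hv => hu ⟨v, hv⟩]
      simp
    · rw [show trunc (fun _ => True) n y ⁻¹' {q.1.2} = ∅ from
        eq_empty_of_forall_notMem fun v hv => hu ⟨v, hv⟩]
      simp

/-- Independent walks without meetings are walks in a common environment without meetings. -/
theorem annLaw_prod_clean (hell : IsElliptic μ) (φ : Site d →+ ℤ) (x y : Site d) :
    (annLaw μ x).prod (annLaw μ y) (Clean x y φ) = jointLaw μ x y (Clean x y φ) := by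
  have hm : ∀ m, MeasurableSet (CleanUpTo m x y φ) := fun m => measurableSet_cleanUpTo m x y φ
  rw [clean_eq_iInter]
  have h1 := tendsto_measure_iInter_atTop (μ := (annLaw μ x).prod (annLaw μ y))
    (fun m => (hm m).nullMeasurableSet) (antitone_cleanUpTo x y φ) ⟨0, measure_ne_top _ _⟩
  have h2 := tendsto_measure_iInter_atTop (μ := jointLaw μ x y)
    (fun m => (hm m).nullMeasurableSet) (antitone_cleanUpTo x y φ) ⟨0, measure_ne_top _ _⟩
  refine tendsto_nhds_unique h1 (h2.congr fun m => ?_)
  exact (annLaw_prod_eq_joint μ hell m x y (cleanPairs_subset x y φ)).symm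

variable (φ : Site d →+ ℤ)

omit [NeZero d] in
theorem apart_subset_clean {o : Site d} (ho : φ o = 0) : Apart φ o ⊆ Clean 0 o φ := by
  rintro p ⟨h1, h2, h3⟩
  refine ⟨h1.1, fun j => ?_, h3⟩
  rw [path_eq_add, map_add, ho, zero_add]
  exact h2.1 j

theorem exists_sepConst_pos (hell : IsElliptic μ) {o : Site d} (ho : φ o = 0) {c : Word d}
    (hc : disp c = o) (hcn : ∀ k, 0 ≤ φ (disp (c.take k)))
    (h : 0 < (annLaw μ 0).prod (annLaw μ o) (Apart φ o)) :
    ∃ H : ℕ, 0 < sepConst μ φ H := by
  let H := (Finset.range (c.length + 1)).sup fun k => (φ (disp (c.take k))).toNat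
  refine ⟨H, ?_⟩
  have hC := measurableSet_clean 0 o φ
  have hpos : 0 < jointLaw μ 0 o (Clean 0 o φ) := by
    rw [← annLaw_prod_clean μ hell φ]
    exact h.trans_le (measure_mono (apart_subset_clean φ ho))
  rw [jointLaw_apply μ 0 o hC] at hpos
  refine pos_iff_ne_zero.2 fun h0 => hpos.ne' ?_
  rw [lintegral_eq_zero_iff (measurable_prod_W 0 o hC)]
  let E : Set ((ℕ → Step d) × (ℕ → Step d)) :=
    {p | p.2 ∈ Pre c ∧ (p.1, shiftSeq c.length p.2) ∈ Clean 0 o φ}
  have hsh : Measurable fun p : (ℕ → Step d) × (ℕ → Step d) =>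
      (p.1, shiftSeq c.length p.2) :=
    Measurable.prodMk measurable_fst
      ((measurable_shiftSeq (α := Step d) c.length).comp (f := Prod.snd) measurable_snd)
  have hE : MeasurableSet E :=
    MeasurableSet.inter
      (measurable_snd (α := ℕ → Step d) (β := ℕ → Step d) (measurableSet_Pre c)) (hsh hC)
  have hsub : E ⊆ Sep φ H := by
    rintro ⟨u, v⟩ ⟨hv, h1, h2, h3⟩
    simp only at hv h1 h2 h3
    have hlev : ∀ j, (∃ k, j = c.length + k) ∨ j ≤ c.length := fun j =>
      (le_or_gt c.length j).imp (fun hj => Nat.exists_eq_add_of_le hj) le_of_lt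
    refine ⟨h1, fun j => ?_, fun i j he => ?_⟩
    · rcases hlev j with ⟨k, rfl⟩ | hj
      · rw [path_shiftSeq hv, zero_add, hc]
        exact h2 k
      · rw [path_pre hv 0 hj, zero_add]
        exact hcn j
    · rcases hlev j with ⟨k, rfl⟩ | hj
      · rw [path_shiftSeq hv, zero_add, hc] at he
        exact absurd he (h3 i k)
      · rw [he, path_pre hv 0 hj, zero_add]
        refine le_trans (Int.self_le_toNat _) (Nat.cast_le.2 ?_)
        exact Finset.le_sup (f := fun k => (φ (disp (c.take k))).toNat)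
          (Finset.mem_range.2 (Nat.lt_succ_of_le hj))
  have hsep0 : ∫⁻ w, (W w 0).prod (W w 0) E ∂envLaw μ = 0 :=
    nonpos_iff_eq_zero.1 (le_trans (lintegral_mono fun w => measure_mono hsub) h0.le)
  rw [lintegral_eq_zero_iff (measurable_prod_W 0 0 hE)] at hsep0
  filter_upwards [hsep0, ae_isEnv μ hell, ae_isEnv.ae_all_rows' μ hell] with w hw henv hrow
  simp only [Pi.zero_apply] at hw ⊢
  have hslice : ∀ u, W w 0 (Prod.mk u ⁻¹' E) = qw w 0 c * W w o (Prod.mk u ⁻¹' Clean 0 o φ) := by
    intro u
    have e : Prod.mk u ⁻¹' E = Pre c ∩ shiftSeq c.length ⁻¹' (Prod.mk u ⁻¹' Clean 0 o φ) := rfl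
    rw [e, W_Pre_inter henv 0 c (measurable_prodMk_left hC), zero_add, hc]
  rw [Measure.prod_apply hE, lintegral_congr hslice,
    lintegral_const_mul _ (measurable_measure_prodMk_left hC), ← Measure.prod_apply hC] at hw
  refine (mul_eq_zero.1 hw).resolve_left ?_
  have key : ∀ (s : Word d) (x : Site d), qw w x s ≠ 0 := by
    intro s
    induction s with
    | nil => simp [qw]
    | cons e s ih =>
      intro x
      exact mul_ne_zero (by simpa using (hrow x).1 e) (ih _)
  exact key c 0

end Vale.Agent.P147.Flux
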