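import Vale.Agent.P147.Flux.Defs
import Vale.Agent.P147.Regen.CaseA

/-!
# The cut sites of the blocks are square summable when there are at least three lateral dimensions

The probability that the blocks have a cut at a site is at most the sum over `i` of the chance
that the sum of `i` blocks is the site. The sums of `i` blocks of one common height form a lateral
random walk given their number, so the lateral anticoncentration is uniform in the level.
-/

namespace Vale.Agent.P147.Flux

open MeasureTheory Set Filter Regen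
open scoped ENNReal

section level

variable {k : ℕ} {α : Type*} [MeasurableSpace α] (ν : Measure α) (V : α → Fin k → ℤ) (hgt : α → ℤ)

/-- The target moved back by one atom. -/
def moved (a : α) (G : ℤ → Fin k → ℤ) : ℤ → Fin k → ℤ := fun l => G (l + hgt a) - V a

/-- The mean of `f` at the difference between the target at the total height and the total. -/
noncomputable def levelMass (f : (Fin k → ℤ) → ℝ≥0∞) : ℕ → (ℤ → Fin k → ℤ) → ℝ≥0∞
  | 0, G => f (G 0)
  | n + 1, G => ∑' a, ν {a} * levelMass f n (moved V hgt a G)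

variable {ν V hgt}

/-- Averaging over atoms of one height convolves `f`. -/
theorem sum_levelMass {T : Finset α} {h₀ : ℤ} (hT : ∀ a ∈ T, hgt a = h₀)
    {f g : (Fin k → ℤ) → ℝ≥0∞} {c : ℝ≥0∞}
    (hfg : ∀ z, ∑ a ∈ T, ν {a} * f (z - V a) = c * g z) :
    ∀ (n : ℕ) (G : ℤ → Fin k → ℤ), ∑ a ∈ T, ν {a} * levelMass ν V hgt f n (moved V hgt a G) =
      c * levelMass ν V hgt g n (fun l => G (l + h₀)) := by
  intro n
  induction n with
  | zero =>
    intro G
    simp only [levelMass, moved, zero_add]
    rw [← hfg]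
    exact Finset.sum_congr rfl fun a ha => by rw [hT a ha]
  | succ n ih =>
    intro G
    simp only [levelMass, ← ENNReal.tsum_mul_left]
    rw [← Summable.tsum_finsetSum fun a _ => ENNReal.summable]
    refine tsum_congr fun b => ?_
    have e : ∀ a, moved V hgt b (moved V hgt a G) = moved V hgt a (moved V hgt b G) := fun a => by
      funext l; simp only [moved]; rw [add_right_comm, sub_right_comm]
    have e' : (fun l => moved V hgt b G (l + h₀)) = moved V hgt b (fun l => G (l + h₀)) := by
      funext l; simp only [moved]; rw [add_right_comm]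
    calc _ = ν {b} * ∑ a ∈ T, ν {a} * levelMass ν V hgt f n (moved V hgt a (moved V hgt b G)) := by
          rw [Finset.mul_sum]
          exact Finset.sum_congr rfl fun a _ => by rw [e a, mul_left_comm]
      _ = _ := by rw [ih, e', mul_left_comm]

variable [MeasurableSingletonClass α] [Countable α] [IsProbabilityMeasure ν]

theorem tsum_singleton_eq_one : ∑' a, ν {a} = 1 := by
  have h := lintegral_countable' (μ := ν) (fun _ => (1 : ℝ≥0∞))
  simpa using h.symm

/-- The sum over the number of summands is at most the tail sum of the bound, divided by the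
mass of the atoms of one height. -/
theorem sum_range_levelMass_le {T : Finset α} {h₀ : ℤ} (hT : ∀ a ∈ T, hgt a = h₀)
    {f : ℕ → (Fin k → ℤ) → ℝ≥0∞}
    (hf : ∀ m z, ∑ a ∈ T, ν {a} * f m (z - V a) = (∑ a ∈ T, ν {a}) * f (m + 1) z)
    {u : ℕ → ℝ≥0∞} (hu : ∀ m z, f m z ≤ u m) :
    ∀ (N m : ℕ) (G : ℕ → ℤ → Fin k → ℤ),
      (∑ a ∈ T, ν {a}) * ∑ n ∈ Finset.range N, levelMass ν V hgt (f m) n (G n) ≤
        ∑' j, u (m + j) := by
  classical
  set c := ∑ a ∈ T, ν {a}
  intro N
  induction N with
  | zero => simp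
  | succ N ih =>
    intro m G
    set c' := ∑' b : ↥((T : Set α)ᶜ), ν {(b : α)}
    have hcc : c + c' = 1 :=
      (ENNReal.sum_add_tsum_compl T fun a => ν {a}).trans
        tsum_singleton_eq_one
    set R : ℕ → ℝ≥0∞ := fun i => ∑' j, u (i + j)
    have hR : R m = u m + R (m + 1) := by
      simp only [R]
      rw [tsum_eq_zero_add' ENNReal.summable, add_zero]
      simp [add_assoc, add_comm 1]
    have h1 : ∀ n, levelMass ν V hgt (f m) (n + 1) (G (n + 1)) =
        c * levelMass ν V hgt (f (m + 1)) n (fun l => G (n + 1) (l + h₀)) +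
          ∑' b : ↥((T : Set α)ᶜ),
            ν {(b : α)} * levelMass ν V hgt (f m) n (moved V hgt b (G (n + 1))) := fun n => by
      rw [← sum_levelMass hT (hf m) n, levelMass]
      exact (ENNReal.sum_add_tsum_compl T _).symm
    have hA : c * ∑ n ∈ Finset.range N,
        c * levelMass ν V hgt (f (m + 1)) n (fun l => G (n + 1) (l + h₀)) ≤ c * R (m + 1) := by
      rw [← Finset.mul_sum]
      exact mul_le_mul' le_rfl (ih (m + 1) _)
    have hB : c * ∑ n ∈ Finset.range N, ∑' b : ↥((T : Set α)ᶜ),
        ν {(b : α)} * levelMass ν V hgt (f m) n (moved V hgt b (G (n + 1))) ≤ c' * R m := by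
      rw [← Summable.tsum_finsetSum fun n _ => ENNReal.summable, ← ENNReal.tsum_mul_left,
        ← ENNReal.tsum_mul_right]
      refine ENNReal.tsum_le_tsum fun b => ?_
      rw [← Finset.mul_sum, mul_left_comm]
      exact mul_le_mul' le_rfl (ih m _)
    calc c * ∑ n ∈ Finset.range (N + 1), levelMass ν V hgt (f m) n (G n)
        ≤ c * R (m + 1) + c' * R m + c * u m := by
          rw [Finset.sum_range_succ', mul_add, Finset.sum_congr rfl fun n _ => h1 n,
            Finset.sum_add_distrib, mul_add]
          exact add_le_add (add_le_add hA hB) (mul_le_mul' le_rfl (hu m _))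
      _ = (c + c') * R m := by rw [hR]; ring
      _ = R m := by rw [hcc, one_mul]

theorem law_level_le [DiscreteMeasurableSpace α] {f : (Fin k → ℤ) → ℝ≥0∞} (hf : 1 ≤ f 0) :
    ∀ (n : ℕ) (G : ℤ → Fin k → ℤ), (Measure.infinitePi fun _ : ℕ => ν)
        {om | seqSum V n om = G (∑ i ∈ Finset.range n, hgt (om i))} ≤
      levelMass ν V hgt f n G := by
  intro n
  induction n with
  | zero =>
    intro G
    by_cases h : G 0 = 0
    · exact prob_le_one.trans (by rw [levelMass, h]; exact hf)
    · simp [seqSum, Ne.symm h]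
  | succ n ih =>
    intro G
    set E : ℕ → (ℤ → Fin k → ℤ) → Set (ℕ → α) := fun j H =>
      {om | seqSum V j om = H (∑ i ∈ Finset.range j, hgt (om i))}
    have hE : ∀ j H, MeasurableSet (E j H) := fun j H =>
      measurableSet_of_dependsOn (n := j) fun x y hxy => by
        simp only [E, mem_ofPred_eq, seqSum]
        rw [Finset.sum_congr rfl fun i hi => by rw [hxy i (mem_Iio.2 (Finset.mem_range.1 hi))],
          Finset.sum_congr rfl (g := fun i => hgt (y i)) fun i hi => by
            rw [hxy i (mem_Iio.2 (Finset.mem_range.1 hi))]]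
    have hsub : E (n + 1) G ⊆ ⋃ a, {om | om 0 = a} ∩
        (fun (om : ℕ → α) i => om (1 + i)) ⁻¹' E n (moved V hgt a G) := fun om hom => by
      refine mem_iUnion.2 ⟨om 0, rfl, ?_⟩
      simp only [E, mem_ofPred_eq, seqSum, Finset.sum_range_succ'] at hom
      simp only [E, mem_preimage, mem_ofPred_eq, seqSum, moved, add_comm 1]
      exact eq_sub_of_add_eq hom
    refine (measure_mono hsub).trans ((measure_iUnion_le _).trans ?_)
    refine ENNReal.tsum_le_tsum fun a => ?_
    have hA : MeasurableSet {om : ℕ → α | om 0 = a} :=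
      (measurable_pi_apply 0 : Measurable fun om : ℕ → α => om 0) (measurableSet_singleton a)
    rw [measure_past_inter_future ν 1 hA
      (fun x y hxy => by simp only [mem_ofPred_eq]; rw [hxy 0 (mem_Iio.2 one_pos)]) (hE _ _)]
    refine mul_le_mul' (le_of_eq ?_) (ih _)
    exact (measurePreserving_eval_infinitePi (fun _ : ℕ => ν) 0).measure_preimage
      (measurableSet_singleton a).nullMeasurableSet

/-- With at least three lateral dimensions, uniformly in the target, the chances that the lateral
sum hits the target at the total height are summable. -/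
theorem exists_tsum_level_le [DiscreteMeasurableSpace α] (hk : 3 ≤ k) {h₀ : ℤ}
    (hstar : ∀ i, ∃ a b, 0 < ν {a} ∧ 0 < ν {b} ∧ hgt a = h₀ ∧ hgt b = h₀ ∧
      V b = V a + Pi.single i 1) :
    ∃ B : ℝ≥0∞, B ≠ ∞ ∧ ∀ G : ℕ → ℤ → Fin k → ℤ,
      ∑' n, (Measure.infinitePi fun _ : ℕ => ν)
        {om | seqSum V n om = G n (∑ i ∈ Finset.range n, hgt (om i))} ≤ B := by
  classical
  choose a b hpa hpb hha hhb hab using hstar
  obtain ⟨i₀⟩ : Nonempty (Fin k) := ⟨⟨0, by omega⟩⟩
  set T := Finset.univ.image a ∪ Finset.univ.image b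
  have hT : ∀ x ∈ T, hgt x = h₀ := fun x hx => by
    simp only [T, Finset.mem_union, Finset.mem_image] at hx
    rcases hx with ⟨i, -, rfl⟩ | ⟨i, -, rfl⟩
    exacts [hha i, hhb i]
  have ha : ∀ i, a i ∈ T := fun i => Finset.mem_union_left _ (Finset.mem_image_of_mem a (Finset.mem_univ i))
  have hb : ∀ i, b i ∈ T := fun i => Finset.mem_union_right _ (Finset.mem_image_of_mem b (Finset.mem_univ i))
  have hc : 0 < ν.real (T : Set α) := mass_pos (ha i₀) (hpa i₀)
  have hp := isWeight_trunc (V := V) hc
  obtain ⟨C, hC0, hC⟩ := exists_convPow_le hp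
    (hasSteps_trunc fun i => ⟨a i, ha i, b i, hb i, hpa i, hpb i, hab i⟩)
  set f : ℕ → (Fin k → ℤ) → ℝ≥0∞ := fun m z =>
    ENNReal.ofReal (convPow (truncSupp V T) (truncWeight ν V T) m z)
  set u : ℕ → ℝ≥0∞ := fun m => ENNReal.ofReal (C / ((m : ℝ) + 1) ^ ((k : ℝ) / 2))
  have hu : ∀ m z, f m z ≤ u m := fun m z => ENNReal.ofReal_le_ofReal (hC m z)
  have hf : ∀ m z, ∑ x ∈ T, ν {x} * f m (z - V x) = (∑ x ∈ T, ν {x}) * f (m + 1) z := fun m z => by
    rw [sum_measure_singleton, ← ofReal_measureReal (s := (T : Set α))]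
    simp only [f]
    rw [← ENNReal.ofReal_mul measureReal_nonneg, ← sum_mul_convPow,
      sum_truncWeight_mul T fun y => convPow (truncSupp V T) (truncWeight ν V T) m (z - y),
      mul_div_cancel₀ _ hc.ne', ENNReal.ofReal_sum_of_nonneg fun x _ =>
        mul_nonneg measureReal_nonneg (convPow_nonneg hp _ _)]
    exact Finset.sum_congr rfl fun x _ => by
      rw [ENNReal.ofReal_mul measureReal_nonneg, ofReal_measureReal]
  have hsum : Summable fun m : ℕ => C / ((m : ℝ) + 1) ^ ((k : ℝ) / 2) := by
    have hk' : (1 : ℝ) < (k : ℝ) / 2 := by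
      have : (3 : ℝ) ≤ k := by exact_mod_cast hk
      linarith
    have h := ((summable_nat_add_iff 1).2 (Real.summable_nat_rpow_inv.2 hk')).mul_left C
    simpa [div_eq_mul_inv] using h
  have hu0 : ∑' j, u (0 + j) ≠ ∞ := by simpa [u] using hsum.tsum_ofReal_ne_top
  have hcne : ∑ x ∈ T, ν {x} ≠ 0 := fun h =>
    (hpa i₀).ne' (Finset.sum_eq_zero_iff.1 h _ (ha i₀))
  refine ⟨(∑ x ∈ T, ν {x})⁻¹ * ∑' j, u (0 + j),
    ENNReal.mul_ne_top (ENNReal.inv_ne_top.2 hcne) hu0, fun G => ?_⟩
  refine ENNReal.tsum_le_of_sum_range_le fun N => ?_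
  refine (Finset.sum_le_sum fun n _ => law_level_le (f := f 0) (by simp [f, convPow]) n (G n)).trans ?_
  refine (ENNReal.mul_le_iff_le_inv hcne (ENNReal.sum_ne_top.2 fun x _ => measure_ne_top _ _)).1 ?_
  exact sum_range_levelMass_le hT hf hu N 0 G

end level

section blocks

variable {k : ℕ} {φ : Site (k + 1) →+ ℤ}

theorem isBlock_of_height_one {s : Word (k + 1)} (hs : IsSeg φ s) (h : φ (disp s) = 1) :
    IsBlock φ s := by
  refine ⟨hs, fun s₁ s₂ h₁ h₂ e => ?_⟩
  have := h₁.height_pos
  have := h₂.height_pos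
  rw [e, disp_append, map_add] at h
  omega

/-- Along every lateral axis two blocks of height one differ by one unit. -/
theorem exists_blocks_axis (hl : IsLevel φ) {e : Step (k + 1)} (he : φ (stp e) = 1) (j : Fin k) :
    ∃ a b : Word (k + 1), IsBlock φ a ∧ IsBlock φ b ∧ φ (disp a) = 1 ∧ φ (disp b) = 1 ∧
      lat e.1 (disp b) = lat e.1 (disp a) + Pi.single j 1 := by
  have hlat0 : lat e.1 (stp e) = 0 := by
    funext m
    obtain ⟨i, b⟩ := e
    simp [lat, stp, Fin.succAbove_ne]
  have hlatj : ∀ b : Bool, lat e.1 (stp (e.1.succAbove j, b)) =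
      Pi.single j (if b then 1 else -1) := fun b => by
    funext m
    simp [lat, stp, Pi.single_apply]
  have hbase : IsBlock φ [e] := isBlock_of_height_one (isSeg_step he) (by simp [disp, he])
  have h1 := hl.1 (e.1.succAbove j, true)
  rw [abs_le] at h1
  rcases (show φ (stp (e.1.succAbove j, true)) = 0 ∨ φ (stp (e.1.succAbove j, true)) = 1 ∨
    φ (stp (e.1.succAbove j, true)) = -1 by omega) with h | h | h
  · exact ⟨[e], [(e.1.succAbove j, true), e], hbase,
      isBlock_of_height_one (isSeg_flat_step h he) (by simp [disp, h, he]),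
      by simp [disp, he], by simp [disp, h, he], by simp [disp, hlat0, hlatj]⟩
  · exact ⟨[e], [(e.1.succAbove j, true)], hbase,
      isBlock_of_height_one (isSeg_step h) (by simp [disp, h]),
      by simp [disp, he], by simp [disp, h], by simp [disp, hlat0, hlatj]⟩
  · have h' : φ (stp (e.1.succAbove j, false)) = 1 := by
      have e1 := stp_neg_step (e.1.succAbove j, true)
      simp only [Bool.not_true] at e1
      rw [e1, map_neg, h]; rfl
    exact ⟨[(e.1.succAbove j, false)], [e],
      isBlock_of_height_one (isSeg_step h') (by simp [disp, h']), hbase,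
      by simp [disp, h'], by simp [disp, he], by simp [disp, hlat0, hlatj, ← Pi.single_add]⟩

variable (μ : Measure (Step (k + 1) → ℝ)) [IsProbabilityMeasure μ]

theorem cut_sq_summable_succ (hk : 3 ≤ k) (hell : IsElliptic μ) (hl : IsLevel φ)
    (ha : 0 < aUp μ φ) : ∑' z, cutProb μ φ z ^ 2 ≠ ∞ := by
  classical
  have := isProbabilityMeasure_blockLaw μ φ hell hl ha
  obtain ⟨e, he⟩ := hl.2
  set V : Word (k + 1) → Fin k → ℤ := fun s => lat e.1 (disp s)
  set hgt : Word (k + 1) → ℤ := fun s => φ (disp s)
  obtain ⟨B, hB, hsum⟩ := exists_tsum_level_le (ν := blockLaw μ φ) (V := V) (hgt := hgt) hk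
    (h₀ := 1) fun j => by
      obtain ⟨a, b, ha', hb', h1, h2, h3⟩ := exists_blocks_axis hl he j
      refine ⟨a, b, ?_, ?_, h1, h2, h3⟩
      · rw [blockLaw_singleton μ ha']; exact wt_pos μ hell _
      · rw [blockLaw_singleton μ hb']; exact wt_pos μ hell _
  set S : ℕ → (ℕ → Word (k + 1)) → Site (k + 1) := fun i b => ∑ j ∈ Finset.range i, disp (b j)
  have hSm : ∀ i, Measurable (S i) := fun i => Finset.measurable_sum _ fun j _ =>
    (measurable_of_countable disp).comp (measurable_pi_apply j)
  set U : Site (k + 1) → ℝ≥0∞ := fun z => cutProb μ φ z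
  have hU : ∀ z, U z = blocksLaw μ φ (⋃ i, S i ⁻¹' {z}) := fun z => by
    simp only [U, cutProb]; congr 1; ext b; simp [S]
  -- the level mass of the cuts
  have hone : ∀ (F : Finset (Site (k + 1))) (l : ℤ), (∀ z ∈ F, φ z = l) → ∑ z ∈ F, U z ≤ 1 := by
    intro F l hF
    have : IsProbabilityMeasure (blocksLaw μ φ) := by unfold blocksLaw; infer_instance
    simp only [hU]
    rw [← measure_biUnion_finset₀]
    · exact prob_le_one
    · intro z hz z' hz' hne
      refine measure_mono_null (fun b hb => ?_) (ae_iff.1 (SegAux.blocks_allPos μ (φ := φ)))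
      obtain ⟨hb1, hb2⟩ := hb
      simp only [mem_iUnion, mem_preimage, mem_singleton_iff] at hb1 hb2
      obtain ⟨i, hi⟩ := hb1
      obtain ⟨i', hi'⟩ := hb2
      rintro ⟨-, hblk⟩
      have hmono : StrictMono fun m => φ (S m b) := strictMono_nat_of_lt_succ fun m => by
        simp only [S, Finset.sum_range_succ, map_add]
        have := (hblk m).1.height_pos
        omega
      have : i = i' := hmono.injective (by simp only [hi, hi', hF z hz, hF z' hz'])
      exact hne (by rw [← hi, ← hi', this])
    · exact fun z _ =>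
        (MeasurableSet.iUnion fun i => hSm i (measurableSet_singleton z)).nullMeasurableSet
  rw [ENNReal.tsum_eq_iSup_sum]
  refine ne_top_of_le_ne_top hB (iSup_le fun F => ?_)
  set L := F.image φ
  have hg : ∀ l ∈ L, ∃ y : Site (k + 1), φ y = l ∧ ∀ z ∈ F, φ z = l → U z ≤ U y := by
    intro l hl'
    obtain ⟨z₀, hz₀, rfl⟩ := Finset.mem_image.1 hl'
    obtain ⟨y, hy, hmax⟩ := Finset.exists_max_image (F.filter fun z => φ z = φ z₀) U
      ⟨z₀, by simp [hz₀]⟩
    exact ⟨y, (Finset.mem_filter.1 hy).2, fun z hz hzl => hmax z (by simp [hz, hzl])⟩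
  choose! g hg1 hg2 using hg
  calc ∑ z ∈ F, U z ^ 2 = ∑ l ∈ L, ∑ z ∈ F with φ z = l, U z ^ 2 :=
        (Finset.sum_fiberwise_of_maps_to (fun z hz => Finset.mem_image_of_mem φ hz) _).symm
    _ ≤ ∑ l ∈ L, U (g l) := Finset.sum_le_sum fun l hl' => by
        calc _ ≤ ∑ z ∈ F with φ z = l, U (g l) * U z := Finset.sum_le_sum fun z hz => by
              rw [sq]
              exact mul_le_mul' (hg2 l hl' z (Finset.mem_filter.1 hz).1 (Finset.mem_filter.1 hz).2)
                le_rfl
          _ ≤ _ := by
              rw [← Finset.mul_sum]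
              exact mul_le_of_le_one_right' (hone _ l fun z hz => (Finset.mem_filter.1 hz).2)
    _ ≤ ∑ l ∈ L, ∑' i, blocksLaw μ φ (S i ⁻¹' {g l}) := Finset.sum_le_sum fun l _ => by
        rw [hU]; exact measure_iUnion_le _
    _ = ∑' i, ∑ l ∈ L, blocksLaw μ φ (S i ⁻¹' {g l}) :=
        (Summable.tsum_finsetSum fun l _ => ENNReal.summable).symm
    _ ≤ ∑' i, blocksLaw μ φ {b | seqSum V i b =
          lat e.1 (g (∑ j ∈ Finset.range i, hgt (b j)))} := ENNReal.tsum_le_tsum fun i => by
        rw [← measure_biUnion_finset]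
        · refine measure_mono fun b hb => ?_
          simp only [mem_iUnion, mem_preimage, mem_singleton_iff] at hb
          obtain ⟨l, hl', hbl⟩ := hb
          have hlev : ∑ j ∈ Finset.range i, hgt (b j) = l := by
            simp only [hgt]
            rw [← map_sum]
            exact (congrArg φ hbl).trans (hg1 l hl')
          simp only [mem_ofPred_eq, hlev, seqSum, V]
          rw [← map_sum]
          exact congrArg (lat e.1) hbl
        · intro l hl' l' hl'' hne
          refine Set.disjoint_left.2 fun b hb hb' => hne ?_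
          simp only [mem_preimage, mem_singleton_iff] at hb hb'
          rw [← hg1 l hl', ← hg1 l' hl'', ← hb, ← hb']
        · exact fun l _ => hSm i (measurableSet_singleton _)
    _ ≤ B := hsum fun _ l => lat e.1 (g l)

end blocks

/-- The cut sites of the blocks are square summable in dimension at least four. -/
theorem cut_sq_summable {d : ℕ} [NeZero d] (μ : Measure (Step d → ℝ)) [IsProbabilityMeasure μ]
    (φ : Site d →+ ℤ) (hd : 4 ≤ d) (hell : IsElliptic μ) (hl : IsLevel φ)
    (ha : 0 < aUp μ φ) : ∑' z, cutProb μ φ z ^ 2 ≠ ∞ := by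
  obtain ⟨k, rfl⟩ : ∃ k, d = k + 1 := ⟨d - 1, by omega⟩
  exact cut_sq_summable_succ μ (by omega) hell hl ha

end Vale.Agent.P147.Flux
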