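import Vale.Agent.P147.Regen.Velocity

/-!
# The quenched flux of regenerated paths: definitions

`flux` sums, over good segments of height `n` ending at the origin, their quenched weights.
-/

namespace Vale.Agent.P147.Flux

open MeasureTheory Set Filter Regen
open scoped ENNReal

variable {d : ℕ} [NeZero d]

/-- Every prefix of the word keeps a chance at least `θ` to be continued as an upward escape. -/
def GoodWord (μ : Measure (Step d → ℝ)) (φ : Site d →+ ℤ) (θ : ℝ≥0∞) (s : Word d) : Prop :=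
  ∀ k ≤ s.length, θ * wt μ (s.take k) ≤ ann μ 0 (Pre (s.take k) ∩ Up φ)

/-- Good segments of height `n`. -/
def goodSegs (μ : Measure (Step d → ℝ)) (φ : Site d →+ ℤ) (θ : ℝ≥0∞) (n : ℕ) : Set (Word d) :=
  {s | IsSeg φ s ∧ φ (disp s) = (n : ℤ) ∧ GoodWord μ φ θ s}

/-- Quenched flux into the origin along good segments of height `n`. -/
noncomputable def flux (μ : Measure (Step d → ℝ)) (φ : Site d →+ ℤ) (θ : ℝ≥0∞) (n : ℕ)
    (w : Env d) : ℝ≥0∞ :=
  ∑' s : goodSegs μ φ θ n, qw w (-disp (s : Word d)) (s : Word d)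

/-- Good words of height `m` ending at a new site. -/
def goodEnds (μ : Measure (Step d → ℝ)) (φ : Site d →+ ℤ) (θ : ℝ≥0∞) (m : ℤ) : Set (Word d) :=
  {q | GoodWord μ φ θ q ∧ φ (disp q) = m ∧ disp q ∉ trace 0 q}

/-- Mean number of sites of a block. -/
noncomputable def meanRange (μ : Measure (Step d → ℝ)) (φ : Site d →+ ℤ) : ℝ≥0∞ :=
  ∫⁻ s, ((trace 0 s).card : ℝ≥0∞) ∂blockLaw μ φ

/-- Probability that a site is a cut of the blocks. -/
noncomputable def cutProb (μ : Measure (Step d → ℝ)) (φ : Site d →+ ℤ) (z : Site d) : ℝ≥0∞ :=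
  blocksLaw μ φ {b | ∃ i, ∑ k ∈ Finset.range i, disp (b k) = z}

/-- Probability of an upward escape through a site. -/
noncomputable def upHit (μ : Measure (Step d → ℝ)) (φ : Site d →+ ℤ) (z : Site d) : ℝ≥0∞ :=
  ann μ 0 (Up φ ∩ {u | ∃ k, path 0 u k = z})

/-- Two upward escapes from `0` and `o` with disjoint paths. -/
def Apart (φ : Site d →+ ℤ) (o : Site d) : Set ((ℕ → Step d) × (ℕ → Step d)) :=
  {p | p.1 ∈ Up φ ∧ p.2 ∈ Up φ ∧ ∀ i j, path 0 p.1 i ≠ path o p.2 j}

/-- Two paths from `0` staying at nonnegative levels, all common sites at levels at most `h`. -/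
def Sep (φ : Site d →+ ℤ) (h : ℕ) : Set ((ℕ → Step d) × (ℕ → Step d)) :=
  {p | (∀ n, 0 ≤ φ (path 0 p.1 n)) ∧ (∀ n, 0 ≤ φ (path 0 p.2 n)) ∧
    ∀ i j, path 0 p.1 i = path 0 p.2 j → φ (path 0 p.1 i) ≤ (h : ℤ)}

/-- Chance of separation of two walks in a common environment. -/
noncomputable def sepConst (μ : Measure (Step d → ℝ)) (φ : Site d →+ ℤ) (h : ℕ) : ℝ≥0∞ :=
  ∫⁻ w, (W w 0).prod (W w 0) (Sep φ h) ∂envLaw μ

end Vale.Agent.P147.Flux
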