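import Vale.Agent.P147.Flux.Visits
import Vale.Agent.P147.Regen.Connector
import Vale.Agent.P147.Regen.SegAnn

/-!
# Two far apart upward escapes stay apart

The chance that an upward escape passes through a site is square summable, so by the
Cauchy–Schwarz inequality two independent upward escapes from far apart starts meet with small
probability.
-/

namespace Vale.Agent.P147.Flux

open MeasureTheory Set Filter Regen
open scoped ENNReal Topology

variable {d : ℕ}

theorem two_mul_le_sq (a b : ℝ≥0∞) : 2 * (a * b) ≤ a ^ 2 + b ^ 2 := by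
  rcases eq_or_ne a ∞ with rfl | ha
  · simp
  rcases eq_or_ne b ∞ with rfl | hb
  · simp
  lift a to NNReal using ha
  lift b to NNReal using hb
  have h : 2 * (a * b) ≤ a ^ 2 + b ^ 2 := by
    rw [← mul_assoc, ← NNReal.coe_le_coe]
    push_cast
    exact two_mul_le_add_sq (a : ℝ) b
  exact_mod_cast h

/-- Weighted Cauchy–Schwarz inequality for series. -/
theorem sq_tsum_mul_le {ι : Type*} (a c b : ι → ℝ≥0∞) :
    (∑' v, a v * c v * b v) ^ 2 ≤ (∑' v, a v ^ 2 * b v) * ∑' v, c v ^ 2 * b v := by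
  have key : 2 * (∑' v, a v * c v * b v) ^ 2 ≤
      2 * ((∑' v, a v ^ 2 * b v) * ∑' v, c v ^ 2 * b v) := by
    calc 2 * (∑' v, a v * c v * b v) ^ 2
        = ∑' v, ∑' w, 2 * ((a v * c w) * (a w * c v)) * (b v * b w) := by
          rw [sq, ← ENNReal.tsum_mul_right, ← ENNReal.tsum_mul_left]
          refine tsum_congr fun v => ?_
          rw [← ENNReal.tsum_mul_left, ← ENNReal.tsum_mul_left]
          exact tsum_congr fun w => by ring
      _ ≤ ∑' v, ∑' w, ((a v * c w) ^ 2 + (a w * c v) ^ 2) * (b v * b w) :=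
          ENNReal.tsum_le_tsum fun v => ENNReal.tsum_le_tsum fun w =>
            mul_le_mul' (two_mul_le_sq _ _) le_rfl
      _ = ∑' v, ∑' w, ((a v ^ 2 * b v) * (c w ^ 2 * b w) + (c v ^ 2 * b v) * (a w ^ 2 * b w)) :=
          tsum_congr fun v => tsum_congr fun w => by ring
      _ = _ := by
          simp only [ENNReal.tsum_add, ENNReal.tsum_mul_left, ENNReal.tsum_mul_right]
          ring
  exact (ENNReal.mul_le_mul_iff_right two_ne_zero ENNReal.ofNat_ne_top).1 key

/-- Young's inequality for a square summable and a summable series. -/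
theorem tsum_sq_conv_le (U b : Site d → ℝ≥0∞) :
    ∑' z, (∑' v, U (z - v) * b v) ^ 2 ≤ (∑' v, b v) ^ 2 * ∑' z, U z ^ 2 := by
  calc ∑' z, (∑' v, U (z - v) * b v) ^ 2
      ≤ ∑' z, (∑' v, U (z - v) ^ 2 * b v) * ∑' v, b v :=
        ENNReal.tsum_le_tsum fun z => by
          simpa using sq_tsum_mul_le (fun v => U (z - v)) (fun _ => 1) b
    _ = (∑' v, ∑' z, U (z - v) ^ 2 * b v) * ∑' v, b v := by
        rw [ENNReal.tsum_mul_right, ENNReal.tsum_comm]
    _ = _ := by
        have e : ∀ v, ∑' z, U (z - v) ^ 2 * b v = (∑' z, U z ^ 2) * b v := fun v => by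
          rw [ENNReal.tsum_mul_right, ← (Equiv.subRight v).tsum_eq fun z => U z ^ 2]
          rfl
        simp only [e, ENNReal.tsum_mul_left]
        ring

/-- The overlap of a square summable series with far translates of itself is small. -/
theorem exists_small_overlap {g : Site d → ℝ≥0∞} (hg : ∑' z, g z ^ 2 ≠ ∞) {o : ℕ → Site d}
    (ho : Tendsto o atTop cofinite) {c : ℝ≥0∞} (hc : 0 < c) :
    ∃ m, ∑' z, g z * g (z - o m) < c := by
  classical
  set M := ∑' z, g z ^ 2 with hM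
  obtain ⟨δ, hδ, hδc⟩ : ∃ δ : ℝ≥0∞, 0 < δ ∧ 4 * (δ * M) < (min c 1) ^ 2 := by
    have hpos : 0 < (min c 1) ^ 2 := ENNReal.pow_pos (lt_min hc one_pos) 2
    have ht : Tendsto (fun δ : ℝ≥0∞ => 4 * (δ * M)) (𝓝 0) (𝓝 (4 * (0 * M))) :=
      ENNReal.Tendsto.const_mul (ENNReal.Tendsto.mul_const tendsto_id (Or.inr hg))
        (Or.inr (by simp))
    rw [zero_mul, mul_zero] at ht
    obtain ⟨n, hn⟩ := ((ht.comp ENNReal.tendsto_inv_nat_nhds_zero).eventually
      (eventually_lt_nhds hpos)).exists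
    exact ⟨(n : ℝ≥0∞)⁻¹, ENNReal.inv_pos.2 (ENNReal.natCast_ne_top n), hn⟩
  obtain ⟨F, hF⟩ : ∃ F : Finset (Site d), ∑' z : {z // z ∉ F}, g z ^ 2 < δ :=
    ((ENNReal.tendsto_tsum_compl_atTop_zero hg).eventually (eventually_lt_nhds hδ)).exists
  let r : Site d → ℝ≥0∞ := fun z => if z ∈ F then 0 else g z
  have hr : ∑' z, r z ^ 2 ≤ δ := by
    refine le_trans (le_of_eq ?_) hF.le
    rw [show (∑' z : {z // z ∉ F}, g z ^ 2) =
      ∑' z, ({z | z ∉ F} : Set (Site d)).indicator (fun z => g z ^ 2) z from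
        tsum_subtype {z | z ∉ F} fun z => g z ^ 2]
    refine tsum_congr fun z => ?_
    by_cases h : z ∈ F <;> simp [r, h]
  obtain ⟨m, hm⟩ : ∃ m, ∀ z ∈ F, z - o m ∉ F := by
    have hfin : {x : Site d | ∃ z ∈ F, z - x ∈ F}.Finite :=
      ((F ×ˢ F).finite_toSet.image fun p => p.1 - p.2).subset
        fun x ⟨z, hz, hzx⟩ => ⟨(z, z - x), by simp [hz, hzx], by simp⟩
    obtain ⟨m, hm⟩ := (ho.eventually hfin.eventually_cofinite_notMem).exists
    exact ⟨m, fun z hz h => hm ⟨z, hz, h⟩⟩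
  refine ⟨m, ?_⟩
  have hpt : ∀ z, g z * g (z - o m) ≤ r z * g (z - o m) + g z * r (z - o m) := fun z => by
    by_cases hz : z ∈ F
    · simp [r, hz, hm z hz]
    · simp [r, hz]
  have hshift : ∀ h : Site d → ℝ≥0∞, ∑' z, h (z - o m) = ∑' z, h z := fun h =>
    (Equiv.subRight (o m)).tsum_eq h
  have hP : (∑' z, r z * g (z - o m)) ^ 2 ≤ δ * M := by
    have := sq_tsum_mul_le r (fun z => g (z - o m)) fun _ => 1
    simp only [mul_one, hshift fun z => g z ^ 2] at this
    exact this.trans (mul_le_mul' hr le_rfl)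
  have hQ : (∑' z, g z * r (z - o m)) ^ 2 ≤ δ * M := by
    have := sq_tsum_mul_le g (fun z => r (z - o m)) fun _ => 1
    simp only [mul_one, hshift fun z => r z ^ 2] at this
    exact this.trans ((mul_le_mul' le_rfl hr).trans_eq (mul_comm _ _))
  refine lt_of_lt_of_le ?_ (min_le_left c 1)
  by_contra hlt
  have hle : (min c 1) ^ 2 ≤ 4 * (δ * M) := by
    calc (min c 1) ^ 2 ≤ (∑' z, r z * g (z - o m) + ∑' z, g z * r (z - o m)) ^ 2 := by
          refine pow_le_pow_left' ((not_lt.1 hlt).trans ?_) 2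
          rw [← ENNReal.tsum_add]
          exact ENNReal.tsum_le_tsum hpt
      _ = (∑' z, r z * g (z - o m)) ^ 2 + (∑' z, g z * r (z - o m)) ^ 2 +
            2 * ((∑' z, r z * g (z - o m)) * ∑' z, g z * r (z - o m)) := by ring
      _ ≤ 2 * ((∑' z, r z * g (z - o m)) ^ 2 + (∑' z, g z * r (z - o m)) ^ 2) := by
          rw [two_mul ((∑' z, r z * g (z - o m)) ^ 2 + _)]
          exact add_le_add le_rfl (two_mul_le_sq _ _)
      _ ≤ 2 * (δ * M + δ * M) := by gcongr
      _ = 4 * (δ * M) := by ring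
  exact absurd hδc (not_lt.2 hle)

variable [NeZero d] {μ : Measure (Step d → ℝ)} {φ : Site d →+ ℤ}

theorem upHit_sq_summable_of [IsProbabilityMeasure μ] (hR : meanRange μ φ ≠ ∞)
    (hU : ∑' z, cutProb μ φ z ^ 2 ≠ ∞)
    (hconv : ∀ z, upHit μ φ z ≤ ∑' v : Site d, cutProb μ φ (z - v) *
      blockLaw μ φ {s | v ∈ trace 0 s})
    (hsum : ∑' v : Site d, blockLaw μ φ {s | v ∈ trace 0 s} = meanRange μ φ) :
    ∑' z, upHit μ φ z ^ 2 ≠ ∞ := by
  refine ne_top_of_le_ne_top ?_ ((ENNReal.tsum_le_tsum fun z =>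
    pow_le_pow_left' (hconv z) 2).trans (tsum_sq_conv_le _ _))
  rw [hsum]
  exact ENNReal.mul_ne_top (ENNReal.pow_ne_top hR) hU

omit [NeZero d] in
theorem measurableSet_hit (z : Site d) :
    MeasurableSet {u : ℕ → Step d | ∃ k, path 0 u k = z} := by
  simp only [ofPred_exists]
  exact MeasurableSet.iUnion fun k =>
    ((measurable_pi_apply k).comp (measurable_path 0)) (measurableSet_singleton z)

variable (μ) [IsProbabilityMeasure μ] (φ)

theorem upHit_sq_summable (hell : IsElliptic μ) (hl : IsLevel φ) (ha : 0 < aUp μ φ)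
    (hR : meanRange μ φ ≠ ∞) (hU : ∑' z, cutProb μ φ z ^ 2 ≠ ∞) :
    ∑' z, upHit μ φ z ^ 2 ≠ ∞ :=
  upHit_sq_summable_of hR hU (upHit_le_conv μ φ hell hl ha) (tsum_blockLaw_trace μ φ)

/-- Two independent upward escapes from suitable starts avoid each other. -/
theorem exists_apart (hd : 2 ≤ d) (_hell : IsElliptic μ) (hl : IsLevel φ) (ha : 0 < aUp μ φ)
    (hg : ∑' z, upHit μ φ z ^ 2 ≠ ∞) :
    ∃ o : Site d, φ o = 0 ∧ (∃ c : Word d, disp c = o ∧ ∀ k, 0 ≤ φ (disp (c.take k))) ∧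
      0 < (annLaw μ 0).prod (annLaw μ o) (Apart φ o) := by
  obtain ⟨v, hv, hv0, hcon⟩ := exists_connector hd hl
  have hinj : Function.Injective fun m : ℕ => (m : ℤ) • v := by
    obtain ⟨i, hi⟩ := Function.ne_iff.1 hv
    intro a b hab
    have := congrFun hab i
    simp only [Pi.smul_apply, smul_eq_mul] at this
    exact_mod_cast mul_right_cancel₀ hi this
  have hto : Tendsto (fun m : ℕ => (m : ℤ) • v) atTop cofinite := by
    rw [← Nat.cofinite_eq_atTop]; exact hinj.tendsto_cofinite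
  obtain ⟨m, hm⟩ := exists_small_overlap hg hto (ENNReal.mul_pos ha.ne' ha.ne')
  set o := (m : ℤ) • v
  have ho : φ o = 0 := by rw [show o = (m : ℤ) • v from rfl, map_zsmul, hv0, smul_zero]
  obtain ⟨c, hc, hck⟩ := hcon m
  refine ⟨o, ho, ⟨c, hc, fun k => ?_⟩, ?_⟩
  · rcases eq_or_ne k 0 with rfl | hk
    · simp [disp]
    rcases lt_or_ge k c.length with h | h
    · linarith [hck k (Nat.pos_of_ne_zero hk) h]
    · rw [List.take_of_length_le h, hc, ho]
  let H : Site d → Set (ℕ → Step d) := fun z => {u | ∃ k, path 0 u k = z}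
  have hH : ∀ z, MeasurableSet (Up φ ∩ H z) := fun z =>
    (SegAux.measurableSet_UpAux φ).inter (measurableSet_hit z)
  have hsub : Up φ ×ˢ Up φ ⊆
      Apart φ o ∪ ⋃ z, (Up φ ∩ H z) ×ˢ (Up φ ∩ H (z - o)) := by
    rintro ⟨u, u'⟩ ⟨hu, hu'⟩
    by_cases h : ∀ i j, path 0 u i ≠ path o u' j
    · exact Or.inl ⟨hu, hu', h⟩
    · simp only [not_forall, not_not] at h
      obtain ⟨i, j, hij⟩ := h
      refine Or.inr (mem_iUnion.2 ⟨path 0 u i, ⟨hu, i, rfl⟩, hu', j, ?_⟩)
      rw [hij, path_eq_add o, add_sub_cancel_left]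
  have hann : ∀ z, annLaw μ o (Up φ ∩ H z) = upHit μ φ z := fun z => by
    rw [annLaw_apply o (hH z), ann_translate o (hH z)]
    rfl
  have hUp : ∀ x, annLaw μ x (Up φ) = aUp μ φ := fun x => by
    rw [annLaw_apply x (SegAux.measurableSet_UpAux φ), ann_translate x (SegAux.measurableSet_UpAux φ)]
    rfl
  refine pos_iff_ne_zero.2 fun h0 => ?_
  have := measure_mono (μ := (annLaw μ 0).prod (annLaw μ o)) hsub
  rw [Measure.prod_prod, hUp, hUp] at this
  refine absurd (this.trans ((measure_union_le _ _).trans ?_)) (not_le.2 hm)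
  rw [h0, zero_add]
  refine (measure_iUnion_le _).trans (ENNReal.tsum_le_tsum fun z => le_of_eq ?_)
  rw [Measure.prod_prod, hann, annLaw_apply 0 (hH z)]
  rfl

end Vale.Agent.P147.Flux
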