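import Vale.Agent.P147.Flux.Defs

/-!
# The second moment of the flux

Two good segments of equal height ending at the same site are translated to start at `0` and `Δ`.
The independent factor `sepConst` makes the events for one `Δ` overlap at most `h + 1` times, and
each of them lies in the rectangle of two prefixes ending at a first meeting, whose traces are
disjoint.
-/

namespace Vale.Agent.P147.Flux

open MeasureTheory Set Filter Regen Regen.SegAux ProbabilityTheory
open scoped ENNReal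

variable {d : ℕ} [NeZero d] (μ : Measure (Step d → ℝ)) [IsProbabilityMeasure μ] (φ : Site d →+ ℤ)

namespace SecondAux

omit [IsProbabilityMeasure μ] in
theorem good_take {θ : ℝ≥0∞} {s : Word d} (h : GoodWord μ φ θ s) (k : ℕ) :
    GoodWord μ φ θ (s.take k) := fun j hj => by
  rw [List.length_take] at hj
  rw [List.take_take, min_eq_left (hj.trans (min_le_left _ _))]
  exact h j (hj.trans (min_le_right _ _))

omit [NeZero d] in
theorem measurableSet_Sep (h : ℕ) : MeasurableSet (Sep φ h) := by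
  have hp : ∀ n, Measurable fun u : ℕ → Step d => path 0 u n := fun n =>
    (measurable_pi_apply n).comp (measurable_path 0)
  have hp1 : ∀ n, Measurable fun p : (ℕ → Step d) × (ℕ → Step d) => path 0 p.1 n := fun n =>
    (hp n).comp measurable_fst
  have hp2 : ∀ n, Measurable fun p : (ℕ → Step d) × (ℕ → Step d) => path 0 p.2 n := fun n =>
    (hp n).comp measurable_snd
  have e : Sep φ h = (⋂ n, (fun p : (ℕ → Step d) × (ℕ → Step d) => path 0 p.1 n) ⁻¹' {z | 0 ≤ φ z}) ∩
      ((⋂ n, (fun p : (ℕ → Step d) × (ℕ → Step d) => path 0 p.2 n) ⁻¹' {z | 0 ≤ φ z}) ∩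
        ⋂ i, ⋂ j, (fun p : (ℕ → Step d) × (ℕ → Step d) => (path 0 p.1 i, path 0 p.2 j)) ⁻¹'
          {z | z.1 = z.2 → φ z.1 ≤ (h : ℤ)}) := by
    ext p
    simp only [Sep, mem_ofPred_eq, mem_inter_iff, mem_iInter, mem_preimage]
  rw [e]
  exact (MeasurableSet.iInter fun n => hp1 n (to_countable _).measurableSet).inter
    ((MeasurableSet.iInter fun n => hp2 n (to_countable _).measurableSet).inter
      (MeasurableSet.iInter fun i => MeasurableSet.iInter fun j =>
        ((hp1 i).prodMk (hp2 j)) (to_countable _).measurableSet))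

/-- The chance of separation from `x`. -/
noncomputable def sepAt (φ : Site d →+ ℤ) (h : ℕ) (x : Site d) (w : Env d) : ℝ≥0∞ :=
  (W w x).prod (W w x) (Sep φ h)

omit [NeZero d] in
theorem measurable_qw_mul (x x' : Site d) (s s' : Word d) :
    Measurable fun w : Env d => qw w x s * qw w x' s' :=
  (measurable_qw x s).mul (measurable_qw x' s')

theorem measurable_sepAt (h : ℕ) (x : Site d) : Measurable (sepAt φ h x) := by
  have hm : Measurable fun w : Env d => W w x :=
    Measure.measurable_of_measurable_coe _ fun A hA => measurable_W x hA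
  let κ : Kernel (Env d) (ℕ → Step d) := ⟨fun w => W w x, hm⟩
  have : IsMarkovKernel κ := ⟨fun w => inferInstanceAs (IsProbabilityMeasure (W w x))⟩
  have e : sepAt φ h x = fun w => (κ ×ₖ κ) w (Sep φ h) := by
    funext w
    rw [Kernel.prod_apply]
    rfl
  rw [e]
  exact Kernel.measurable_coe _ (measurableSet_Sep φ h)

/-- Separation only sees the rows at levels at least that of the starting point. -/
theorem dependsOn_sepAt (h : ℕ) (x : Site d) :
    DependsOn (sepAt φ h x) {y | φ x ≤ φ y} := by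
  intro w w' hww'
  set N : Set (ℕ → Step d) := NB φ
  have hN : MeasurableSet N := measurableSet_NB φ
  have hres : (W w x).restrict N = (W w' x).restrict N := by
    refine Measure.ext fun A hA => ?_
    rw [Measure.restrict_apply hA, Measure.restrict_apply hA]
    refine dependsOn_W (S := {y | φ y < φ x}) x (hA.inter hN) ?_ ?_
    · intro v hv n hn
      have h1 : 0 ≤ φ (path 0 v n) := hv.2 n
      simp only [mem_ofPred_eq] at hn
      rw [path_eq_add, map_add] at hn
      linarith
    · intro y hy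
      exact hww' y (by simpa using hy)
  have hsub : Sep φ h ⊆ N ×ˢ N := fun p hp => ⟨hp.1, hp.2.1⟩
  have e : ∀ v : Env d, sepAt φ h x v =
      ((W v x).restrict N).prod ((W v x).restrict N) (Sep φ h) := fun v => by
    rw [Measure.prod_restrict, Measure.restrict_apply (measurableSet_Sep φ h),
      inter_eq_left.2 hsub]
    rfl
  rw [e, e, hres]

theorem lintegral_sepAt (h : ℕ) (x : Site d) :
    ∫⁻ w, sepAt φ h x w ∂envLaw μ = sepConst μ φ h := by
  have e : sepAt φ h x = fun w => sepAt φ h 0 (shiftEnv x w) := by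
    funext w; simp only [sepAt, ← W_shift]
  rw [e]
  exact (measurePreserving_shiftEnv μ x).lintegral_comp (measurable_sepAt φ h 0)

/-- The event that two walks start with `s`, `s'` and then separate. -/
def pairEv (φ : Site d →+ ℤ) (h : ℕ) (s s' : Word d) : Set ((ℕ → Step d) × (ℕ → Step d)) :=
  (Pre s ×ˢ Pre s') ∩ Prod.map (shiftSeq s.length) (shiftSeq s'.length) ⁻¹' Sep φ h

omit [NeZero d] in
theorem measurableSet_pairEv (h : ℕ) (s s' : Word d) : MeasurableSet (pairEv φ h s s') :=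
  ((measurableSet_Pre s).prod (measurableSet_Pre s')).inter
    (((measurable_shiftSeq _).prodMap (measurable_shiftSeq _)) (measurableSet_Sep φ h))

theorem map_restrict_Pre {w : Env d} (hw : IsEnv w) (x : Site d) (s : Word d) :
    ((W w x).restrict (Pre s)).map (shiftSeq s.length) = qw w x s • W w (x + disp s) := by
  refine Measure.ext fun A hA => ?_
  rw [Measure.map_apply (measurable_shiftSeq _) hA,
    Measure.restrict_apply (measurable_shiftSeq _ hA), inter_comm, W_Pre_inter hw x s hA,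
    Measure.smul_apply, smul_eq_mul]

theorem prod_pairEv {w : Env d} (hw : IsEnv w) (h : ℕ) (s s' : Word d) (Δ : Site d)
    (he : Δ + disp s' = disp s) :
    (W w 0).prod (W w Δ) (pairEv φ h s s') = qw w 0 s * qw w Δ s' * sepAt φ h (disp s) w := by
  have hS := measurableSet_Sep φ h
  have hm := (measurable_shiftSeq (α := Step d) s.length).prodMap
    (measurable_shiftSeq (α := Step d) s'.length)
  rw [pairEv, inter_comm, ← Measure.restrict_apply (hm hS), ← Measure.prod_restrict,
    ← Measure.map_apply hm hS, ← Measure.map_prod_map _ _ (measurable_shiftSeq _)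
      (measurable_shiftSeq _), map_restrict_Pre hw, map_restrict_Pre hw, zero_add, he,
    Measure.prod_smul_left, Measure.prod_smul_right, Measure.smul_apply, Measure.smul_apply,
    sepAt, smul_eq_mul, smul_eq_mul, mul_assoc]

theorem prod_rect {w : Env d} (hw : IsEnv w) (q q' : Word d) (Δ : Site d) :
    (W w 0).prod (W w Δ) (Pre q ×ˢ Pre q') = qw w 0 q * qw w Δ q' := by
  rw [Measure.prod_prod, W_Pre hw, W_Pre hw]

/-- Two segments with a common end, given by their height and the two words. -/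
abbrev Idx (μ : Measure (Step d → ℝ)) (φ : Site d →+ ℤ) (θ : ℝ≥0∞) (N : ℕ) : Type :=
  Σ n : (Finset.Icc 1 N : Finset ℕ), goodSegs μ φ θ n.1 × goodSegs μ φ θ n.1

/-- Two first meeting prefixes, given by their level and the two words. -/
abbrev Mid (μ : Measure (Step d → ℝ)) (φ : Site d →+ ℤ) (θ : ℝ≥0∞) (N : ℕ) : Type :=
  Σ m : (Finset.Icc (0 : ℤ) N : Finset ℤ), goodEnds μ φ θ m.1 × goodEnds μ φ θ m.1

variable {μ φ} {θ : ℝ≥0∞} {N : ℕ}

/-- The offset of the two starting points. -/
def off (ι : Idx μ φ θ N) : Site d := disp ι.2.1.1 - disp ι.2.2.1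

/-- The offset of the two starting points of prefixes. -/
def offM (q : Mid μ φ θ N) : Site d := disp q.2.1.1 - disp q.2.2.1

omit [IsProbabilityMeasure μ] in
theorem off_level (ι : Idx μ φ θ N) : φ (off ι) = 0 := by
  rw [off, map_sub, ι.2.1.2.2.1, ι.2.2.2.2.1, sub_self]

omit [IsProbabilityMeasure μ] in
/-- The prefixes at a first meeting. -/
theorem exists_mid (ι : Idx μ φ θ N) :
    ∃ q : Mid μ φ θ N, offM q = off ι ∧
      Disjoint (trace 0 (q.2.1 : Word d)) (trace (off ι) (q.2.2 : Word d)) ∧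
      (∀ h, pairEv φ h ι.2.1.1 ι.2.2.1 ⊆ Pre (q.2.1 : Word d) ×ˢ Pre (q.2.2 : Word d)) := by
  classical
  obtain ⟨⟨n, hn⟩, ⟨s, hs, hsh, hsg⟩, ⟨s', hs', hsh', hsg'⟩⟩ := ι
  simp only [off]
  have hn' := Finset.mem_Icc.1 hn
  replace hsh : φ (disp s) = (n : ℤ) := hsh
  replace hsh' : φ (disp s') = (n : ℤ) := hsh'
  set Δ := disp s - disp s' with hΔ
  set T : Finset (Site d) := insert (disp s) (trace Δ s') with hT
  have hex : ∃ k, k ≤ s.length ∧ disp (s.take k) ∈ T :=
    ⟨s.length, le_rfl, by rw [List.take_length, hT]; exact Finset.mem_insert_self _ _⟩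
  set i := Nat.find hex
  obtain ⟨hi, hiT⟩ := Nat.find_spec hex
  have hex' : ∃ k, k ≤ s'.length ∧ Δ + disp (s'.take k) = disp (s.take i) := by
    rcases Finset.mem_insert.1 hiT with h | h
    · exact ⟨s'.length, le_rfl, by rw [List.take_length, h, hΔ]; abel⟩
    · obtain ⟨k, hk, hk'⟩ := mem_trace.1 h
      exact ⟨k, hk.le, hk'.symm⟩
  set j := Nat.find hex'
  obtain ⟨hj, hjz⟩ := Nat.find_spec hex'
  set q := s.take i with hq
  set q' := s'.take j with hq'
  have hΔ0 : φ Δ = 0 := by rw [hΔ, map_sub, hsh, hsh', sub_self]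
  have hlev : φ (disp q') = φ (disp q) := by
    have := congrArg φ hjz
    rw [map_add, hΔ0, zero_add] at this
    exact this
  have hqn := pseg_level_le (pseg_of_seg hs) i
  rw [← hq, hsh] at hqn
  have hfresh : disp q ∉ trace 0 q := by
    intro hmem
    obtain ⟨k, hk, hk'⟩ := mem_trace.1 hmem
    rw [hq, List.length_take] at hk
    rw [zero_add, hq, List.take_take, min_eq_left (by omega)] at hk'
    exact Nat.find_min hex (show k < i by omega) ⟨by omega, hk' ▸ hiT⟩
  have hfresh' : disp q' ∉ trace 0 q' := by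
    intro hmem
    obtain ⟨k, hk, hk'⟩ := mem_trace.1 hmem
    rw [hq', List.length_take] at hk
    rw [zero_add, hq', List.take_take, min_eq_left (by omega)] at hk'
    exact Nat.find_min hex' (show k < j by omega) ⟨by omega, by rw [← hk']; exact hjz⟩
  refine ⟨⟨⟨φ (disp q), Finset.mem_Icc.2 ⟨hqn.1, by omega⟩⟩,
    ⟨q, good_take μ φ hsg i, rfl, hfresh⟩, ⟨q', good_take μ φ hsg' j, hlev, hfresh'⟩⟩, ?_, ?_, ?_⟩
  · show disp q - disp q' = Δ
    rw [sub_eq_iff_eq_add]
    exact hjz.symm
  · show Disjoint (trace 0 q) (trace Δ q')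
    rw [Finset.disjoint_left]
    intro z hz hz'
    obtain ⟨k, hk, rfl⟩ := mem_trace.1 hz
    rw [hq, List.length_take] at hk
    rw [zero_add, hq, List.take_take, min_eq_left (by omega)] at hz'
    refine Nat.find_min hex (show k < i by omega) ⟨by omega, Finset.mem_insert_of_mem ?_⟩
    have e : trace Δ s' = trace Δ q' ∪ trace (Δ + disp q') (s'.drop j) := by
      rw [← trace_append, hq', List.take_append_drop]
    rw [e]
    exact Finset.mem_union_left _ hz'
  · intro h p hp
    show p.1 ∈ Pre q ∧ p.2 ∈ Pre q'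
    constructor
    · have h1 : p.1 ∈ Pre (q ++ s.drop i) := by rw [hq, List.take_append_drop]; exact hp.1.1
      exact (Pre_append h1).1
    · have h1 : p.2 ∈ Pre (q' ++ s'.drop j) := by rw [hq', List.take_append_drop]; exact hp.1.2
      exact (Pre_append h1).1

omit [IsProbabilityMeasure μ] in
/-- The later of two separated common ends is at most `h` levels higher. -/
theorem height_le {h : ℕ} {ι κ : Idx μ φ θ N} (hoff : off ι = off κ)
    {p : (ℕ → Step d) × (ℕ → Step d)} (hι : p ∈ pairEv φ h ι.2.1.1 ι.2.2.1)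
    (hκ : p ∈ pairEv φ h κ.2.1.1 κ.2.2.1) (hlt : ι.1.1 < κ.1.1) : κ.1.1 ≤ ι.1.1 + h := by
  obtain ⟨⟨n, hn⟩, ⟨s, hs, hsh, hsg⟩, ⟨s', hs', hsh', hsg'⟩⟩ := ι
  obtain ⟨⟨m, hm⟩, ⟨r, hr, hrh, hrg⟩, ⟨r', hr', hrh', hrg'⟩⟩ := κ
  simp only [off] at hoff
  simp only at hι hκ hlt ⊢
  replace hlt : n < m := hlt
  replace hsh : φ (disp s) = (n : ℤ) := hsh
  replace hsh' : φ (disp s') = (n : ℤ) := hsh'
  replace hrh : φ (disp r) = (m : ℤ) := hrh
  replace hrh' : φ (disp r') = (m : ℤ) := hrh'
  obtain ⟨⟨a1, a2⟩, -, -, a3⟩ := hι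
  obtain ⟨⟨b1, b2⟩, -⟩ := hκ
  -- lengths grow with the height
  have key : ∀ {u : ℕ → Step d} {s r : Word d}, u ∈ Pre s → u ∈ Pre r → IsSeg φ s →
      φ (disp s) < φ (disp r) → s.length ≤ r.length := by
    intro u s r hu hu' hs hlt
    by_contra hc
    have h1 := (hs.2 r.length (by omega)).2
    rw [take_eq_pref hu (by omega), pref_eq hu'] at h1
    omega
  have hsr : s.length ≤ r.length := key a1 b1 hs (by omega)
  have hsr' : s'.length ≤ r'.length := key a2 b2 hs' (by omega)
  have e1 : disp s + path 0 (shiftSeq s.length p.1) (r.length - s.length) = disp r := by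
    rw [← path_eq_add]
    have h1 := path_shiftSeq a1 0 (r.length - s.length)
    rw [Nat.add_sub_cancel' hsr, path_pre b1 0 le_rfl, List.take_length, zero_add, zero_add] at h1
    exact h1.symm
  have e2 : disp s' + path 0 (shiftSeq s'.length p.2) (r'.length - s'.length) = disp r' := by
    rw [← path_eq_add]
    have h1 := path_shiftSeq a2 0 (r'.length - s'.length)
    rw [Nat.add_sub_cancel' hsr', path_pre b2 0 le_rfl, List.take_length, zero_add, zero_add] at h1
    exact h1.symm
  have hmeet : path 0 (shiftSeq s.length p.1) (r.length - s.length) =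
      path 0 (shiftSeq s'.length p.2) (r'.length - s'.length) := by
    rw [sub_eq_sub_iff_add_eq_add] at hoff
    have h3 : disp s + disp r' = disp s' + disp r := by rw [hoff]; abel
    rw [← e1, ← e2] at h3
    simpa [add_assoc, add_left_comm, add_comm] using h3.symm
  have h4 := a3 _ _ hmeet
  have h5 := congrArg φ e1
  rw [map_add] at h5
  have h4' : φ (path 0 (shiftSeq s.length p.1) (r.length - s.length)) ≤ (h : ℤ) := h4
  omega

omit [IsProbabilityMeasure μ] in
/-- For one offset the events overlap at most `h + 1` times and lie in the rectangles. -/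
theorem tsum_indicator_le (h : ℕ) (Δ : Site d) (p : (ℕ → Step d) × (ℕ → Step d)) :
    ∑' ι : off (μ := μ) (φ := φ) (θ := θ) (N := N) ⁻¹' {Δ},
        (pairEv φ h ι.1.2.1.1 ι.1.2.2.1).indicator (fun _ => (1 : ℝ≥0∞)) p ≤
      ((h : ℝ≥0∞) + 1) * ∑' q : {q : Mid μ φ θ N // offM q = Δ ∧
          Disjoint (trace 0 (q.2.1 : Word d)) (trace Δ (q.2.2 : Word d))},
        (Pre (q.1.2.1 : Word d) ×ˢ Pre (q.1.2.2 : Word d)).indicator (fun _ => (1 : ℝ≥0∞)) p := by
  classical
  set S : Set (off (μ := μ) (φ := φ) (θ := θ) (N := N) ⁻¹' {Δ}) :=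
    {ι | p ∈ pairEv φ h ι.1.2.1.1 ι.1.2.2.1}
  have e : ∀ ι : off (μ := μ) (φ := φ) (θ := θ) (N := N) ⁻¹' {Δ},
      (pairEv φ h ι.1.2.1.1 ι.1.2.2.1).indicator (fun _ => (1 : ℝ≥0∞)) p =
        S.indicator (fun _ => (1 : ℝ≥0∞)) ι := fun ι => by
    simp only [indicator, S, mem_ofPred_eq]
  rw [tsum_congr e, ← tsum_subtype, ENNReal.tsum_set_one]
  rcases S.eq_empty_or_nonempty with hS | hS
  · rw [hS]; simp
  -- the least height
  obtain ⟨ι₀, hι₀, hmin⟩ := (InvImage.wf (fun ι : off (μ := μ) (φ := φ) (θ := θ) (N := N) ⁻¹' {Δ}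
    => ι.1.1.1) Nat.lt_wfRel.wf).has_min S hS
  replace hmin : ∀ ι ∈ S, ι₀.1.1.1 ≤ ι.1.1.1 := fun ι hι => not_lt.1 (hmin ι hι)
  have hinj : InjOn (fun ι : off (μ := μ) (φ := φ) (θ := θ) (N := N) ⁻¹' {Δ} => ι.1.1.1) S := by
    rintro ⟨⟨⟨n, hn⟩, ⟨s, hs⟩, ⟨s', hs'⟩⟩, _⟩ a ⟨⟨⟨m, hm⟩, ⟨r, hr⟩, ⟨r', hr'⟩⟩, _⟩ b (rfl : n = m)
    have e1 : s = r := eq_of_isRec (isRec_of_pseg (pseg_of_seg hs.1))
      (isRec_of_pseg (pseg_of_seg hr.1)) a.1.1 b.1.1 (by rw [hs.2.1, hr.2.1])
    have e2 : s' = r' := eq_of_isRec (isRec_of_pseg (pseg_of_seg hs'.1))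
      (isRec_of_pseg (pseg_of_seg hr'.1)) a.1.2 b.1.2 (by rw [hs'.2.1, hr'.2.1])
    subst e1 e2
    rfl
  have hmaps : MapsTo (fun ι : off (μ := μ) (φ := φ) (θ := θ) (N := N) ⁻¹' {Δ} => ι.1.1.1) S
      (Finset.Icc ι₀.1.1.1 (ι₀.1.1.1 + h) : Set ℕ) := by
    intro ι hι
    simp only [Finset.coe_Icc, mem_Icc]
    refine ⟨hmin ι hι, ?_⟩
    rcases (hmin ι hι).eq_or_lt with he | hlt
    · omega
    · exact height_le (ι₀.2.trans ι.2.symm) hι₀ hι hlt
  have hcard : (S.encard : ℝ≥0∞) ≤ (h : ℝ≥0∞) + 1 := by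
    have h1 : S.encard ≤ ((Finset.Icc ι₀.1.1.1 (ι₀.1.1.1 + h)).card : ℕ∞) := by
      rw [← encard_coe_eq_coe_finsetCard]
      exact encard_le_encard_of_injOn hmaps hinj
    rw [Nat.card_Icc, show ι₀.1.1.1 + h + 1 - ι₀.1.1.1 = h + 1 by omega] at h1
    have h2 := ENat.toENNReal_le.2 h1
    simpa using h2
  obtain ⟨q, hq1, hq2, hq3⟩ := exists_mid ι₀.1
  have hoff : off ι₀.1 = Δ := ι₀.2
  rw [hoff] at hq1 hq2
  refine hcard.trans (le_mul_of_one_le_right zero_le ?_)
  refine le_trans (le_of_eq ?_) (ENNReal.le_tsum ⟨q, hq1, hq2⟩)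
  rw [indicator_of_mem (hq3 h hι₀)]

end SecondAux

open SecondAux

/-- The second moment of the flux, averaged over heights, is bounded. -/
theorem flux_sq_le (hell : IsElliptic μ) (_hl : IsLevel φ) (θ V : ℝ≥0∞)
    (hV : ∀ m : ℤ, ∑' q : goodEnds μ φ θ m, wt μ (q : Word d) ≤ V) (h N : ℕ) :
    sepConst μ φ h * ∑ n ∈ Finset.Icc 1 N, ∫⁻ w, flux μ φ θ n w ^ 2 ∂envLaw μ ≤
      ((h : ℝ≥0∞) + 1) * ((N : ℝ≥0∞) + 1) * V ^ 2 := by
  classical
  have hae := ae_isEnv (μ := μ) hell
  -- one term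
  have hterm : ∀ ι : Idx μ φ θ N,
      sepConst μ φ h * ∫⁻ w, qw w (-disp ι.2.1.1) ι.2.1.1 * qw w (-disp ι.2.2.1) ι.2.2.1 ∂envLaw μ =
        ∫⁻ w, (W w 0).prod (W w (off ι)) (pairEv φ h ι.2.1.1 ι.2.2.1) ∂envLaw μ := by
    intro ι
    obtain ⟨⟨n, hn⟩, ⟨s, hs, hsh, hsg⟩, ⟨s', hs', hsh', hsg'⟩⟩ := ι
    simp only [off]
    set Δ := disp s - disp s' with hΔ
    have hΔ0 : φ Δ = 0 := by rw [hΔ, map_sub, hsh, hsh', sub_self]
    have hshift : ∫⁻ w, qw w (-disp s) s * qw w (-disp s') s' ∂envLaw μ =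
        ∫⁻ w, qw w 0 s * qw w Δ s' ∂envLaw μ := by
      refine Eq.trans ?_ ((measurePreserving_shiftEnv μ (-disp s)).lintegral_comp
        (measurable_qw_mul 0 Δ s s'))
      refine lintegral_congr fun w => ?_
      simp only [qw_shift, add_zero, hΔ,
        show -disp s + (disp s - disp s') = -disp s' by abel]
    rw [hshift, lintegral_congr_ae (hae.mono fun w hw =>
      prod_pairEv φ hw h s s' Δ (by rw [hΔ]; abel))]
    rw [lintegral_mul_dependsOn μ (S := {y | φ y < (n : ℤ)}) (T := {y | φ (disp s) ≤ φ y}) ?_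
      (measurable_qw_mul 0 Δ s s') (measurable_sepAt φ h _) ?_
      (dependsOn_sepAt φ h _), lintegral_sepAt, mul_comm]
    · rw [disjoint_left]
      intro y hy hy'
      simp only [mem_ofPred_eq, hsh] at hy hy'
      linarith
    · intro w w' hw
      show qw w 0 s * qw w Δ s' = qw w' 0 s * qw w' Δ s'
      have h1 : qw w 0 s = qw w' 0 s := dependsOn_qw 0 s fun y hy => hw y (by
        have := (hs.level_trace hy).2
        rw [map_zero, zero_add, hsh] at this
        exact this)
      have h2 : qw w Δ s' = qw w' Δ s' := dependsOn_qw Δ s' fun y hy => hw y (by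
        have := (hs'.level_trace hy).2
        rw [hΔ0, zero_add, hsh'] at this
        exact this)
      rw [h1, h2]
  -- the square as a sum over pairs
  have hsq : ∑ n ∈ Finset.Icc 1 N, ∫⁻ w, flux μ φ θ n w ^ 2 ∂envLaw μ =
      ∑' ι : Idx μ φ θ N,
        ∫⁻ w, qw w (-disp ι.2.1.1) ι.2.1.1 * qw w (-disp ι.2.2.1) ι.2.2.1 ∂envLaw μ := by
    rw [ENNReal.tsum_sigma fun (n : (Finset.Icc 1 N : Finset ℕ))
      (p : goodSegs μ φ θ n.1 × goodSegs μ φ θ n.1) =>
        ∫⁻ w, qw w (-disp p.1.1) p.1.1 * qw w (-disp p.2.1) p.2.1 ∂envLaw μ, tsum_fintype,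
      Finset.univ_eq_attach, ← Finset.sum_attach (Finset.Icc 1 N)]
    refine Finset.sum_congr rfl fun n _ => ?_
    rw [← lintegral_tsum fun p => (measurable_qw_mul _ _ _ _).aemeasurable]
    refine lintegral_congr fun w => ?_
    rw [ENNReal.tsum_prod' , flux, sq, ← ENNReal.tsum_mul_right]
    simp only [← ENNReal.tsum_mul_left]
  rw [hsq, ← ENNReal.tsum_mul_left, tsum_congr hterm, ← ENNReal.tsum_fiberwise _ off]
  -- one offset
  have hfib : ∀ Δ : Site d,
      ∑' ι : off (μ := μ) (φ := φ) (θ := θ) (N := N) ⁻¹' {Δ},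
          ∫⁻ w, (W w 0).prod (W w (off ι.1)) (pairEv φ h ι.1.2.1.1 ι.1.2.2.1) ∂envLaw μ ≤
        ((h : ℝ≥0∞) + 1) * ∑' q : {q : Mid μ φ θ N // offM q = Δ},
          wt μ (q.1.2.1 : Word d) * wt μ (q.1.2.2 : Word d) := by
    intro Δ
    set D := {q : Mid μ φ θ N // offM q = Δ ∧
      Disjoint (trace 0 (q.2.1 : Word d)) (trace Δ (q.2.2 : Word d))}
    rw [tsum_congr fun ι : off (μ := μ) (φ := φ) (θ := θ) (N := N) ⁻¹' {Δ} =>
      show _ = ∫⁻ w, ∫⁻ p, (pairEv φ h ι.1.2.1.1 ι.1.2.2.1).indicator (fun _ => (1 : ℝ≥0∞)) p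
        ∂(W w 0).prod (W w Δ) ∂envLaw μ from lintegral_congr fun w => by
          rw [lintegral_indicator (measurableSet_pairEv φ h _ _), setLIntegral_one, show off ι.1 = Δ
            from ι.2]]
    have hmeasP : ∀ s s', AEMeasurable (fun w : Env d =>
        ∫⁻ p, (pairEv φ h s s').indicator (fun _ => (1 : ℝ≥0∞)) p ∂(W w 0).prod (W w Δ))
          (envLaw μ) := by
      intro s s'
      have hm : ∀ x : Site d, Measurable fun w : Env d => W w x := fun x =>
        Measure.measurable_of_measurable_coe _ fun A hA => measurable_W x hA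
      let κ : Kernel (Env d) (ℕ → Step d) := ⟨fun w => W w 0, hm 0⟩
      let η : Kernel (Env d) (ℕ → Step d) := ⟨fun w => W w Δ, hm Δ⟩
      have : IsMarkovKernel κ := ⟨fun w => inferInstanceAs (IsProbabilityMeasure (W w 0))⟩
      have : IsMarkovKernel η := ⟨fun w => inferInstanceAs (IsProbabilityMeasure (W w Δ))⟩
      have e : (fun w : Env d => ∫⁻ p, (pairEv φ h s s').indicator (fun _ => (1 : ℝ≥0∞)) p
          ∂(W w 0).prod (W w Δ)) = fun w => (κ ×ₖ η) w (pairEv φ h s s') := by
        funext w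
        rw [lintegral_indicator (measurableSet_pairEv φ h _ _), setLIntegral_one, Kernel.prod_apply]
        rfl
      rw [e]
      exact (Kernel.measurable_coe _ (measurableSet_pairEv φ h s s')).aemeasurable
    rw [← lintegral_tsum fun ι => hmeasP _ _]
    calc _ ≤ ∫⁻ w, ((h : ℝ≥0∞) + 1) *
          ∑' q : D, qw w 0 (q.1.2.1 : Word d) * qw w Δ (q.1.2.2 : Word d) ∂envLaw μ := by
          refine lintegral_mono_ae (hae.mono fun w hw => ?_)
          rw [← lintegral_tsum fun ι =>
            (measurable_const.indicator (measurableSet_pairEv φ h _ _)).aemeasurable]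
          refine (lintegral_mono fun p => tsum_indicator_le h Δ p).trans (le_of_eq ?_)
          have hr : ∀ q : D, MeasurableSet (Pre (q.1.2.1 : Word d) ×ˢ Pre (q.1.2.2 : Word d)) :=
            fun q => (measurableSet_Pre _).prod (measurableSet_Pre _)
          rw [lintegral_const_mul' _ _ (by simp),
            lintegral_tsum fun q => (measurable_const.indicator (hr q)).aemeasurable]
          congr 1
          refine tsum_congr fun q => ?_
          rw [lintegral_indicator (hr q), setLIntegral_one, prod_rect hw]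
      _ = ((h : ℝ≥0∞) + 1) * ∑' q : D, wt μ (q.1.2.1 : Word d) * wt μ (q.1.2.2 : Word d) := by
          rw [lintegral_const_mul' _ _ (by simp),
            lintegral_tsum fun q => (measurable_qw_mul _ _ _ _).aemeasurable]
          congr 1
          refine tsum_congr fun q => ?_
          rw [lintegral_mul_dependsOn μ (Finset.disjoint_coe.2 q.2.2) (measurable_qw _ _)
            (measurable_qw _ _) (dependsOn_qw _ _) (dependsOn_qw _ _), lintegral_qw, lintegral_qw]
      _ ≤ _ := by
          refine mul_le_mul_right ?_ _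
          exact ENNReal.tsum_comp_le_tsum_of_injective
            (f := fun q : D => (⟨q.1, q.2.1⟩ : {q : Mid μ φ θ N // offM q = Δ}))
            (fun a b e => by
              simp only [Subtype.mk.injEq] at e
              exact Subtype.ext e)
            (fun q : {q : Mid μ φ θ N // offM q = Δ} =>
              wt μ (q.1.2.1 : Word d) * wt μ (q.1.2.2 : Word d))
  refine (ENNReal.tsum_le_tsum hfib).trans ?_
  rw [ENNReal.tsum_mul_left, mul_assoc ((h : ℝ≥0∞) + 1)]
  refine mul_le_mul_right ?_ _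
  rw [show (∑' Δ : Site d, ∑' q : {q : Mid μ φ θ N // offM q = Δ},
      wt μ (q.1.2.1 : Word d) * wt μ (q.1.2.2 : Word d)) =
    ∑' q : Mid μ φ θ N, wt μ (q.2.1 : Word d) * wt μ (q.2.2 : Word d) from
      ENNReal.tsum_fiberwise (fun q : Mid μ φ θ N => wt μ (q.2.1 : Word d) * wt μ (q.2.2 : Word d))
        offM]
  rw [ENNReal.tsum_sigma fun (m : (Finset.Icc (0 : ℤ) N : Finset ℤ))
    (p : goodEnds μ φ θ m.1 × goodEnds μ φ θ m.1) => wt μ (p.1 : Word d) * wt μ (p.2 : Word d),
    tsum_fintype]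
  calc _ ≤ ∑ _m : (Finset.Icc (0 : ℤ) N : Finset ℤ), V ^ 2 := by
        refine Finset.sum_le_sum fun m _ => ?_
        rw [ENNReal.tsum_prod']
        simp only [ENNReal.tsum_mul_left, ENNReal.tsum_mul_right, sq]
        exact mul_le_mul' (hV m.1) (hV m.1)
    _ = ((N : ℝ≥0∞) + 1) * V ^ 2 := by
        simp

end Vale.Agent.P147.Flux
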