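import Vale.Agent.P147.Flux.Defs
import Vale.Agent.P147.Main
import Vale.Agent.P147.Regen.IndepSeq

/-!
# Escape in any direction is trivial under a full escape in a level

The event is invariant under shifts of the step sequence, hence under dropping regeneration
blocks, so it is independent of every finite family of blocks.
-/

namespace Vale.Agent.P147.Flux

open MeasureTheory Set Filter Regen Regen.SegAux
open scoped ENNReal

variable {d : ℕ} [NeZero d]

theorem escEv_shiftSeq (l : Fin d → ℝ) (m : ℕ) (u : ℕ → Step d) :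
    shiftSeq m u ∈ escEv l 0 ↔ u ∈ escEv l 0 := by
  conv_lhs => rw [← escEv_shift l (path 0 u m)]
  simp only [escEv, mem_preimage, escape, mem_ofPred_eq]
  rw [← tendsto_add_atTop_iff_nat (f := fun n => dot l (path 0 u n)) m]
  refine iff_of_eq (congrArg (fun f : ℕ → ℝ => Tendsto f atTop atTop) (funext fun n => ?_))
  rw [add_comm n m, path_add_shift, path_eq_add]

theorem glue_mem_shift (l : Fin d → ℝ) (n : ℕ) {b : ℕ → Word d} (hb : AllPos b) :
    glue (shiftSeq n b) ∈ escEv l 0 ↔ glue b ∈ escEv l 0 := by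
  induction n with
  | zero =>
    have h : shiftSeq 0 b = b := funext fun k => by simp [shiftSeq]
    rw [h]
  | succ n ih =>
    have h : shiftSeq (n + 1) b = shiftSeq 1 (shiftSeq n b) := funext fun k => by
      simp [shiftSeq, add_assoc]
    rw [h, ← glue_shift (b := shiftSeq n b) fun i => hb _, escEv_shiftSeq, ih]

variable (μ : Measure (Step d → ℝ)) [IsProbabilityMeasure μ] (φ : Site d →+ ℤ)

omit [IsProbabilityMeasure μ] in
theorem blocks_escEv_zero_one [IsProbabilityMeasure (blockLaw μ φ)] (l : Fin d → ℝ) :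
    blocksLaw μ φ (glue ⁻¹' escEv l 0) = 0 ∨ blocksLaw μ φ (glue ⁻¹' escEv l 0) = 1 := by
  have : IsProbabilityMeasure (blocksLaw μ φ) := by unfold blocksLaw; infer_instance
  set A : Set (ℕ → Word d) := glue ⁻¹' escEv l 0 with hAd
  have hA : MeasurableSet A := measurable_glue (measurableSet_escEv l 0)
  have key : (blocksLaw μ φ).restrict A = blocksLaw μ φ A • blocksLaw μ φ := by
    refine ext_cyls fun n p => ?_
    rw [Measure.restrict_apply (measurableSet_cyl n p), Measure.smul_apply, smul_eq_mul]
    have hdep : DependsOn (· ∈ cyl n p) (Iio n) := fun x y hxy => by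
      simp only [cyl, mem_ofPred_eq]
      exact propext ⟨fun h k hk => (hxy k hk).symm.trans (h k hk),
        fun h k hk => (hxy k hk).trans (h k hk)⟩
    have h1 : blocksLaw μ φ (cyl n p ∩ A) = blocksLaw μ φ (cyl n p ∩ shiftSeq n ⁻¹' A) := by
      refine measure_congr ?_
      filter_upwards [blocks_allPos μ (φ := φ)] with b hb
      exact propext (and_congr_right fun _ => (glue_mem_shift l n hb.1).symm)
    rw [h1, mul_comm]
    exact measure_past_inter_future (blockLaw μ φ) n (measurableSet_cyl n p) hdep hA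
  have h := congrArg (fun m : Measure (ℕ → Word d) => m A) key
  rw [Measure.restrict_apply hA, inter_self, Measure.smul_apply, smul_eq_mul] at h
  rcases eq_or_ne (blocksLaw μ φ A) 0 with h0 | h0
  · exact Or.inl h0
  · refine Or.inr ((ENNReal.mul_left_inj h0 (measure_ne_top _ _)).1 ?_)
    rw [one_mul]
    exact h.symm

theorem escEv_zero_one (hell : IsElliptic μ) (hl : IsLevel φ) (ha : 0 < aUp μ φ)
    (hfull : ann μ 0 (Esc φ) = 1) (l : Fin d → ℝ) :
    ann μ 0 (escEv l 0) = 0 ∨ ann μ 0 (escEv l 0) = 1 := by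
  have := isProbabilityMeasure_blockLaw μ φ hell hl ha
  have : IsProbabilityMeasure (blocksLaw μ φ) := by unfold blocksLaw; infer_instance
  have hE := measurableSet_escEv l (0 : Site d)
  have hEsc := measurableSet_EscAux φ
  have hinv : ∀ m u, shiftSeq m u ∈ escEv l 0 → u ∈ escEv l 0 := fun m u h =>
    (escEv_shiftSeq l m u).1 h
  have hEscC : annM μ (Esc φ)ᶜ = 0 := by
    rw [prob_compl_eq_zero_iff hEsc, annM_apply μ hEsc]; exact hfull
  have lift : ∀ G : Set (ℕ → Step d), MeasurableSet G → (∀ m u, shiftSeq m u ∈ G → u ∈ G) →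
      (∀ᵐ b ∂blocksLaw μ φ, glue b ∈ G) → annM μ Gᶜ = 0 := by
    intro G hG hGi hb
    refine measure_mono_null (t := (Esc φ \ G) ∪ (Esc φ)ᶜ) (fun u hu => ?_)
      (measure_union_null ?_ hEscC)
    · by_cases h : u ∈ Esc φ
      · exact Or.inl ⟨h, hu⟩
      · exact Or.inr h
    · rw [annM_apply μ (hEsc.diff hG)]
      exact ann_esc_diff_of_blocks hell hl ha hG hGi hb
  rcases blocks_escEv_zero_one μ φ l with h | h
  · refine Or.inl ?_
    have := lift (escEv l 0)ᶜ hE.compl (fun m u h' hu => h' ((escEv_shiftSeq l m u).2 hu))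
      (measure_eq_zero_iff_ae_notMem.1 h)
    rwa [compl_compl, annM_apply μ hE] at this
  · refine Or.inr ?_
    have := lift _ hE hinv ((mem_ae_iff_prob_eq_one (measurable_glue hE)).2 h)
    rwa [prob_compl_eq_zero_iff hE, annM_apply μ hE] at this

end Vale.Agent.P147.Flux
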