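import Vale.Agent.P147.Flux.Defs
import Vale.Agent.P147.Regen.IndepSeq

/-!
# Visits of upward escapes

The upward escape is `aUp` times glued independent blocks.  Its visits are therefore bounded by
the cuts convolved with the sites of one block, and its mean number of distinct sites on one level
by the mean number of sites of a block.
-/

namespace Vale.Agent.P147.Flux

open MeasureTheory Set Filter Regen Regen.SegAux
open scoped ENNReal

variable {d : ℕ} [NeZero d] (μ : Measure (Step d → ℝ)) [IsProbabilityMeasure μ] (φ : Site d →+ ℤ)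

namespace Visits

omit [NeZero d] in
theorem card_trace_le (x : Site d) (s : Word d) : (trace x s).card ≤ s.length := by
  induction s generalizing x with
  | nil => simp [trace]
  | cons e s ih =>
    exact (Finset.card_insert_le _ _).trans (Nat.succ_le_succ (ih _))

/-- The `i`-th cut of a sequence of words. -/
def cutPt (b : ℕ → Word d) (i : ℕ) : Site d := ∑ k ∈ Finset.range i, disp (b k)

omit [NeZero d] in
theorem dependsOn_cutPt (y : Site d) (i : ℕ) :
    DependsOn (· ∈ {b : ℕ → Word d | cutPt b i = y}) (Iio i) := by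
  intro b b' h
  simp only [mem_ofPred_eq, cutPt]
  rw [Finset.sum_congr rfl fun k hk => by rw [h k (Finset.mem_range.1 hk)]]

omit [NeZero d] in
theorem measurableSet_cutPt (y : Site d) (i : ℕ) :
    MeasurableSet {b : ℕ → Word d | cutPt b i = y} :=
  measurableSet_of_dependsOn (dependsOn_cutPt y i)

omit [NeZero d] in
theorem cutPt_strictMono {b : ℕ → Word d} (hb : ∀ i, IsBlock φ (b i)) :
    StrictMono fun i => φ (cutPt b i) := by
  refine strictMono_nat_of_lt_succ fun i => ?_
  have := (hb i).1.height_pos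
  simp only [cutPt, Finset.sum_range_succ, map_add]
  omega

omit [NeZero d] in
theorem cutPt_inj {b : ℕ → Word d} (hb : ∀ i, IsBlock φ (b i)) {i j : ℕ} {y y' : Site d}
    (hi : cutPt b i = y) (hj : cutPt b j = y') (h : φ y = φ y') : i = j :=
  (cutPt_strictMono φ hb).injective (show φ (cutPt b i) = φ (cutPt b j) by rw [hi, hj, h])

/-- The walk visits `z`. -/
def Hit (z : Site d) : Set (ℕ → Step d) := {u | ∃ k, path 0 u k = z}

theorem measurableSet_Hit (z : Site d) : MeasurableSet (Hit z) := by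
  have : Hit z = ⋃ k, {u : ℕ → Step d | path 0 u k ∈ ({z} : Set (Site d))} := by
    ext u; simp [Hit]
  rw [this]
  exact MeasurableSet.iUnion fun k => measurableSet_pathMem {z} 0 k

theorem glue_hit {b : ℕ → Word d} (hb : ∀ i, 0 < (b i).length) {z : Site d}
    (h : glue b ∈ Hit z) : ∃ i v, cutPt b i = z - v ∧ v ∈ trace 0 (b i) := by
  obtain ⟨m, hm⟩ := h
  obtain ⟨N, hN, -⟩ := exists_index hb
  obtain ⟨h1, h2⟩ := hN m
  obtain ⟨k, hk⟩ := Nat.exists_eq_add_of_le h1
  have h3 : stepsUpTo b (N m + 1) = stepsUpTo b (N m) + (b (N m)).length :=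
    Finset.sum_range_succ _ _
  have hk' : k < (b (N m)).length := by omega
  rw [hk, path_glue hb _ _ hk'.le] at hm
  refine ⟨N m, disp ((b (N m)).take k), ?_, mem_trace.2 ⟨k, hk', by simp⟩⟩
  rw [eq_sub_iff_add_eq]
  exact hm

variable [IsProbabilityMeasure (blockLaw μ φ)]

omit [IsProbabilityMeasure μ] [NeZero d] in
theorem prob_blocksLaw : IsProbabilityMeasure (blocksLaw μ φ) := by
  unfold blocksLaw; infer_instance

omit [IsProbabilityMeasure μ] [NeZero d] in
theorem ae_blocks : ∀ᵐ b ∂blocksLaw μ φ, ∀ i, IsBlock φ (b i) :=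
  blocks_allPos μ |>.mono fun _ h => h.2

omit [IsProbabilityMeasure μ] [NeZero d] in
theorem cut_and_block (y : Site d) (i : ℕ) (v : Site d) :
    blocksLaw μ φ ({b | cutPt b i = y} ∩ {b | v ∈ trace 0 (b i)}) =
      blocksLaw μ φ {b | cutPt b i = y} * blockLaw μ φ {s | v ∈ trace 0 s} := by
  have hB : MeasurableSet {b : ℕ → Word d | v ∈ trace 0 (b 0)} :=
    (measurable_pi_apply (X := fun _ : ℕ => Word d) 0)
      (MeasurableSet.of_discrete (s := {s : Word d | v ∈ trace 0 s}))
  have h := measure_past_inter_future (blockLaw μ φ) i (measurableSet_cutPt y i)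
    (dependsOn_cutPt y i) hB
  have h0 : blocksLaw μ φ {b | v ∈ trace 0 (b 0)} = blockLaw μ φ {s | v ∈ trace 0 s} :=
    (measurePreserving_eval_infinitePi (fun _ : ℕ => blockLaw μ φ) 0).measure_preimage
      (MeasurableSet.of_discrete (s := {s : Word d | v ∈ trace 0 s})).nullMeasurableSet
  rw [← h0]
  exact h

omit [IsProbabilityMeasure μ] [NeZero d] in
theorem tsum_cutPt (y : Site d) :
    ∑' i, blocksLaw μ φ {b | cutPt b i = y} = cutProb μ φ y := by
  have e : {b : ℕ → Word d | ∃ i, ∑ k ∈ Finset.range i, disp (b k) = y} =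
      ⋃ i, {b | cutPt b i = y} := by
    ext b; simp [cutPt]
  rw [cutProb, e, measure_iUnion₀ (fun i j hij => ?_)
    fun i => (measurableSet_cutPt y i).nullMeasurableSet]
  refine measure_mono_null ?_ (ae_iff.1 (ae_blocks μ φ))
  exact fun b hb hg => hij (cutPt_inj φ hg hb.1 hb.2 rfl)

omit [IsProbabilityMeasure μ] [NeZero d] in
/-- At most one cut per level. -/
theorem tsum_cutProb_level (v : Site d) (m : ℤ) :
    ∑' z : {z : Site d // φ z = m}, cutProb μ φ (z.1 - v) ≤ 1 := by
  have := prob_blocksLaw μ φ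
  let A : {z : Site d // φ z = m} → Set (ℕ → Word d) := fun z => ⋃ i, {b | cutPt b i = z.1 - v}
  have hA : ∀ z, cutProb μ φ (z.1 - v) = blocksLaw μ φ (A z) := fun z => by
    rw [cutProb]; congr 1; ext b; simp [A, cutPt]
  rw [tsum_congr hA, ← measure_iUnion₀ (fun z z' hzz => ?_)
    fun z => (MeasurableSet.iUnion fun i => measurableSet_cutPt _ i).nullMeasurableSet]
  · exact prob_le_one
  refine measure_mono_null ?_ (ae_iff.1 (ae_blocks μ φ))
  intro b hb hg
  obtain ⟨i, hi⟩ := mem_iUnion.1 hb.1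
  obtain ⟨j, hj⟩ := mem_iUnion.1 hb.2
  have he : φ (z.1 - v) = φ (z'.1 - v) := by rw [map_sub, map_sub, z.2, z'.2]
  obtain rfl := cutPt_inj φ hg hi hj he
  exact hzz (Subtype.ext (sub_left_inj.1 ((show cutPt b i = z.1 - v from hi).symm.trans hj)))

omit [IsProbabilityMeasure μ] in
theorem glue_hit_le (z : Site d) :
    blocksLaw μ φ (glue ⁻¹' Hit z) ≤
      ∑' v : Site d, cutProb μ φ (z - v) * blockLaw μ φ {s | v ∈ trace 0 s} := by
  calc blocksLaw μ φ (glue ⁻¹' Hit z)
      ≤ blocksLaw μ φ (⋃ i, ⋃ v : Site d,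
          {b | cutPt b i = z - v} ∩ {b | v ∈ trace 0 (b i)}) := by
        refine measure_mono_ae ?_
        filter_upwards [blocks_allPos μ (φ := φ)] with b hb hhit
        obtain ⟨i, v, h1, h2⟩ := glue_hit (fun i => List.length_pos_iff.2 (hb.1 i)) hhit
        exact mem_iUnion₂.2 ⟨i, v, h1, h2⟩
    _ ≤ ∑' i, ∑' v : Site d,
          blocksLaw μ φ ({b | cutPt b i = z - v} ∩ {b | v ∈ trace 0 (b i)}) :=
        (measure_iUnion_le _).trans (ENNReal.tsum_le_tsum fun i => measure_iUnion_le _)
    _ = ∑' v : Site d, cutProb μ φ (z - v) * blockLaw μ φ {s | v ∈ trace 0 s} := by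
        rw [ENNReal.tsum_comm]
        refine tsum_congr fun v => ?_
        simp only [cut_and_block]
        rw [ENNReal.tsum_mul_right, tsum_cutPt]

end Visits

open Visits

omit [NeZero d] [IsProbabilityMeasure μ] in
/-- The mean range of a block is the sum over sites of the probability of lying in a block. -/
theorem tsum_blockLaw_trace :
    ∑' v : Site d, blockLaw μ φ {s | v ∈ trace 0 s} = meanRange μ φ := by
  classical
  have h : ∀ s : Word d, ((trace 0 s).card : ℝ≥0∞) =
      ∑' v : Site d, ({s' : Word d | v ∈ trace 0 s'}).indicator 1 s := by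
    intro s
    rw [tsum_eq_sum (s := trace 0 s) fun v hv =>
        indicator_of_notMem (show s ∉ {s' : Word d | v ∈ trace 0 s'} from hv) _,
      Finset.sum_congr rfl fun v hv =>
        indicator_of_mem (show s ∈ {s' : Word d | v ∈ trace 0 s'} from hv) _]
    simp
  rw [meanRange, lintegral_congr h, lintegral_tsum fun v => Measurable.of_discrete.aemeasurable]
  exact tsum_congr fun v => (lintegral_indicator_one MeasurableSet.of_discrete).symm

omit [NeZero d] [IsProbabilityMeasure μ] in
theorem meanRange_le_meanLen : meanRange μ φ ≤ meanLen μ φ :=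
  lintegral_mono fun s => Nat.cast_le.2 (card_trace_le 0 s)

theorem upHit_le_conv (hell : IsElliptic μ) (hl : IsLevel φ) (ha : 0 < aUp μ φ) (z : Site d) :
    upHit μ φ z ≤ ∑' v : Site d, cutProb μ φ (z - v) *
      blockLaw μ φ {s | v ∈ trace 0 s} := by
  have := isProbabilityMeasure_blockLaw μ φ hell hl ha
  calc upHit μ φ z = aUp μ φ * blocksLaw μ φ (glue ⁻¹' Hit z) :=
        ann_Up_inter μ φ hell hl ha (measurableSet_Hit z)
    _ ≤ blocksLaw μ φ (glue ⁻¹' Hit z) :=
        (mul_le_mul_left (aUp_le_one μ φ) _).trans_eq (one_mul _)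
    _ ≤ _ := glue_hit_le μ φ z

theorem tsum_upHit_level_le (hell : IsElliptic μ) (hl : IsLevel φ) (ha : 0 < aUp μ φ) (m : ℤ) :
    ∑' z : {z : Site d // φ z = m}, upHit μ φ z ≤ meanRange μ φ := by
  have := isProbabilityMeasure_blockLaw μ φ hell hl ha
  calc ∑' z : {z : Site d // φ z = m}, upHit μ φ z
      ≤ ∑' z : {z : Site d // φ z = m}, ∑' v : Site d,
          cutProb μ φ (z.1 - v) * blockLaw μ φ {s | v ∈ trace 0 s} :=
        ENNReal.tsum_le_tsum fun z => upHit_le_conv μ φ hell hl ha z
    _ = ∑' v : Site d, (∑' z : {z : Site d // φ z = m}, cutProb μ φ (z.1 - v)) *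
          blockLaw μ φ {s | v ∈ trace 0 s} := by
        rw [ENNReal.tsum_comm]
        exact tsum_congr fun v => ENNReal.tsum_mul_right
    _ ≤ ∑' v : Site d, 1 * blockLaw μ φ {s | v ∈ trace 0 s} :=
        ENNReal.tsum_le_tsum fun v => mul_le_mul_left (tsum_cutProb_level μ φ v m) _
    _ = meanRange μ φ := by simp only [one_mul, tsum_blockLaw_trace]

/-- Good words ending at a new site of one level have weight at most the mean range. -/
theorem goodEnds_sum_le (hell : IsElliptic μ) (hl : IsLevel φ) (ha : 0 < aUp μ φ) (θ : ℝ≥0∞)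
    (m : ℤ) : θ * ∑' q : goodEnds μ φ θ m, wt μ (q : Word d) ≤ meanRange μ φ := by
  let f : goodEnds μ φ θ m → {z : Site d // φ z = m} := fun q => ⟨disp q.1, q.2.2.1⟩
  rw [← ENNReal.tsum_mul_left]
  refine le_trans ?_ (tsum_upHit_level_le μ φ hell hl ha m)
  rw [← (Equiv.sigmaFiberEquiv f).tsum_eq (fun q => θ * wt μ (q : Word d)), ENNReal.tsum_sigma']
  refine ENNReal.tsum_le_tsum fun z => ?_
  have hm : ∀ q : {q // f q = z}, MeasurableSet (Pre (q.1.1 : Word d) ∩ Up φ) := fun q =>
    (measurableSet_Pre _).inter (measurableSet_Up φ)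
  have hdisj : ∀ q q' : {q // f q = z}, ∀ u : ℕ → Step d, u ∈ Pre q.1.1 → u ∈ Pre q'.1.1 →
      ¬ q.1.1.length < q'.1.1.length := by
    intro q q' u hu hu' hlt
    have hz : disp q.1.1 = disp q'.1.1 :=
      congrArg Subtype.val (q.2.trans q'.2.symm)
    apply q'.1.2.2.2
    refine mem_trace.2 ⟨q.1.1.length, hlt, ?_⟩
    have h1 := path_pre hu 0 (le_refl q.1.1.length)
    rw [path_pre hu' 0 hlt.le, List.take_length] at h1
    rw [h1, zero_add, hz]
  calc ∑' q : {q // f q = z}, θ * wt μ (q.1.1 : Word d)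
      ≤ ∑' q : {q // f q = z}, ann μ 0 (Pre q.1.1 ∩ Up φ) := by
        refine ENNReal.tsum_le_tsum fun q => ?_
        have h := q.1.2.1 q.1.1.length le_rfl
        rwa [List.take_length] at h
    _ = ann μ 0 (⋃ q : {q // f q = z}, Pre q.1.1 ∩ Up φ) := by
        refine (ann_iUnion 0 hm fun q q' hne => ?_).symm
        rw [Function.onFun, Set.disjoint_left]
        rintro u ⟨hu, -⟩ ⟨hu', -⟩
        have hlen : q.1.1.length = q'.1.1.length :=
          le_antisymm (not_lt.1 (hdisj q' q u hu' hu)) (not_lt.1 (hdisj q q' u hu hu'))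
        refine hne (Subtype.ext (Subtype.ext (List.ext_getElem hlen fun k h1 h2 => ?_)))
        rw [← hu k h1, ← hu' k h2]
    _ ≤ upHit μ φ z := by
        refine ann_mono 0 ?_
        rintro u hu
        obtain ⟨q, hq, hup⟩ := mem_iUnion.1 hu
        refine ⟨hup, q.1.1.length, ?_⟩
        rw [path_pre hq 0 le_rfl, List.take_length, zero_add]
        exact congrArg Subtype.val q.2

end Vale.Agent.P147.Flux
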