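import Vale.Agent.P147.Flux.Good
import Vale.Agent.P147.Flux.Visits
import Vale.Agent.P147.Flux.CutSq
import Vale.Agent.P147.Flux.Far
import Vale.Agent.P147.Flux.Common
import Vale.Agent.P147.Flux.Second
import Vale.Agent.P147.Flux.Bounded
import Vale.Agent.P147.Flux.Tail

/-!
# A direction with finite mean range excludes the opposite escape
-/

namespace Vale.Agent.P147.Flux

open MeasureTheory Set Filter Regen
open scoped ENNReal Topology

variable {d : ℕ} [NeZero d] (μ : Measure (Step d → ℝ)) [IsProbabilityMeasure μ] (φ : Site d →+ ℤ)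

theorem exists_small_sq (hell : IsElliptic μ) (hl : IsLevel φ) {θ V : ℝ≥0∞}
    (hV : ∀ m : ℤ, ∑' q : goodEnds μ φ θ m, wt μ (q : Word d) ≤ V) {h : ℕ}
    (hc : 0 < sepConst μ φ h) (N : ℕ) :
    ∃ n, N ≤ n ∧ 1 ≤ n ∧
      ∫⁻ w, flux μ φ θ n w ^ 2 ∂envLaw μ ≤ 2 * ((h : ℝ≥0∞) + 1) * V ^ 2 / sepConst μ φ h := by
  set c := sepConst μ φ h
  have hct : c ≠ ∞ := by
    refine ne_top_of_le_ne_top ENNReal.one_ne_top ((lintegral_mono fun w => ?_).trans
      (le_of_eq (by simp : ∫⁻ _, (1 : ℝ≥0∞) ∂envLaw μ = 1)))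
    exact prob_le_one
  set F : ℕ → ℝ≥0∞ := fun n => ∫⁻ w, flux μ φ θ n w ^ 2 ∂envLaw μ
  set T := 2 * ((h : ℝ≥0∞) + 1) * V ^ 2 / c
  by_contra hne
  simp only [not_exists, not_and, not_le] at hne
  have h1 := flux_sq_le μ φ hell hl θ V hV h (2 * (N + 1))
  have hT : T ≠ ∞ := fun ht => by
    have := hne (N + 1) (by omega) (by omega)
    change T < F (N + 1) at this
    rw [ht] at this
    exact not_top_lt this
  have h2 : ((N + 2 : ℕ) : ℝ≥0∞) * T < ∑ n ∈ Finset.Icc (N + 1) (2 * (N + 1)), F n := by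
    calc ((N + 2 : ℕ) : ℝ≥0∞) * T = ∑ _n ∈ Finset.Icc (N + 1) (2 * (N + 1)), T := by
          rw [Finset.sum_const, Nat.card_Icc, nsmul_eq_mul]
          congr 2
          omega
      _ < _ := ENNReal.sum_lt_sum_of_nonempty ⟨N + 1, by simp⟩ fun n hn => by
          simp only [Finset.mem_Icc] at hn
          exact hne n (by omega) (by omega)
  have h3 : c * (((N + 2 : ℕ) : ℝ≥0∞) * T) <
      ((h : ℝ≥0∞) + 1) * (((2 * (N + 1) : ℕ) : ℝ≥0∞) + 1) * V ^ 2 := by
    refine lt_of_lt_of_le ((ENNReal.mul_lt_mul_iff_right hc.ne' hct).2 h2) (le_trans ?_ h1)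
    exact mul_le_mul_of_nonneg_left (Finset.sum_le_sum_of_subset
      (Finset.Icc_subset_Icc (by omega) le_rfl)) zero_le
  refine not_le.2 h3 ?_
  rw [show c * (((N + 2 : ℕ) : ℝ≥0∞) * T) =
    ((h : ℝ≥0∞) + 1) * (2 * ((N + 2 : ℕ) : ℝ≥0∞)) * V ^ 2 by
      simp only [T]
      rw [mul_left_comm, ENNReal.mul_div_cancel hc.ne' hct]
      ring]
  gcongr
  exact_mod_cast (by omega : 2 * (N + 1) + 1 ≤ 2 * (N + 2))

theorem false_of_finite_range (hd : 4 ≤ d) (h : Hyp μ φ) (hR : meanRange μ φ ≠ ∞) : False := by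
  have ha := h.up
  have hat := aUp_ne_top_of μ φ
  set a := aUp μ φ
  set θ := a * a / 2 with hθ
  have hθ0 : θ ≠ 0 := ENNReal.div_ne_zero.2 ⟨mul_ne_zero ha.ne' ha.ne', by norm_num⟩
  have hθt : θ ≠ ∞ := ENNReal.div_ne_top (ENNReal.mul_ne_top hat hat) (by norm_num)
  set V := meanRange μ φ / θ
  have hV : ∀ m : ℤ, ∑' q : goodEnds μ φ θ m, wt μ (q : Word d) ≤ V := fun m => by
    rw [ENNReal.le_div_iff_mul_le (Or.inl hθ0) (Or.inl hθt), mul_comm]
    exact goodEnds_sum_le μ φ h.ell h.lev ha θ m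
  obtain ⟨o, ho, ⟨cw, hcw, hcn⟩, hapart⟩ := exists_apart μ φ (by omega) h.ell h.lev ha
    (upHit_sq_summable μ φ h.ell h.lev ha hR (cut_sq_summable μ φ hd h.ell h.lev ha))
  obtain ⟨H, hH⟩ := exists_sepConst_pos μ φ h.ell ho hcw hcn hapart
  set C := 2 * ((H : ℝ≥0∞) + 1) * V ^ 2 / sepConst μ φ H + 1 with hC
  have hC0 : C ≠ 0 := (lt_of_lt_of_le one_pos le_add_self).ne'
  have hCt : C ≠ ∞ := ENNReal.add_ne_top.2 ⟨ENNReal.div_ne_top (ENNReal.mul_ne_top
    (ENNReal.mul_ne_top (by norm_num) (ENNReal.add_ne_top.2 ⟨ENNReal.natCast_ne_top H, by norm_num⟩))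
    (ENNReal.pow_ne_top (ENNReal.div_ne_top hR hθ0))) hH.ne', ENNReal.one_ne_top⟩
  set K := 8 * C / a with hK
  have hK0 : K ≠ 0 := ENNReal.div_ne_zero.2 ⟨mul_ne_zero (by norm_num) hC0, hat⟩
  have hKt : K ≠ ∞ := ENNReal.div_ne_top (ENNReal.mul_ne_top (by norm_num) hCt) ha.ne'
  have ha8 : (0 : ℝ≥0∞) < a / 8 := ENNReal.div_pos ha.ne' (by norm_num)
  set G : Env d → ℝ≥0∞ := fun w => W w 0 (Esc (-φ))
  have hGm : Measurable G := measurable_W 0 (SegAux.measurableSet_EscAux (-φ))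
  have hdown : 0 < ann μ 0 (Esc (-φ)) := lt_of_lt_of_le h.down (ann_mono 0 inter_subset_right)
  have hGpos := ae_esc_pos μ (-φ) h.ell hdown
  have hlim : Tendsto (fun j : ℕ => envLaw μ {w | G w < ((j : ℝ≥0∞) + 1)⁻¹}) atTop (𝓝 0) := by
    have hz : envLaw μ (⋂ j : ℕ, {w | G w < ((j : ℝ≥0∞) + 1)⁻¹}) = 0 := by
      refine measure_mono_null ?_ (ae_iff.1 hGpos)
      intro w hw hpos
      obtain ⟨j, hj⟩ := ENNReal.exists_inv_nat_lt hpos.ne'
      have := mem_iInter.1 hw j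
      exact lt_irrefl _ ((hj.trans' (lt_of_lt_of_le this (ENNReal.inv_le_inv.2 le_self_add))))
    rw [← hz]
    refine tendsto_measure_iInter_atTop (fun j =>
      (hGm measurableSet_Iio).nullMeasurableSet) ?_ ⟨0, measure_ne_top _ _⟩
    intro i j hij w (hw : G w < ((j : ℝ≥0∞) + 1)⁻¹)
    exact lt_of_lt_of_le hw (ENNReal.inv_le_inv.2 (by gcongr))
  obtain ⟨j, hj⟩ := ((ENNReal.Tendsto.const_mul hlim (Or.inr hKt)).eventually
    (Iic_mem_nhds (show K * 0 < a / 8 by rwa [mul_zero]))).exists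
  set t : ℝ≥0∞ := ((j : ℝ≥0∞) + 1)⁻¹
  have ht0 : t ≠ 0 := ENNReal.inv_ne_zero.2 (by simp)
  have htt : t ≠ ∞ := ENNReal.inv_ne_top.2 (by simp)
  obtain ⟨N, hN⟩ := eventually_atTop.1 ((tendsto_reach_diff μ φ h.ell h.lev ha).eventually
    (Iic_mem_nhds (show (0 : ℝ≥0∞) < t * (a / 8) from
      ENNReal.mul_pos ht0 ha8.ne')))
  obtain ⟨n, hn, hn1, hsq⟩ := exists_small_sq μ φ h.ell h.lev hV hH N
  have hη : ann μ 0 (Reach φ n \ Esc φ) ≤ t * (a / 8) := hN n hn
  set F := flux μ φ θ n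
  have hFm : Measurable F := measurable_flux μ φ θ n
  have hpt : ∀ w, F w ≤ t⁻¹ * (F w * G w) +
      ({w | G w < t}.indicator (fun _ => K) w + K⁻¹ * F w ^ 2) := by
    intro w
    rcases lt_or_ge (G w) t with hw | hw
    · refine le_trans ?_ le_add_self
      rw [Set.indicator_of_mem (show w ∈ {w | G w < t} from hw)]
      rcases le_or_gt (F w) K with hF | hF
      · exact hF.trans le_self_add
      · refine le_trans ?_ le_add_self
        rw [sq, ← mul_assoc]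
        exact le_mul_of_one_le_left' (by
          rw [← ENNReal.inv_mul_cancel hK0 hKt]
          exact mul_le_mul_of_nonneg_left hF.le zero_le)
    · refine le_trans ?_ le_self_add
      rw [mul_comm (F w), ← mul_assoc]
      exact le_mul_of_one_le_left' (by
        rw [← ENNReal.inv_mul_cancel ht0 htt]
        exact mul_le_mul_of_nonneg_left hw zero_le)
  have hmean : a / 2 ≤ ∫⁻ w, F w ∂envLaw μ := flux_mean_ge μ φ h.ell h.lev ha le_rfl hn1
  have hGt : MeasurableSet {w | G w < t} := hGm measurableSet_Iio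
  have hb : ∫⁻ w, F w ∂envLaw μ ≤ a / 8 + (a / 8 + a / 8) := by
    refine (lintegral_mono hpt).trans ?_
    rw [lintegral_add_left ((hFm.fun_mul hGm).const_mul _), lintegral_add_left
      (measurable_const.indicator hGt), lintegral_const_mul _ (hFm.fun_mul hGm),
      lintegral_const_mul _ (hFm.pow_const 2), lintegral_indicator_const hGt]
    refine add_le_add ?_ (add_le_add hj ?_)
    · refine (mul_le_mul_of_nonneg_left ((flux_mul_esc_le μ φ h.ell θ n).trans hη)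
        zero_le).trans ?_
      rw [← mul_assoc, ENNReal.inv_mul_cancel ht0 htt, one_mul]
    · refine (mul_le_mul_of_nonneg_left (hsq.trans (show _ ≤ C from le_self_add)) zero_le).trans ?_
      rw [hK, ENNReal.inv_div (Or.inl hat) (Or.inl ha.ne'),
        div_eq_mul_inv, ENNReal.mul_inv (Or.inl (by norm_num)) (Or.inl (by norm_num)),
        mul_assoc, mul_assoc, ENNReal.inv_mul_cancel hC0 hCt, mul_one, div_eq_mul_inv]
  have hcon := hmean.trans hb
  lift a to NNReal using hat with a' ha'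
  have e : ∀ x : NNReal, ((x : ℝ≥0∞) / 8) = ((x / 8 : NNReal) : ℝ≥0∞) := fun x => by
    rw [ENNReal.coe_div (by norm_num)]; norm_num
  rw [e, show ((a' : ℝ≥0∞) / 2) = ((a' / 2 : NNReal) : ℝ≥0∞) by
    rw [ENNReal.coe_div (by norm_num)]; norm_num] at hcon
  rw [← ENNReal.coe_add, ← ENNReal.coe_add, ENNReal.coe_le_coe, ← NNReal.coe_le_coe] at hcon
  push_cast at hcon
  have hpos : (0 : ℝ) < a' := by exact_mod_cast ha
  linarith
where
  aUp_ne_top_of (μ : Measure (Step d → ℝ)) [IsProbabilityMeasure μ] (φ : Site d →+ ℤ) :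
      aUp μ φ ≠ ∞ := ne_top_of_le_ne_top ENNReal.one_ne_top (ann_le_one 0 _)

end Vale.Agent.P147.Flux
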