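import Vale.Agent.P147.Flux.Defs
import Vale.Agent.P147.Classes

/-!
# Good segments and the mean of the flux

Good segments carry half of the segment mass, and the flux times the chance of escaping downwards
from the origin is at most the chance of turning back from a high level.
-/

namespace Vale.Agent.P147.Flux

open MeasureTheory Set Filter Regen SegAux
open scoped ENNReal

variable {d : ℕ} [NeZero d] (μ : Measure (Step d → ℝ)) [IsProbabilityMeasure μ] (φ : Site d →+ ℤ)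

omit [IsProbabilityMeasure μ] in
theorem GoodWord.take {θ : ℝ≥0∞} {s : Word d} (h : GoodWord μ φ θ s) (k : ℕ) :
    GoodWord μ φ θ (s.take k) := by
  intro j hj
  simp only [List.length_take] at hj
  rw [List.take_take, min_eq_left (by omega)]
  exact h j (by omega)

omit [IsProbabilityMeasure μ] in
theorem measurable_flux (θ : ℝ≥0∞) (n : ℕ) : Measurable (flux μ φ θ n) :=
  Measurable.ennreal_tsum fun _ => measurable_qw _ _

theorem lintegral_flux (θ : ℝ≥0∞) (n : ℕ) :
    ∫⁻ w, flux μ φ θ n w ∂envLaw μ = ∑' s : goodSegs μ φ θ n, wt μ (s : Word d) := by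
  simp only [flux]
  rw [lintegral_tsum fun _ => (measurable_qw _ _).aemeasurable]
  exact tsum_congr fun _ => lintegral_qw μ _ _

/-- A word some prefix of which is not good. -/
def HasBad (θ : ℝ≥0∞) (s : Word d) : Prop :=
  ann μ 0 (Pre s ∩ Up φ) < θ * wt μ s

theorem bad_mass (hell : IsElliptic μ) (θ : ℝ≥0∞) (n : ℕ) :
    (∑' s : {s : Word d // (IsSeg φ s ∧ φ (disp s) = (n : ℤ)) ∧ ¬ GoodWord μ φ θ s}, wt μ s.1) *
      aUp μ φ ≤ θ := by
  have henv := ae_isEnv μ hell
  set E : {s : Word d // (IsSeg φ s ∧ φ (disp s) = (n : ℤ)) ∧ ¬ GoodWord μ φ θ s} →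
    Set (ℕ → Step d) := fun s => Pre s.1 ∩ shiftSeq s.1.length ⁻¹' Up φ
  have hm : ∀ s, MeasurableSet (E s) := fun s =>
    (measurableSet_Pre _).inter (measurable_shiftSeq _ (measurableSet_UpAux φ))
  have hd : Pairwise (Function.onFun Disjoint E) := fun s t hst =>
    Set.disjoint_left.2 fun u hu hu' => hst (Subtype.ext
      (pre_eq_of_seg s.2.1.1 t.2.1.1 (s.2.1.2.trans t.2.1.2.symm) hu.1 hu'.1))
  have hsub : (⋃ s, E s) ⊆ ⋃ q : Stops (HasBad μ φ θ), Pre q.1 ∩ Up φ := by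
    refine iUnion_subset fun s u hu => ?_
    obtain ⟨k, hk, hb⟩ : ∃ k, k ≤ s.1.length ∧ HasBad μ φ θ (s.1.take k) := by
      have h := s.2.2
      simp only [GoodWord, not_forall, not_le] at h
      obtain ⟨k, hk, hb⟩ := h
      exact ⟨k, hk, hb⟩
    rw [take_eq_pref hu.1 hk] at hb
    obtain ⟨q, hq, hq'⟩ := exists_stop (u := u) ⟨k, hb⟩
    refine mem_iUnion.2 ⟨⟨q, hq⟩, hq', ?_⟩
    obtain ⟨h1, h2⟩ := mem_Up_shift.1 hu.2
    refine mem_Up.2 ⟨fun m => ?_, h2⟩
    rcases lt_or_ge m s.1.length with hm | hm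
    · rw [← lev_take φ hu.1 hm.le]
      exact (s.2.1.1.2 m hm).1
    · refine le_trans ?_ (h1 m hm)
      rw [← lev_end φ hu.1, s.2.1.2]
      exact Int.natCast_nonneg n
  calc (∑' s : {s : Word d // (IsSeg φ s ∧ φ (disp s) = (n : ℤ)) ∧ ¬ GoodWord μ φ θ s}, wt μ s.1) *
        aUp μ φ = ∑' s, annM μ (E s) := by
        rw [← ENNReal.tsum_mul_right]
        refine tsum_congr fun s => ?_
        rw [aUp_eq]
        exact (annM_rec_inter μ hell (isRec_of_pseg (pseg_of_seg s.2.1.1))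
          (measurableSet_UpAux φ) (Up_subset_NB φ)).symm
    _ = annM μ (⋃ s, E s) := (measure_iUnion hd hm).symm
    _ ≤ annM μ (⋃ q : Stops (HasBad μ φ θ), Pre q.1 ∩ Up φ) := measure_mono hsub
    _ ≤ ∑' q : Stops (HasBad μ φ θ), annM μ (Pre q.1 ∩ Up φ) := measure_iUnion_le _
    _ ≤ ∑' q : Stops (HasBad μ φ θ), θ * annM μ (Pre q.1) := by
        refine ENNReal.tsum_le_tsum fun q => ?_
        rw [annM_Pre μ hell, annM_apply μ ((measurableSet_Pre _).inter (measurableSet_UpAux φ))]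
        exact q.2.1.le
    _ ≤ θ := by
        rw [ENNReal.tsum_mul_left, ← measure_iUnion (fun a b hab => ?_)
          fun q : Stops (HasBad μ φ θ) => measurableSet_Pre q.1]
        · exact mul_le_of_le_one_right' prob_le_one
        · exact Set.disjoint_left.2 fun u hu hu' => hab (Subtype.ext (eq_of_Stops a.2 b.2 hu hu'))

theorem flux_mean_ge (hell : IsElliptic μ) (hl : IsLevel φ) (ha : 0 < aUp μ φ) {θ : ℝ≥0∞}
    (hθ : θ ≤ aUp μ φ * aUp μ φ / 2) {n : ℕ} (hn : 1 ≤ n) :
    aUp μ φ / 2 ≤ ∫⁻ w, flux μ φ θ n w ∂envLaw μ := by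
  have hat := aUp_ne_top μ φ
  set a := aUp μ φ
  set B := ∑' s : {s : Word d // (IsSeg φ s ∧ φ (disp s) = (n : ℤ)) ∧ ¬ GoodWord μ φ θ s},
    wt μ s.1
  have hB : B ≤ a / 2 := by
    refine (ENNReal.mul_le_mul_iff_left ha.ne' hat).1 ((bad_mass μ φ hell θ n).trans ?_)
    rwa [ENNReal.mul_div_right_comm] at hθ
  set F := ∫⁻ w, flux μ φ θ n w ∂envLaw μ
  have hsum : a ≤ F + B := by
    refine (aUp_le_segs μ φ hell hl n hn).trans (le_of_eq ?_)
    have h := (ENNReal.summable.tsum_add_tsum_compl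
      (s := {s : {s : Word d // IsSeg φ s ∧ φ (disp s) = (n : ℤ)} | GoodWord μ φ θ s.1})
      (f := fun s => wt μ s.1) ENNReal.summable)
    rw [← h, show F = _ from lintegral_flux μ φ θ n]
    congr 1
    · exact ((⟨fun s => ⟨⟨s.1, s.2.1, s.2.2.1⟩, s.2.2.2⟩, fun s => ⟨s.1.1, s.1.2.1, s.1.2.2, s.2⟩,
          fun s => rfl, fun s => rfl⟩ : goodSegs μ φ θ n ≃
        {s : {s : Word d // IsSeg φ s ∧ φ (disp s) = (n : ℤ)} | GoodWord μ φ θ s.1}).tsum_eq
          fun s => wt μ s.1.1).symm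
    · exact ((⟨fun s => ⟨⟨s.1, s.2.1⟩, s.2.2⟩, fun s => ⟨s.1.1, s.1.2, s.2⟩,
          fun s => rfl, fun s => rfl⟩ :
        {s : Word d // (IsSeg φ s ∧ φ (disp s) = (n : ℤ)) ∧ ¬ GoodWord μ φ θ s} ≃
        ↥({s : {s : Word d // IsSeg φ s ∧ φ (disp s) = (n : ℤ)} | GoodWord μ φ θ s.1}ᶜ)).tsum_eq
          fun s => wt μ s.1.1).symm
  have h2 : a / 2 + a / 2 ≤ F + a / 2 := by
    rw [ENNReal.add_halves]; exact hsum.trans (add_le_add le_rfl hB)
  exact ENNReal.le_of_add_le_add_right (ENNReal.div_ne_top hat (by norm_num)) h2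

theorem flux_mul_esc_le (hell : IsElliptic μ) (θ : ℝ≥0∞) (n : ℕ) :
    ∫⁻ w, flux μ φ θ n w * W w 0 (Esc (-φ)) ∂envLaw μ ≤
      ann μ 0 (Reach φ n \ Esc φ) := by
  have hE := measurableSet_EscAux (-φ)
  set A : goodSegs μ φ θ n → Set (ℕ → Step d) := fun s =>
    Pre (s : Word d) ∩ shiftSeq (s : Word d).length ⁻¹' Esc (-φ)
  have hA : ∀ s, MeasurableSet (A s) := fun s =>
    (measurableSet_Pre _).inter (measurable_shiftSeq _ hE)
  simp only [flux, ← ENNReal.tsum_mul_right]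
  rw [lintegral_tsum (f := fun (s : goodSegs μ φ θ n) (w : Env d) =>
    qw w (-disp (s : Word d)) (s : Word d) * W w 0 (Esc (-φ)))
    fun s => ((measurable_qw _ _).mul (measurable_W 0 hE)).aemeasurable]
  refine le_trans (le_of_eq (tsum_congr fun s => ?_)) ((ann_iUnion (μ := μ) 0 hA ?_).symm.le.trans
    (ann_mono 0 ?_))
  · set a := disp (s : Word d)
    rw [← ann_translate (μ := μ) (-a) (hA s), ann]
    refine lintegral_congr_ae ((ae_isEnv μ hell).mono fun w hw => ?_)
    simp only [A]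
    rw [W_Pre_inter hw (-a) _ hE, neg_add_cancel]
  · exact fun s t hst => Set.disjoint_left.2 fun u hu hu' => hst (Subtype.ext
      (pre_eq_of_seg s.2.1 t.2.1 (s.2.2.1.trans t.2.2.1.symm) hu.1 hu'.1))
  · refine iUnion_subset fun s u hu => ⟨⟨(s : Word d).length, ?_⟩, fun he => ?_⟩
    · exact ((s.2.2.1 ▸ lev_end φ hu.1 :) : (n : ℤ) = _).le
    · exact esc_subset_compl_esc_neg φ he ((esc_shift_iff hu.1).1 hu.2)

theorem ae_esc_pos (hell : IsElliptic μ) (h : 0 < ann μ 0 (Esc φ)) :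
    ∀ᵐ w ∂envLaw μ, 0 < W w 0 (Esc φ) := by
  have hE := measurableSet_EscAux φ
  set B : Set (Env d) := {w | ∀ x, W w x (Esc φ) = 0}
  have hB : MeasurableSet B := by
    simp only [B, ofPred_forall]
    exact MeasurableSet.iInter fun x => measurable_W x hE (measurableSet_singleton 0)
  have hpos : ∀ᵐ w ∂envLaw μ, IsEnv w ∧ ∀ y e, 0 < w y e := by
    filter_upwards [ae_isEnv μ hell, ae_isEnv.ae_all_rows' μ hell] with w hw hw'
    exact ⟨hw, fun y e => (hw' y).1 e⟩
  have hstep : ∀ {w : Env d}, IsEnv w → (∀ y e, 0 < w y e) → ∀ x e,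
      W w x (Esc φ) = 0 → W w (x + stp e) (Esc φ) = 0 := by
    intro w hw hp x e h0
    have h1 : W w x (Pre [e] ∩ shiftSeq [e].length ⁻¹' Esc φ) = 0 :=
      measure_mono_null (fun u hu => (esc_shift_iff hu.1).1 hu.2) h0
    rw [W_Pre_inter hw x [e] hE] at h1
    simp only [qw, mul_one, disp, List.map_cons, List.map_nil, List.sum_cons, List.sum_nil,
      add_zero] at h1
    exact (mul_eq_zero.1 h1).resolve_left (ENNReal.ofReal_pos.2 (hp x e)).ne'
  have hall : ∀ {w : Env d}, IsEnv w → (∀ y e, 0 < w y e) →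
      W w 0 (Esc φ) = 0 → w ∈ B := by
    intro w hw hp h0 x
    set S : AddSubgroup (Site d) :=
      { carrier := {v | ∀ y, W w y (Esc φ) = 0 ↔ W w (y + v) (Esc φ) = 0}
        zero_mem' := fun y => by simp
        add_mem' := fun {a b} ha hb y => by rw [ha y, hb (y + a), add_assoc]
        neg_mem' := fun {a} ha y => by rw [ha (y + -a), neg_add_cancel_right] }
    have hg : ∀ e, stp e ∈ S := fun e y =>
      ⟨hstep hw hp y e, fun h => by
        have := hstep hw hp (y + stp e) (e.1, !e.2) h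
        rwa [stp_flip, add_neg_cancel_right] at this⟩
    have hx : x ∈ S := by
      rw [show x = ∑ i, x i • stp (i, true) by
        ext j; simp [stp, Finset.sum_apply, Pi.single_apply]]
      exact sum_mem fun i _ => zsmul_mem (hg _) _
    simpa using (hx 0).1 h0
  set V : Site d := stp (0, true)
  have hinv : shiftEnv V ⁻¹' B = B := by
    ext w
    simp only [mem_preimage, B, mem_ofPred_eq]
    have he : ∀ x, W (shiftEnv V w) x (Esc φ) = W w (V + x) (Esc φ) := by
      intro x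
      rw [W_shift (shiftEnv V w) x, shiftEnv_shiftEnv, ← W_shift]
    simp only [he]
    exact ⟨fun hh x => by simpa using hh (-V + x), fun hh x => hh _⟩
  have herg := (ergodic_shiftEnv μ (V := V) (stp_ne_zero _)).toPreErgodic.prob_eq_zero_or_one
    hB hinv
  have hB0 : envLaw μ B = 0 := by
    rcases herg with h0 | h1
    · exact h0
    · exfalso
      refine h.ne' ?_
      rw [ann]
      refine (lintegral_eq_zero_iff (measurable_W 0 hE)).2 ?_
      filter_upwards [show ∀ᵐ w ∂envLaw μ, w ∈ B from (mem_ae_iff_prob_eq_one hB).2 h1] with w hw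
      exact hw 0
  filter_upwards [hpos, show ∀ᵐ w ∂envLaw μ, w ∉ B by
    rw [ae_iff]; simp only [not_not]; exact hB0] with w ⟨hw, hp⟩ hnB
  exact pos_iff_ne_zero.2 fun h0 => hnB (hall hw hp h0)

end Vale.Agent.P147.Flux
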