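import Vale.Agent.P147.Flux.Ballistic
import Vale.Agent.P147.Flux.Bounded
import Vale.Agent.P147.Flux.Tail

/-!
# Speed measured in visited sites

In dimension at least four either every coordinate is, along a subsequence, negligible against the
number of visited sites, or every directional escape event has probability zero or one.
-/

namespace Vale.Agent.P147.Flux

open MeasureTheory Set Filter Regen
open scoped ENNReal Topology

variable {d : ℕ}

/-- Number of sites visited up to time `n`. -/
def siteCount (u : ℕ → Step d) (n : ℕ) : ℕ :=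
  ((Finset.range (n + 1)).image (path 0 u)).card

theorem siteCount_pos (u : ℕ → Step d) (n : ℕ) : 0 < siteCount u n :=
  Finset.card_pos.2 (Finset.nonempty_range_add_one.image _)

theorem measurable_siteCount (n : ℕ) :
    Measurable fun u : ℕ → Step d => siteCount u n := by
  have h : (fun u : ℕ → Step d => siteCount u n) =
      (fun g : Fin (n + 1) → Site d => (Finset.univ.image g).card) ∘
        fun u k => path 0 u (k : ℕ) := by
    funext u
    simp only [siteCount, Function.comp]
    congr 1
    ext z
    simp only [Finset.mem_image, Finset.mem_range, Finset.mem_univ, true_and]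
    exact ⟨fun ⟨k, hk, hz⟩ => ⟨⟨k, hk⟩, hz⟩, fun ⟨k, hz⟩ => ⟨k, k.2, hz⟩⟩
  rw [h]
  exact Measurable.of_discrete.comp (measurable_pi_lambda _ fun k =>
    (measurable_pi_apply (k : ℕ)).comp (measurable_path 0))

/-- A level unbounded above forces infinitely many visited sites. -/
theorem tendsto_siteCount {φ : Site d →+ ℤ} {u : ℕ → Step d} (hu : u ∈ Unb φ) :
    Tendsto (fun n => (siteCount u n : ℝ)) atTop atTop := by
  classical
  have hinf : (Set.range (path 0 u)).Infinite := by
    intro hfin
    obtain ⟨M, hM⟩ := (hfin.image φ).bddAbove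
    obtain ⟨n, hn⟩ := hu (M + 1)
    have := hM (Set.mem_image_of_mem φ (Set.mem_range_self n))
    omega
  refine tendsto_natCast_atTop_atTop.comp (tendsto_atTop.2 fun K => ?_)
  obtain ⟨T, hT, hTc⟩ := hinf.exists_subset_card_eq K
  choose! t ht using fun z (hz : z ∈ T) => hT hz
  filter_upwards [eventually_ge_atTop (T.sup t)] with n hn
  rw [← hTc]
  exact Finset.card_le_card fun z hz => Finset.mem_image.2
    ⟨t z, Finset.mem_range.2 (Nat.lt_succ_of_le ((Finset.le_sup hz).trans hn)), ht z hz⟩

/-- The level is negligible against the number of visited sites, which is unbounded. -/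
def Quick (φ : Site d →+ ℤ) : Set (ℕ → Step d) :=
  {u | Tendsto (fun n => (|(φ (path 0 u n) : ℝ)| + 1) / siteCount u n) atTop (𝓝 0)}

theorem measurableSet_Quick (φ : Site d →+ ℤ) : MeasurableSet (Quick φ) :=
  measurableSet_tendsto _ fun n =>
    (((Measurable.of_discrete (f := fun z : Site d => |(φ z : ℝ)| + 1)).comp
      ((measurable_pi_apply n).comp (measurable_path 0)))).div
        ((Measurable.of_discrete (f := fun k : ℕ => (k : ℝ))).comp (measurable_siteCount n))

theorem siteCount_shift_le (u : ℕ → Step d) (m k : ℕ) :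
    siteCount (shiftSeq m u) k ≤ siteCount u (m + k) := by
  classical
  refine Finset.card_le_card_of_injOn (path 0 u m + ·) (fun z hz => ?_)
    fun a _ b _ h => add_left_cancel h
  obtain ⟨j, hj, rfl⟩ := Finset.mem_image.1 (Finset.mem_coe.1 hz)
  exact Finset.mem_coe.2 (Finset.mem_image.2
    ⟨m + j, by rw [Finset.mem_range] at hj ⊢; omega, path_add_shift u m j⟩)

theorem quick_of_shift {φ : Site d →+ ℤ} {u : ℕ → Step d} (m : ℕ)
    (h : shiftSeq m u ∈ Quick φ) : u ∈ Quick φ := by
  refine (tendsto_add_atTop_iff_nat m).1 ?_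
  refine squeeze_zero (fun k => div_nonneg (by positivity) (Nat.cast_nonneg _))
    (g := fun k => (|(φ (path 0 u m) : ℝ)| + 1) *
      ((|(φ (path 0 (shiftSeq m u) k) : ℝ)| + 1) / siteCount (shiftSeq m u) k)) (fun k => ?_)
    (by simpa using h.const_mul (|(φ (path 0 u m) : ℝ)| + 1))
  rw [add_comm k m, path_add_shift, map_add, Int.cast_add, ← mul_div_assoc]
  refine div_le_div₀ (by positivity) ?_ (Nat.cast_pos.2 (siteCount_pos _ _))
    (Nat.cast_le.2 (siteCount_shift_le u m k))
  have h1 := abs_add_le (φ (path 0 u m) : ℝ) (φ (path 0 (shiftSeq m u) k) : ℝ)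
  have h2 : 0 ≤ |(φ (path 0 u m) : ℝ)| * |(φ (path 0 (shiftSeq m u) k) : ℝ)| := by positivity
  linarith

variable [NeZero d]

/-- Distinct blocks visit distinct sites. -/
theorem sum_card_trace_le {φ : Site d →+ ℤ} {b : ℕ → Word d} (hb : ∀ i, IsBlock φ (b i))
    {n m : ℕ} (hm : stepsUpTo b n ≤ m) :
    ∑ i ∈ Finset.range n, (trace 0 (b i)).card ≤ siteCount (glue b) m := by
  classical
  set p : ℕ → Site d := fun i => ∑ j ∈ Finset.range i, disp (b j) with hp
  have hmono : Monotone fun i => φ (p i) := monotone_nat_of_le_succ fun i => by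
    have h := (hb i).1.height_pos
    simp only [hp, Finset.sum_range_succ, map_add]
    linarith
  have hlev : ∀ i z, z ∈ trace (p i) (b i) → φ (p i) ≤ φ z ∧ φ z < φ (p (i + 1)) := by
    intro i z hz
    have h1 := (hb i).1.level_trace hz
    refine ⟨h1.1, h1.2.trans_eq ?_⟩
    simp only [hp, Finset.sum_range_succ, map_add]
  calc ∑ i ∈ Finset.range n, (trace 0 (b i)).card
      = ∑ i ∈ Finset.range n, (trace (p i) (b i)).card := by
        refine Finset.sum_congr rfl fun i _ => ?_
        rw [show trace (p i) (b i) = trace (p i + 0) (b i) by rw [add_zero], trace_translate,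
          Finset.card_image_of_injective _ fun a c h => add_left_cancel h]
    _ = ((Finset.range n).biUnion fun i => trace (p i) (b i)).card := by
        refine (Finset.card_biUnion fun i _ j _ hij => Finset.disjoint_left.2 fun z hi hj => ?_).symm
        obtain ⟨a1, a2⟩ := hlev i z hi
        obtain ⟨c1, c2⟩ := hlev j z hj
        rcases lt_or_gt_of_ne hij with h | h
        · have : φ (p (i + 1)) ≤ φ (p j) := hmono h
          omega
        · have : φ (p (j + 1)) ≤ φ (p i) := hmono h
          omega
    _ ≤ siteCount (glue b) m := by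
        refine Finset.card_le_card fun z hz => ?_
        obtain ⟨i, hi, hz⟩ := Finset.mem_biUnion.1 hz
        obtain ⟨k, hk, rfl⟩ := mem_trace.1 hz
        refine Finset.mem_image.2 ⟨stepsUpTo b i + k, Finset.mem_range.2 ?_,
          path_glue (fun j => (hb j).1.1) i k hk.le⟩
        have h1 : stepsUpTo b (i + 1) = stepsUpTo b i + (b i).length := Finset.sum_range_succ _ _
        have h2 := stepsUpTo_mono b (show i + 1 ≤ n from Finset.mem_range.1 hi)
        omega

variable (μ : Measure (Step d → ℝ)) [IsProbabilityMeasure μ]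

/-- Blocks with infinite mean range give escapes slower than the range. -/
theorem quick_of_meanRange_top (φ : Site d →+ ℤ) (hell : IsElliptic μ) (hl : IsLevel φ)
    (ha : 0 < aUp μ φ) (hR : meanRange μ φ = ∞) : ann μ 0 (Esc φ \ Quick φ) = 0 := by
  have := isProbabilityMeasure_blockLaw μ φ hell hl ha
  refine ann_esc_diff_of_blocks hell hl ha (measurableSet_Quick φ)
    (fun m u h => quick_of_shift m h) ?_
  have hmin : ∀ K : ℕ, Integrable (fun s : Word d => ((min (trace 0 s).card K : ℕ) : ℝ))
      (blockLaw μ φ) := by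
    intro K
    refine integrable_natCast (ne_top_of_le_ne_top (b := (K : ℝ≥0∞)) (by simp) ?_)
    exact (lintegral_mono fun s => Nat.cast_le.2 (min_le_right _ K)).trans (by simp)
  have hsup : Tendsto (fun K : ℕ => ∫ s, ((min (trace 0 s).card K : ℕ) : ℝ) ∂blockLaw μ φ)
      atTop atTop := by
    have hI : ∀ K : ℕ, ∫⁻ s, ((min (trace 0 s).card K : ℕ) : ℝ≥0∞) ∂blockLaw μ φ =
        ENNReal.ofReal (∫ s, ((min (trace 0 s).card K : ℕ) : ℝ) ∂blockLaw μ φ) := by
      intro K
      rw [ofReal_integral_eq_lintegral_ofReal (hmin K)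
        (Eventually.of_forall fun s => Nat.cast_nonneg _)]
      exact lintegral_congr fun s => (ENNReal.ofReal_natCast _).symm
    have h1 : Tendsto (fun K : ℕ => ∫⁻ s, ((min (trace 0 s).card K : ℕ) : ℝ≥0∞) ∂blockLaw μ φ)
        atTop (𝓝 ∞) := by
      rw [← hR, meanRange]
      refine lintegral_tendsto_of_tendsto_of_monotone (fun K => Measurable.of_discrete.aemeasurable)
        (Eventually.of_forall fun s a b hab => Nat.cast_le.2 (min_le_min le_rfl hab))
        (Eventually.of_forall fun s => ?_)
      refine tendsto_const_nhds.congr' ?_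
      filter_upwards [eventually_ge_atTop (trace 0 s).card] with K hK
      rw [min_eq_left hK]
    simp only [hI] at h1
    refine tendsto_atTop.2 fun R => ?_
    filter_upwards [h1.eventually (Ioi_mem_nhds (ENNReal.ofReal_lt_top (r := R)))] with K hK
    by_contra hlt
    exact not_lt.2 (ENNReal.ofReal_le_ofReal (not_le.1 hlt).le) hK
  filter_upwards [ae_all_blocks (μ := μ) (φ := φ), slln (integrable_height hell hl ha),
    ae_all_iff.2 fun K : ℕ => slln (hmin K)] with b hb hH hK
  have hpos : ∀ i, 0 < (b i).length := fun i => (hb i).1.1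
  obtain ⟨N, hN, hNt⟩ := exists_index hpos
  set Hs : ℕ → ℝ := fun n => ∑ i ∈ Finset.range n, ((φ (disp (b i))).toNat : ℝ)
  set Rs : ℕ → ℝ := fun n => ∑ i ∈ Finset.range n, ((trace 0 (b i)).card : ℝ)
  have hRs : Tendsto (fun n => Rs n / n) atTop atTop := by
    refine tendsto_atTop.2 fun R => ?_
    obtain ⟨K, hKR⟩ := (hsup.eventually (eventually_gt_atTop R)).exists
    filter_upwards [(hK K).eventually (Ioi_mem_nhds hKR)] with n hn
    exact hn.le.trans (div_le_div_of_nonneg_right
      (Finset.sum_le_sum fun i _ => Nat.cast_le.2 (min_le_left _ _)) (Nat.cast_nonneg _))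
  have hH1 : Tendsto (fun n => (Hs (n + 1) + 1) / n) atTop
      (𝓝 (∫ s, ((φ (disp s)).toNat : ℝ) ∂blockLaw μ φ)) := by
    have h1 := (hH.comp (tendsto_add_atTop_nat 1)).mul
      ((tendsto_const_div_atTop_nhds_zero_nat (1 : ℝ)).const_add 1)
    have h2 := h1.add (tendsto_const_div_atTop_nhds_zero_nat (1 : ℝ))
    simp only [add_zero, mul_one] at h2
    refine h2.congr' ?_
    filter_upwards [eventually_ge_atTop 1] with n hn
    have : (n : ℝ) ≠ 0 := Nat.cast_ne_zero.2 (by omega)
    simp only [Function.comp_apply, Hs, Nat.cast_add, Nat.cast_one]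
    field_simp
  have hlev : ∀ m, |(φ (path 0 (glue b) m) : ℝ)| ≤ Hs (N m + 1) := by
    intro m
    obtain ⟨h1, h2⟩ := hN m
    obtain ⟨k, hk⟩ := Nat.exists_eq_add_of_le h1
    have hk' : k < (b (N m)).length := by
      have : stepsUpTo b (N m + 1) = stepsUpTo b (N m) + (b (N m)).length :=
        Finset.sum_range_succ _ _
      omega
    have hseg := (hb (N m)).1.2 k hk'
    have hnn : ∀ i, 0 ≤ φ (disp (b i)) := fun i => (hb i).1.height_pos.le
    have e := path_glue hpos (N m) k hk'.le
    rw [← hk] at e
    rw [e, map_add, map_sum, abs_of_nonneg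
      (Int.cast_nonneg_iff.2 (add_nonneg (Finset.sum_nonneg fun i _ => hnn i) hseg.1))]
    simp only [Hs]
    rw [Finset.sum_range_succ, Int.cast_add, Int.cast_sum]
    refine add_le_add (le_of_eq (Finset.sum_congr rfl fun i _ => ?_)) ?_
    · rw [← Int.cast_natCast, Int.toNat_of_nonneg (hnn i)]
    · rw [← Int.cast_natCast, Int.toNat_of_nonneg (hnn _)]
      exact Int.cast_le.2 hseg.2.le
  refine squeeze_zero' (Eventually.of_forall fun m => div_nonneg (by positivity) (Nat.cast_nonneg _))
    ?_ ((hH1.comp hNt).div_atTop (hRs.comp hNt))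
  filter_upwards [hNt.eventually (eventually_ge_atTop 1),
    (hRs.comp hNt).eventually (eventually_gt_atTop 0)] with m h1 h2
  simp only [Function.comp_apply] at h2 ⊢
  have h1' : (0 : ℝ) < N m := Nat.cast_pos.2 (by omega)
  rw [div_div_div_cancel_right₀ h1'.ne']
  have hc : Rs (N m) ≤ (siteCount (glue b) m : ℝ) := by
    simp only [Rs]
    exact_mod_cast sum_card_trace_le hb (hN m).1
  exact div_le_div₀ (by linarith [abs_nonneg (φ (path 0 (glue b) m) : ℝ), hlev m])
    (by linarith [hlev m]) (by
      rcases le_or_gt (Rs (N m)) 0 with h | h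
      · exact absurd h2 (not_lt.2 (div_nonpos_of_nonpos_of_nonneg h h1'.le))
      · exact h) hc

omit [NeZero d] in
/-- Off the exceptional sets a coordinate is negligible against the visited sites. -/
theorem liminf_ratio_eq_zero {u : ℕ → Step d}
    (hN : ∀ e : Step d, u ∈ Esc (axisLevel e) → u ∈ Quick (axisLevel e))
    (hB : ∀ e : Step d, u ∉ Unb (axisLevel e) → u ∈ Esc (-axisLevel e)) (i : Fin d) :
    liminf (fun n => |(path 0 u n i : ℝ)| / (siteCount u n : ℝ)) atTop = 0 := by
  set f : ℕ → ℝ := fun n => |(path 0 u n i : ℝ)| / (siteCount u n : ℝ) with hfd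
  have hnn : ∀ n, 0 ≤ f n := fun n => div_nonneg (abs_nonneg _) (Nat.cast_nonneg _)
  suffices h : ∀ ε > 0, ∃ᶠ n in atTop, f n ≤ ε by
    have hb : IsBoundedUnder (· ≥ ·) atTop f :=
      isBoundedUnder_of_eventually_ge (Eventually.of_forall hnn)
    refine le_antisymm (le_of_forall_gt_imp_ge_of_dense fun ε hε =>
      liminf_le_of_frequently_le (h ε hε) hb) ?_
    exact le_liminf_of_le (IsCoboundedUnder.of_frequently_le (h 1 one_pos))
      (Eventually.of_forall hnn)
  intro ε hε
  by_cases hz : ∃ᶠ n in atTop, path 0 u n i = 0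
  · refine hz.mono fun n hn => ?_
    simp only [hfd, hn, Int.cast_zero, abs_zero, zero_div]
    exact hε.le
  obtain ⟨n₀, hne⟩ := eventually_atTop.1 (not_frequently.1 hz)
  have hstep : ∀ n, |path 0 u (n + 1) i - path 0 u n i| ≤ 1 := fun n => by
    rw [path_succ]
    simpa [disp] using abs_disp_apply_le [u n] i
  obtain ⟨e, hei, hpos⟩ : ∃ e : Step d, e.1 = i ∧ ∀ n ≥ n₀, 0 < axisLevel e (path 0 u n) := by
    rcases lt_or_gt_of_ne (hne n₀ le_rfl) with hs | hs
    · refine ⟨(i, false), rfl, fun n hn => ?_⟩
      have : path 0 u n i < 0 := by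
        induction n, hn using Nat.le_induction with
        | base => exact hs
        | succ n hn ih =>
          have := abs_le.1 (hstep n); have := hne (n + 1) (by omega); omega
      simpa [axisLevel] using this
    · refine ⟨(i, true), rfl, fun n hn => ?_⟩
      have : 0 < path 0 u n i := by
        induction n, hn using Nat.le_induction with
        | base => exact hs
        | succ n hn ih =>
          have := abs_le.1 (hstep n); have := hne (n + 1) (by omega); omega
      simpa [axisLevel] using this
  have habs : ∀ n, |(path 0 u n i : ℝ)| = |(axisLevel e (path 0 u n) : ℝ)| := fun n => by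
    obtain ⟨j, b⟩ := e
    obtain rfl : j = i := hei
    cases b <;> simp [axisLevel]
  have hunb : u ∈ Unb (axisLevel e) := by
    by_contra hc
    obtain ⟨n, hn⟩ := ((hB e hc).eventually (eventually_ge_atTop 0)).exists_forall_of_atTop
    have h1 := hn (max n n₀) (le_max_left _ _)
    have h2 := hpos (max n n₀) (le_max_right _ _)
    simp only [AddMonoidHom.neg_apply] at h1
    omega
  by_cases hesc : u ∈ Esc (axisLevel e)
  · refine Eventually.frequently (((hN e hesc).eventually (Iic_mem_nhds hε)).mono fun n hn => ?_)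
    simp only [hfd, habs]
    exact le_trans (div_le_div_of_nonneg_right (by linarith) (Nat.cast_nonneg _)) hn
  · rw [SegAux.mem_Esc, tendsto_atTop] at hesc
    push Not at hesc
    obtain ⟨M, hM⟩ := hesc
    have h0 := (tendsto_const_nhds (x := (M : ℝ))).div_atTop (tendsto_siteCount hunb)
    refine (hM.and_eventually ((h0.eventually (Iic_mem_nhds hε)).and
      (eventually_ge_atTop n₀))).mono fun n hn => ?_
    obtain ⟨hlt, hle, hn0⟩ := hn
    simp only [hfd, habs]
    refine le_trans (div_le_div_of_nonneg_right ?_ (Nat.cast_nonneg _)) hle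
    rw [abs_of_pos (Int.cast_pos.2 (hpos n hn0))]
    exact_mod_cast hlt.le

/-- Either every coordinate is negligible along a subsequence against the number of visited sites,
or every directional escape event has probability zero or one. -/
theorem range_dichotomy (hd : 4 ≤ d) (hell : IsElliptic μ) :
    ann μ 0 {u | ∀ i, liminf (fun n => |(path 0 u n i : ℝ)| / (siteCount u n : ℝ)) atTop = 0} = 1 ∨
      ∀ l : Fin d → ℝ, ann μ 0 (escEv l 0) = 0 ∨ ann μ 0 (escEv l 0) = 1 := by
  by_cases hfin : ∃ e : Step d, 0 < aUp μ (axisLevel e) ∧ meanRange μ (axisLevel e) ≠ ∞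
  · obtain ⟨e, ha, hR⟩ := hfin
    exact Or.inr fun l => escEv_zero_one μ _ hell (isLevel_axisLevel e) ha
      (esc_full μ _ hd hell (isLevel_axisLevel e) ha hR) l
  refine Or.inl (le_antisymm (ann_le_one 0 _) ?_)
  let Nul : Step d × Bool → Set (ℕ → Step d) := fun p =>
    if p.2 then Esc (axisLevel p.1) \ Quick (axisLevel p.1)
    else (Unb (axisLevel p.1))ᶜ \ Esc (-axisLevel p.1)
  have hNm : ∀ p, MeasurableSet (Nul p) := by
    rintro ⟨e, b⟩
    cases b
    · exact (measurableSet_Unb _).compl.diff (measurableSet_Esc _)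
    · exact (measurableSet_Esc _).diff (measurableSet_Quick _)
  have hN0 : ∀ p, ann μ 0 (Nul p) = 0 := by
    rintro ⟨e, b⟩
    have hl := isLevel_axisLevel e
    cases b
    · exact ann_bounded_diff_esc μ _ (by omega) hell hl
    · show ann μ 0 (Esc (axisLevel e) \ Quick (axisLevel e)) = 0
      rcases eq_or_ne (ann μ 0 (Esc (axisLevel e))) 0 with h0 | h0
      · exact nonpos_iff_eq_zero.1 ((ann_mono 0 fun u hu => hu.1).trans h0.le)
      have ha := Regen.aUp_pos μ _ hell (pos_iff_ne_zero.2 h0)
      refine quick_of_meanRange_top μ _ hell hl ha ?_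
      by_contra hR
      exact hfin ⟨e, ha, hR⟩
  have hUm : MeasurableSet (⋃ p, Nul p) := MeasurableSet.iUnion hNm
  have hU : ann μ 0 (⋃ p, Nul p) = 0 :=
    nonpos_iff_eq_zero.1 ((ann_iUnion_le 0 hNm).trans (le_of_eq (ENNReal.tsum_eq_zero.2 hN0)))
  calc (1 : ℝ≥0∞) = ann μ 0 (⋃ p, Nul p)ᶜ := by rw [ann_compl 0 hUm, hU, tsub_zero]
    _ ≤ _ := ann_mono 0 fun u hu => ?_
  simp only [mem_compl_iff, mem_iUnion, not_exists] at hu
  refine liminf_ratio_eq_zero (fun e he => ?_) fun e he => ?_
  · by_contra h
    exact hu (e, true) ⟨he, h⟩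
  · by_contra h
    exact hu (e, false) ⟨he, h⟩

end Vale.Agent.P147.Flux
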