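import Vale.Agent.P147.Regen.Common

/-!
# Exit positions from slabs: definitions
-/

namespace Vale.Agent.P147.Flux

open MeasureTheory Set Filter Regen
open scoped ENNReal

variable {k : ℕ}

/-- Mass of leaving the slab of levels `[0, a)` through the top with lateral position `x`. -/
noncomputable def exitMass (μ : Measure (Step (k + 1) → ℝ)) (φ : Site (k + 1) →+ ℤ)
    (i₀ : Fin (k + 1)) (a : ℕ) (x : Fin k → ℤ) : ℝ≥0∞ :=
  ∑' s, {s : Word (k + 1) | lat i₀ (disp s) = x}.indicator (segWt μ φ a) s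

/-- The box of radius `R` around `c`. -/
noncomputable def box (c : Fin k → ℤ) (R : ℕ) : Finset (Fin k → ℤ) :=
  Fintype.piFinset fun i => Finset.Icc (c i - R) (c i + R)

/-- The exit position at height `a` lies in some box of radius `R`, up to `δ`. -/
def TightExit (μ : Measure (Step (k + 1) → ℝ)) (φ : Site (k + 1) →+ ℤ) (i₀ : Fin (k + 1))
    (a R : ℕ) (δ : ℝ≥0∞) : Prop :=
  ∃ c : Fin k → ℤ, ∑' x, ((box c R : Set (Fin k → ℤ))ᶜ).indicator (exitMass μ φ i₀ a) x ≤ δ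

/-- At comparable heights the exit positions are, up to `δ`, spread over boxes of one size. -/
def RegExit (μ : Measure (Step (k + 1) → ℝ)) (φ : Site (k + 1) →+ ℤ) (i₀ : Fin (k + 1)) : Prop :=
  ∀ δ : ℝ, 0 < δ → ∀ m : ℕ, ∃ A : ℝ, ∃ N : ℕ, ∀ n ≥ N, ∃ R : ℕ, ∀ a, n ≤ a → a ≤ m * n →
    TightExit μ φ i₀ a R (ENNReal.ofReal δ) ∧
      ∑' x, (exitMass μ φ i₀ a x - ENNReal.ofReal (A / (2 * (R : ℝ) + 1) ^ k)) ≤ ENNReal.ofReal δ

end Vale.Agent.P147.Flux
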