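import Vale.Agent.P147.Flux.SlabMeet
import Vale.Agent.P147.Flux.Bounded
import Vale.Agent.P147.Flux.Tail

/-!
# The slab exit hypotheses read on the walk
-/

namespace Vale.Agent.P147.Flux

open MeasureTheory Set Filter Regen SegAux
open scoped ENNReal

section general

variable {d : ℕ} [NeZero d] (μ : Measure (Step d → ℝ)) [IsProbabilityMeasure μ] (φ : Site d →+ ℤ)

/-- The walk leaves the slab of levels `[0, a)` through the top at a site of `S`. -/
def ExitIn (φ : Site d →+ ℤ) (a : ℕ) (S : Set (Site d)) : Set (ℕ → Step d) :=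
  {u | ∃ n, φ (path 0 u n) = (a : ℤ) ∧ path 0 u n ∈ S ∧
    ∀ m < n, 0 ≤ φ (path 0 u m) ∧ φ (path 0 u m) < (a : ℤ)}

theorem ann_exitIn (hell : IsElliptic μ) {a : ℕ} (ha : 1 ≤ a) (S : Set (Site d)) :
    ann μ 0 (ExitIn φ a S) = ∑' s, {s : Word d | disp s ∈ S}.indicator (segWt μ φ a) s := by
  classical
  have henv := ae_isEnv μ hell
  set I := {s : Word d // IsSeg φ s ∧ φ (disp s) = (a : ℤ) ∧ disp s ∈ S}
  have e : ExitIn φ a S = ⋃ s : I, Pre s.1 := by
    ext u
    simp only [mem_iUnion]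
    constructor
    · rintro ⟨n, hn, hS, hb⟩
      have hpos : 0 < n := by
        by_contra h0
        obtain rfl : n = 0 := by omega
        rw [path_zero, map_zero] at hn
        omega
      have hd : disp (pref u n) = path 0 u n := disp_pref u n
      refine ⟨⟨pref u n, ⟨by simpa [pref_length] using hpos, fun j hj => ?_⟩, by rw [hd, hn],
        by rwa [hd]⟩, pref_mem u n⟩
      have hj' : j < n := by simpa [pref_length] using hj
      have hpre := path_pre (pref_mem u n) 0 (k := j) (by simp [pref_length]; omega)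
      rw [zero_add] at hpre
      rw [← hpre, hd, hn]
      exact hb j hj'
    · rintro ⟨⟨s, hseg, hlev, hS⟩, hu⟩
      have h : ∀ j ≤ s.length, path 0 u j = disp (s.take j) := fun j hj => by
        rw [path_pre hu 0 hj, zero_add]
      refine ⟨s.length, ?_, ?_, fun m hm => ?_⟩
      · rw [h _ le_rfl, List.take_length, hlev]
      · rw [h _ le_rfl, List.take_length]; exact hS
      · rw [h m hm.le, ← hlev]; exact hseg.2 m hm
  rw [e, ann_iUnion (μ := μ) 0 (fun s : I => measurableSet_Pre s.1) fun s t hst =>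
    Set.disjoint_left.2 fun u hu hu' => hst (Subtype.ext
      (pre_eq_of_seg s.2.1 t.2.1 (s.2.2.1.trans t.2.2.1.symm) hu hu'))]
  simp only [ann_Pre henv]
  refine (tsum_subtype {s : Word d | IsSeg φ s ∧ φ (disp s) = (a : ℤ) ∧ disp s ∈ S} (wt μ)).trans
    (tsum_congr fun s => ?_)
  by_cases h1 : IsSeg φ s <;> by_cases h2 : φ (disp s) = (a : ℤ) <;> by_cases h3 : disp s ∈ S <;>
    simp [segWt, h1, h2, h3]

/-- If escapes in both directions are impossible, an escape direction is taken almost surely. -/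
theorem esc_full_of (hd : 2 ≤ d) (hell : IsElliptic μ) (hl : IsLevel φ) (ha : 0 < aUp μ φ)
    (hno : Hyp μ φ → False) : ann μ 0 (Esc φ) = 1 := by
  have hdown : ann μ 0 (Esc (-φ)) = 0 := by
    by_contra h
    exact hno ⟨hell, hl, ha, Regen.aUp_pos μ _ hell (pos_iff_ne_zero.2 h)⟩
  have hm := SegAux.measurableSet_EscAux φ
  have hm' := SegAux.measurableSet_EscAux (-φ)
  have hU := SegAux.measurableSet_UnbAux φ
  have h0 : ann μ 0 (Esc φ)ᶜ = 0 := by
    rw [← SegAux.annM_apply μ hm.compl]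
    refine measure_mono_null (t := (Unb φ \ Esc φ) ∪ ((Unb φ)ᶜ \ Esc (-φ)) ∪ Esc (-φ)) ?_ ?_
    · intro u hu
      by_cases h1 : u ∈ Unb φ
      · exact Or.inl (Or.inl ⟨h1, hu⟩)
      · by_cases h2 : u ∈ Esc (-φ)
        · exact Or.inr h2
        · exact Or.inl (Or.inr ⟨h1, h2⟩)
    · refine measure_union_null (measure_union_null ?_ ?_) ?_
      · rw [SegAux.annM_apply μ (hU.diff hm)]
        exact ann_unb_diff_esc μ φ hell hl ha 0
      · rw [SegAux.annM_apply μ (hU.compl.diff hm')]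
        exact ann_bounded_diff_esc μ φ hd hell hl
      · rw [SegAux.annM_apply μ hm', hdown]
  rw [ann_compl 0 hm] at h0
  exact le_antisymm (ann_le_one 0 _) (tsub_eq_zero_iff_le.1 h0)

end general

section succ

variable {k : ℕ} (μ : Measure (Step (k + 1) → ℝ)) [IsProbabilityMeasure μ]

/-- Exits at `e`-level `a` outside the lateral box of radius `R` around `c`. -/
def ExitFar (e : Step (k + 1)) (a : ℕ) (c : Site (k + 1)) (R : ℝ) : Set (ℕ → Step (k + 1)) :=
  ExitIn (axisLevel e) a {z | ∃ j, j ≠ e.1 ∧ R < |(z j : ℝ) - (c j : ℝ)|}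

theorem axisLevel_i₀ (e : Step (k + 1)) : axisLevel e (stp (e.1, true)) ≠ 0 := by
  rw [axisLevel_stp, if_pos rfl]
  cases e.2 <;> simp

/-- A tight exit in the walk's coordinates is a tight exit mass. -/
theorem tightExit_of_far (hell : IsElliptic μ) (e : Step (k + 1)) {a R : ℕ} (ha : 1 ≤ a)
    (c : Site (k + 1)) {r : ℝ} (hr : r ≤ R) {δ : ℝ≥0∞}
    (h : ann μ 0 (ExitFar e a c r) ≤ δ) : TightExit μ (axisLevel e) e.1 a R δ := by
  classical
  refine ⟨lat e.1 c, le_trans ?_ h⟩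
  rw [ExitFar, ann_exitIn μ _ hell ha]
  have e1 : ∀ x, ((box (lat e.1 c) R : Set (Fin k → ℤ))ᶜ).indicator
      (fun x => ∑' s, {s : Word (k + 1) | lat e.1 (disp s) = x}.indicator
        (segWt μ (axisLevel e) a) s) x =
      ∑' s, {s : Word (k + 1) | lat e.1 (disp s) = x ∧ x ∉ box (lat e.1 c) R}.indicator
        (segWt μ (axisLevel e) a) s := fun x => by
    by_cases hx : x ∈ box (lat e.1 c) R <;> simp [hx]
  rw [show exitMass μ (axisLevel e) e.1 a = fun x => ∑' s, {s : Word (k + 1) |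
    lat e.1 (disp s) = x}.indicator (segWt μ (axisLevel e) a) s from rfl]
  simp only [e1]
  rw [ENNReal.tsum_comm]
  refine ENNReal.tsum_le_tsum fun s => ?_
  rw [tsum_eq_single (lat e.1 (disp s)) fun x hx => Set.indicator_of_notMem
    (fun hm => hx hm.1.symm) _]
  refine Set.indicator_le_indicator_of_subset ?_ (fun _ => zero_le) s
  rintro t ⟨ht, hbox⟩
  rw [← ht] at hbox
  simp only [box, Fintype.mem_piFinset, Finset.mem_Icc, not_forall] at hbox
  obtain ⟨i, hi⟩ := hbox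
  refine ⟨e.1.succAbove i, Fin.succAbove_ne _ _, hr.trans_lt ?_⟩
  have h2 : (R : ℤ) < |disp t (e.1.succAbove i) - c (e.1.succAbove i)| := by
    rw [lt_abs]
    simp only [lat, AddMonoidHom.coe_mk, ZeroHom.coe_mk] at hi
    omega
  have h3 := (Int.cast_lt (R := ℝ)).2 h2
  rwa [Int.cast_abs, Int.cast_sub, Int.cast_natCast] at h3

/-- The excess of the exit masses over a constant, in the walk's coordinates. -/
theorem excess_eq (hell : IsElliptic μ) (e : Step (k + 1)) {a : ℕ} (ha : 1 ≤ a) (q : ℝ≥0∞) :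
    ∑' x, (exitMass μ (axisLevel e) e.1 a x - q) ≤
      ∑' z : {z : Site (k + 1) // axisLevel e z = (a : ℤ)},
        (ann μ 0 (ExitIn (axisLevel e) a {(z : Site (k + 1))}) - q) := by
  classical
  set put : (Fin k → ℤ) → {z : Site (k + 1) // axisLevel e z = (a : ℤ)} := fun x =>
    ⟨Fin.insertNth e.1 ((if e.2 then 1 else -1) * (a : ℤ)) x, by
      cases h : e.2 <;> simp [axisLevel, h]⟩
  have hlat : ∀ x, lat e.1 (put x).1 = x := fun x => by
    funext j
    simp [put, lat]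
  refine le_trans (le_of_eq (tsum_congr fun x => ?_))
    (ENNReal.tsum_comp_le_tsum_of_injective (f := put)
      (fun x y h => by rw [← hlat x, h, hlat y]) _)
  congr 1
  rw [ann_exitIn μ _ hell ha, exitMass]
  refine tsum_congr fun s => ?_
  by_cases hlev : axisLevel e (disp s) = (a : ℤ)
  · by_cases hs : lat e.1 (disp s) = x
    · have hz : disp s = (put x).1 := eq_of_level_lat (axisLevel_i₀ e)
        (hlev.trans (put x).2.symm) (hs.trans (hlat x).symm)
      simp [hs, hz, hlat]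
    · have hz : disp s ≠ (put x).1 := fun h => hs (by rw [h, hlat])
      simp [hs, hz]
  · have h0 : segWt μ (axisLevel e) a s = 0 :=
      Set.indicator_of_notMem (fun h => hlev h.2) _
    simp [Set.indicator_apply, h0]

/-- Exit positions of one scale at comparable levels, read on the walk. -/
def RegWalk (μ : Measure (Step (k + 1) → ℝ)) (e : Step (k + 1)) : Prop :=
  ∀ δ : ℝ, 0 < δ → ∀ m : ℕ, ∃ A : ℝ, ∃ N : ℕ, ∀ n ≥ N, ∃ R : ℕ, ∀ a, n ≤ a → a ≤ m * n →
    (∃ c : Site (k + 1), ann μ 0 (ExitFar e a c R) ≤ ENNReal.ofReal δ) ∧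
      ∑' z : {z : Site (k + 1) // axisLevel e z = (a : ℤ)},
        (ann μ 0 (ExitIn (axisLevel e) a {(z : Site (k + 1))}) -
          ENNReal.ofReal (A / (2 * (R : ℝ) + 1) ^ k)) ≤ ENNReal.ofReal δ

theorem regExit_of_regWalk (hell : IsElliptic μ) (e : Step (k + 1)) (h : RegWalk μ e) :
    RegExit μ (axisLevel e) e.1 := by
  intro δ hδ m
  obtain ⟨A, N, hN⟩ := h δ hδ m
  refine ⟨A, max N 1, fun n hn => ?_⟩
  obtain ⟨R, hR⟩ := hN n (le_trans (le_max_left _ _) hn)
  refine ⟨R, fun a ha1 ha2 => ?_⟩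
  obtain ⟨⟨c, hc⟩, hs⟩ := hR a ha1 ha2
  have ha : 1 ≤ a := (le_trans (le_max_right _ _) hn).trans ha1
  exact ⟨tightExit_of_far μ hell e ha c le_rfl hc, (excess_eq μ hell e ha _).trans hs⟩

/-- Exit positions tight at the scale of the square root of the level. -/
def DiffusiveWalk (μ : Measure (Step (k + 1) → ℝ)) (e : Step (k + 1)) : Prop :=
  ∀ δ : ℝ, 0 < δ → ∃ K : ℝ, ∃ N : ℕ, ∀ a ≥ N, ∃ c : Site (k + 1),
    ann μ 0 (ExitFar e a c (K * √(a : ℝ))) ≤ ENNReal.ofReal δ

/-- Tightness at the square root scale gives regular exits, by anticoncentration. -/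
theorem regExit_of_diffusive (hell : IsElliptic μ) (e : Step (k + 1))
    (hspread : ∀ δ : ℝ, 0 < δ → ∃ A : ℝ, 0 ≤ A ∧ ∃ N : ℕ, ∀ a ≥ N,
      ∑' x, (exitMass μ (axisLevel e) e.1 a x - ENNReal.ofReal (A / √(a : ℝ) ^ k)) ≤
        ENNReal.ofReal δ)
    (h : DiffusiveWalk μ e) : RegExit μ (axisLevel e) e.1 := by
  intro δ hδ m
  obtain ⟨K, N₁, hK⟩ := h δ hδ
  obtain ⟨A, hA, N₂, hS⟩ := hspread δ hδ
  set K' : ℝ := max K 0
  set D : ℝ := 2 * (K' * √(m : ℝ)) + 3
  refine ⟨A * D ^ k, N₁ + N₂ + 1, fun n hn => ⟨⌈K' * (√(m : ℝ) * √(n : ℝ))⌉₊, fun a ha1 ha2 => ?_⟩⟩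
  set R := ⌈K' * (√(m : ℝ) * √(n : ℝ))⌉₊
  obtain ⟨c, hc⟩ := hK a (by omega)
  have ha : 1 ≤ a := by omega
  have hsq : √(a : ℝ) ≤ √(m : ℝ) * √(n : ℝ) := by
    rw [← Real.sqrt_mul (Nat.cast_nonneg _)]
    exact Real.sqrt_le_sqrt (by exact_mod_cast ha2)
  refine ⟨tightExit_of_far μ hell e ha c ?_ hc, le_trans (ENNReal.tsum_le_tsum fun x => ?_)
    (hS a (by omega))⟩
  · exact ((mul_le_mul_of_nonneg_right (le_max_left _ _) (Real.sqrt_nonneg _)).trans
      (mul_le_mul_of_nonneg_left hsq (le_max_right _ _))).trans (Nat.le_ceil _)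
  · refine tsub_le_tsub_left (ENNReal.ofReal_le_ofReal ?_) _
    have hn1 : 1 ≤ √(n : ℝ) := Real.one_le_sqrt.2 (by exact_mod_cast (show 1 ≤ n by omega))
    have hna : √(n : ℝ) ≤ √(a : ℝ) := Real.sqrt_le_sqrt (by exact_mod_cast ha1)
    have hR : 2 * (R : ℝ) + 1 ≤ D * √(a : ℝ) := by
      have h1 : (R : ℝ) < K' * (√(m : ℝ) * √(n : ℝ)) + 1 :=
        Nat.ceil_lt_add_one (by positivity)
      have h2 : D * √(n : ℝ) ≤ D * √(a : ℝ) := mul_le_mul_of_nonneg_left hna (by positivity)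
      simp only [D] at h2 ⊢
      nlinarith
    have hs0 : 0 < √(a : ℝ) := lt_of_lt_of_le zero_lt_one (hn1.trans hna)
    rw [div_le_div_iff₀ (by positivity) (by positivity), mul_assoc, ← mul_pow]
    exact mul_le_mul_of_nonneg_left (pow_le_pow_left₀ (by positivity) hR k) hA

/-- Regular exits on a side with positive escape give the zero-one law in every direction. -/
theorem zero_one_of_regExit (hk : 1 ≤ k) (hell : IsElliptic μ) (e : Step (k + 1))
    (hpos : 0 < ann μ 0 (Esc (axisLevel e))) (hreg : RegExit μ (axisLevel e) e.1)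
    (l : Fin (k + 1) → ℝ) : ann μ 0 (escEv l 0) = 0 ∨ ann μ 0 (escEv l 0) = 1 := by
  have hl := isLevel_axisLevel e
  have ha := Regen.aUp_pos μ _ hell hpos
  refine escEv_zero_one μ _ hell hl ha (esc_full_of μ _ (by omega) hell hl ha fun h => ?_) l
  exact false_of_bandSmall (by omega) h (bandSmall_of_regExit μ _ e.1 h (axisLevel_i₀ e) hreg)

end succ

end Vale.Agent.P147.Flux
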