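import Vale.Agent.P147.Flux.SlabDefs
import Vale.Agent.P147.Regen.CaseB
import Vale.Agent.P147.Regen.Criterion

/-!
# Spread exit positions on one side exclude escapes in both directions

At a common cut inside the buffer the offset is the sum of an exit position of the upward side and
an independent downward one, and at a common cut below the band the upward exit position lies in a
box of the same size. So only boundedly many times the box volume of bottom positions matter, each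
reached with chance of order the inverse volume, and each giving a meeting with chance tending to
zero by the forward bound.
-/

namespace Vale.Agent.P147.Flux

open MeasureTheory Set Filter Regen
open scoped ENNReal

variable {k : ℕ} {μ : Measure (Step (k + 1) → ℝ)} [IsProbabilityMeasure μ]
  {φ : Site (k + 1) →+ ℤ}

theorem tsum_segWt_le_inv (h : Hyp μ φ) {a : ℕ} (ha : 1 ≤ a) :
    ∑' s, segWt μ φ a s ≤ (aUp μ (-φ))⁻¹ ∧ ∑' t, segWt μ (-φ) a t ≤ (aUp μ φ)⁻¹ := by
  have hm := segWt_mass_mul_le h ha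
  refine ⟨?_, ?_⟩
  · rw [ENNReal.le_inv_iff_mul_le]
    exact (mul_le_mul' le_rfl (aUp_le_segWt h.ell (isLevel_neg h.lev) ha)).trans hm
  · rw [ENNReal.le_inv_iff_mul_le, mul_comm]
    exact (mul_le_mul' (aUp_le_segWt h.ell h.lev ha) le_rfl).trans hm

omit [IsProbabilityMeasure μ] in
theorem tsum_exitMass (i₀ : Fin (k + 1)) (a : ℕ) :
    ∑' x, exitMass μ φ i₀ a x = ∑' s, segWt μ φ a s := by
  classical
  simp only [exitMass]
  rw [ENNReal.tsum_comm]
  refine tsum_congr fun s => ?_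
  rw [tsum_eq_single (lat i₀ (disp s)) fun x hx => by
    simp [Ne.symm hx]]
  simp [Set.indicator_apply]

/-- The law of the lateral sum at a common cut. -/
theorem common_lat_sum (i₀ : Fin (k + 1)) (h : Hyp μ φ) {a : ℕ} (ha : 1 ≤ a) (u : Fin k → ℤ) :
    pairsLaw μ φ (CommonEv φ a {p | lat i₀ (disp p.1) + lat i₀ (disp p.2) = u}) =
      ∑' t, segWt μ (-φ) a t * exitMass μ φ i₀ a (u - lat i₀ (disp t)) := by
  classical
  rw [common_product h ha, ENNReal.tsum_comm]
  refine tsum_congr fun t => ?_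
  simp only [exitMass, ← ENNReal.tsum_mul_left]
  refine tsum_congr fun s => ?_
  by_cases hs : lat i₀ (disp s) + lat i₀ (disp t) = u
  · simp [Set.indicator_apply, hs, eq_sub_of_add_eq hs, mul_comm]
  · simp [Set.indicator_apply, hs, eq_sub_iff_add_eq]

/-- The strong Markov property at a common cut. -/
theorem common_shift_le (h : Hyp μ φ) (a : ℕ) (S : Set (Word (k + 1) × Word (k + 1)))
    {T : Set (ℕ → PairW (k + 1))} (hT : MeasurableSet T) :
    pairsLaw μ φ {ω | ∃ m, height φ ω m = (a : ℤ) ∧ (xWord ω m, yWord ω m) ∈ S ∧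
        shiftSeq m ω ∈ T} ≤
      pairsLaw μ φ (CommonEv φ a S) * pairsLaw μ φ T := by
  classical
  have := isProbabilityMeasure_pairLaw μ φ h
  let G : ℕ → Set (ℕ → PairW (k + 1)) := fun m =>
    {ω | height φ ω m = (a : ℤ) ∧ (xWord ω m, yWord ω m) ∈ S}
  have hGd : ∀ m, DependsOn (· ∈ G m) (Iio m) := fun m x y hxy => by
    have hx : xWord x m = xWord y m := by
      simp only [xWord]
      congr 1
      exact List.map_congr_left fun i hi => by rw [hxy i (mem_Iio.2 (by simpa using hi))]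
    have hy : yWord x m = yWord y m := by
      simp only [yWord]
      congr 1
      exact List.map_congr_left fun i hi => by rw [hxy i (mem_Iio.2 (List.mem_range.1 hi))]
    simp only [G, mem_ofPred_eq, hx, hy, height_congr fun i hi => hxy i (mem_Iio.2 hi)]
  have hGm : ∀ m, MeasurableSet (G m) := fun m => measurableSet_of_dependsOn (hGd m)
  calc _ ≤ pairsLaw μ φ (⋃ m, G m ∩ shiftSeq m ⁻¹' T) :=
        measure_mono fun ω hω => by
          obtain ⟨m, h1, h2, h3⟩ := hω
          exact mem_iUnion.2 ⟨m, ⟨h1, h2⟩, h3⟩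
    _ ≤ ∑' m, pairsLaw μ φ (G m ∩ shiftSeq m ⁻¹' T) := measure_iUnion_le _
    _ = ∑' m, pairsLaw μ φ (G m) * pairsLaw μ φ T := tsum_congr fun m =>
        measure_past_inter_future (pairLaw μ φ) m (hGm m) (hGd m) hT
    _ = pairsLaw μ φ (⋃ m, G m) * pairsLaw μ φ T := by
        rw [ENNReal.tsum_mul_right, measure_iUnion₀ (fun x y hxy => ?_)
          fun m => (hGm m).nullMeasurableSet]
        refine measure_mono_null (fun ω hω => ?_) (ae_iff.1 (ae_all_isPair h))
        exact fun hall => hxy (common_unique hall (hω.1.1.trans hω.2.1.symm))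
    _ ≤ _ := by
        refine mul_le_mul' (measure_mono (iUnion_subset fun m ω hω => ?_)) le_rfl
        exact ⟨m, hω⟩

/-- The bottoms of meetings weighed by a spread exit position. -/
theorem split_meet_le (i₀ : Fin (k + 1)) (h : Hyp μ φ) (hi : φ (stp (i₀, true)) ≠ 0)
    {a A B ℓ R : ℕ} (ha : 1 ≤ a) (hℓ : 1 ≤ ℓ) (v : Fin k → ℤ) {δ q ε : ℝ≥0∞}
    (hTa : TightExit μ φ i₀ a R δ) (hSa : ∑' x, (exitMass μ φ i₀ a x - q) ≤ δ)
    (hTℓ : TightExit μ φ i₀ ℓ R δ)
    (hε : ∀ z, φ z = -(ℓ : ℤ) → pairsLaw μ φ (CommonEv φ ℓ (MeetSet φ A B z)) ≤ ε) :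
    ∑' z : {z : Site (k + 1) // φ z = -(ℓ : ℤ)}, ∑' x : Fin k → ℤ,
        exitMass μ φ i₀ a (v - lat i₀ z.1 - x) *
          pairsLaw μ φ (CommonEv φ ℓ (MeetSet φ A B z.1 ∩ {p | lat i₀ (disp p.1) = x})) ≤
      δ * (aUp μ φ * aUp μ (-φ))⁻¹ + (δ + δ) + q * (((4 * R + 1) ^ k : ℕ) : ℝ≥0∞) * ε := by
  classical
  have := isProbabilityMeasure_pairLaw μ φ h
  have : IsProbabilityMeasure (pairsLaw μ φ) := by rw [pairsLaw]; infer_instance
  obtain ⟨ca, hca⟩ := hTa
  obtain ⟨cl, hcl⟩ := hTℓ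
  set p := exitMass μ φ i₀ a
  set g : Site (k + 1) → (Fin k → ℤ) → ℝ≥0∞ := fun z x =>
    pairsLaw μ φ (CommonEv φ ℓ (MeetSet φ A B z ∩ {p | lat i₀ (disp p.1) = x}))
  set P : (Fin k → ℤ) → ℝ≥0∞ := fun x =>
    pairsLaw μ φ (CommonEv φ ℓ {p | lat i₀ (disp p.1) = x})
  have hgP : ∀ z x, g z x ≤ P x := fun z x => measure_mono fun ω hω => by
    obtain ⟨m, h1, h2⟩ := hω
    exact ⟨m, h1, h2.2⟩
  have hdisj : ∀ S : Set (Word (k + 1) × Word (k + 1)), Pairwise (Function.onFun
      (AEDisjoint (pairsLaw μ φ))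
      fun x : Fin k → ℤ => CommonEv φ ℓ (S ∩ {p | lat i₀ (disp p.1) = x})) := by
    intro S x y hxy
    refine measure_mono_null (fun ω hω => ?_) (ae_iff.1 (ae_all_isPair h))
    intro hall
    obtain ⟨⟨n₁, e₁, -, f₁⟩, n₂, e₂, -, f₂⟩ := hω
    obtain rfl : n₁ = n₂ := common_unique hall (e₁.trans e₂.symm)
    exact hxy (f₁.symm.trans f₂)
  have hP1 : ∑' x, P x ≤ 1 := by
    have h1 := measure_iUnion₀ (hdisj univ) fun x => (measurableSet_common ℓ _).nullMeasurableSet
    simp only [univ_inter] at h1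
    exact h1.symm.trans_le prob_le_one
  have hgsum : ∀ z, φ z = -(ℓ : ℤ) → ∑' x, g z x ≤ ε := fun z hz => by
    refine le_trans (le_of_eq (measure_iUnion₀ (hdisj _)
      fun x => (measurableSet_common ℓ _).nullMeasurableSet).symm) ?_
    refine le_trans (measure_mono (iUnion_subset fun x ω hω => ?_)) (hε z hz)
    obtain ⟨m, h1, h2⟩ := hω
    exact ⟨m, h1, h2.1⟩
  have hPfar : ∑' x, ((box cl R : Set (Fin k → ℤ))ᶜ).indicator P x ≤ δ * (aUp μ φ)⁻¹ := by
    have hP : ∀ x, P x = exitMass μ φ i₀ ℓ x * ∑' t, segWt μ (-φ) ℓ t := fun x => by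
      simp only [P, exitMass, ← ENNReal.tsum_mul_right]
      rw [common_product h hℓ]
      refine tsum_congr fun s => ?_
      rw [← ENNReal.tsum_mul_left]
      refine tsum_congr fun t => ?_
      by_cases hs : lat i₀ (disp s) = x <;> simp [Set.indicator_apply, hs]
    refine le_trans (le_of_eq ?_) (mul_le_mul' hcl (tsum_segWt_le_inv h hℓ).2)
    rw [← ENNReal.tsum_mul_right]
    exact tsum_congr fun x => by simp only [Set.indicator_apply, hP]; split_ifs <;> simp
  set e : (Fin k → ℤ) → ℝ≥0∞ := fun u =>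
    ((box ca R : Set (Fin k → ℤ))ᶜ).indicator p u + (p u - q)
  have hpe : ∀ u, p u ≤ e u + (box ca R : Set (Fin k → ℤ)).indicator (fun _ => q) u := fun u => by
    by_cases hu : u ∈ box ca R
    · rw [Set.indicator_of_mem (Finset.mem_coe.2 hu)]
      exact le_tsub_add.trans (add_le_add le_add_self le_rfl)
    · refine le_trans ?_ le_self_add
      simp only [e, Set.indicator_of_mem (show u ∈ ((box ca R : Set (Fin k → ℤ))ᶜ) from hu)]
      exact le_self_add
  set Z := {z : Site (k + 1) // φ z = -(ℓ : ℤ)}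
  have hinj : ∀ x : Fin k → ℤ, Function.Injective fun z : Z => v - lat i₀ z.1 - x := by
    intro x z z' hzz
    simp only [sub_left_inj, sub_right_inj] at hzz
    exact Subtype.ext (eq_of_level_lat hi (z.2.trans z'.2.symm) hzz)
  have hsum : ∀ (f : (Fin k → ℤ) → ℝ≥0∞) x, ∑' z : Z, f (v - lat i₀ z.1 - x) ≤ ∑' u, f u :=
    fun f x => ENNReal.tsum_comp_le_tsum_of_injective (hinj x) f
  set Wbox := box (fun i => v i - ca i - cl i) (2 * R)
  have hsplit : ∀ (z : Z) x, p (v - lat i₀ z.1 - x) * g z.1 x ≤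
      p (v - lat i₀ z.1 - x) * ((box cl R : Set (Fin k → ℤ))ᶜ).indicator P x +
        (e (v - lat i₀ z.1 - x) * P x +
          (Wbox : Set (Fin k → ℤ)).indicator (fun _ => q) (lat i₀ z.1) * g z.1 x) := by
    intro z x
    by_cases hx : x ∈ box cl R
    · refine le_trans ?_ le_add_self
      refine le_trans (mul_le_mul' (hpe _) le_rfl) ?_
      rw [add_mul]
      refine add_le_add (mul_le_mul' le_rfl (hgP _ _)) ?_
      by_cases hu : v - lat i₀ z.1 - x ∈ box ca R
      · rw [Set.indicator_of_mem (Finset.mem_coe.2 hu), Set.indicator_of_mem]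
        simp only [Finset.mem_coe, Wbox, box, Fintype.mem_piFinset, Finset.mem_Icc,
          Pi.sub_apply] at hu hx ⊢
        intro i
        have := hu i
        have := hx i
        omega
      · simp [Set.indicator_of_notMem (show v - lat i₀ z.1 - x ∉ (box ca R : Set _) from hu)]
    · refine le_trans ?_ le_self_add
      rw [Set.indicator_of_mem (show x ∈ ((box cl R : Set (Fin k → ℤ))ᶜ) from hx)]
      exact mul_le_mul' le_rfl (hgP _ _)
  refine (ENNReal.tsum_le_tsum fun z => ENNReal.tsum_le_tsum fun x => hsplit z x).trans ?_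
  simp only [ENNReal.tsum_add]
  rw [← add_assoc]
  refine add_le_add (add_le_add ?_ ?_) ?_
  · rw [ENNReal.tsum_comm]
    simp only [ENNReal.tsum_mul_right]
    refine (ENNReal.tsum_le_tsum fun x => mul_le_mul' ((hsum p x).trans
      ((tsum_exitMass i₀ a).le.trans (tsum_segWt_le_inv h ha).1)) le_rfl).trans ?_
    rw [ENNReal.tsum_mul_left, ENNReal.mul_inv (Or.inl h.up.ne') (Or.inr h.down.ne'), mul_comm]
    refine (mul_le_mul' hPfar le_rfl).trans (le_of_eq ?_)
    ring
  · rw [ENNReal.tsum_comm]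
    simp only [ENNReal.tsum_mul_right]
    refine (ENNReal.tsum_le_tsum fun x => mul_le_mul' ((hsum e x).trans
      (show ∑' u, e u ≤ δ + δ from ?_)) le_rfl).trans ?_
    · simp only [e]
      rw [ENNReal.tsum_add]
      exact add_le_add hca hSa
    · rw [ENNReal.tsum_mul_left]
      exact mul_le_of_le_one_right' hP1
  · simp only [ENNReal.tsum_mul_left]
    refine (ENNReal.tsum_le_tsum fun z : Z => mul_le_mul' le_rfl (hgsum z.1 z.2)).trans ?_
    rw [ENNReal.tsum_mul_right]
    refine mul_le_mul' ?_ le_rfl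
    refine (ENNReal.tsum_comp_le_tsum_of_injective (f := fun z : Z => lat i₀ z.1)
      (fun z z' hzz => Subtype.ext (eq_of_level_lat hi (z.2.trans z'.2.symm) hzz))
      ((Wbox : Set (Fin k → ℤ)).indicator fun _ => q)).trans (le_of_eq ?_)
    rw [tsum_eq_sum (s := Wbox) fun u hu => Set.indicator_of_notMem (by simpa using hu) _,
      Finset.sum_congr rfl fun u hu => Set.indicator_of_mem (Finset.mem_coe.2 hu) _,
      Finset.sum_const, nsmul_eq_mul, mul_comm]
    congr 2
    simp only [Wbox, box, Fintype.card_piFinset, Int.card_Icc]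
    rw [Finset.prod_congr rfl fun i _ => (show _ = 4 * R + 1 by omega), Finset.prod_const,
      Finset.card_univ, Fintype.card_fin]

/-- A meeting explained by a cut at `a` in the buffer and a cut `ℓ` levels deeper. -/
def CutMeet (φ : Site (k + 1) →+ ℤ) (i₀ : Fin (k + 1)) (w : Fin k → ℤ) (a A B ℓ : ℕ) :
    Set (ℕ → PairW (k + 1)) :=
  ⋃ z : {z : Site (k + 1) // φ z = -(ℓ : ℤ)}, ⋃ x : Fin k → ℤ,
    {ω | ∃ m, height φ ω m = (a : ℤ) ∧
      (xWord ω m, yWord ω m) ∈
        {p : Word (k + 1) × Word (k + 1) |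
          lat i₀ (disp p.1) + lat i₀ (disp p.2) = w - lat i₀ z.1 - x} ∧
      shiftSeq m ω ∈ CommonEv φ ℓ (MeetSet φ A B z.1 ∩ {p | lat i₀ (disp p.1) = x})}

theorem cutMeet_le (i₀ : Fin (k + 1)) (h : Hyp μ φ) (hi : φ (stp (i₀, true)) ≠ 0)
    {a A B ℓ R : ℕ} (ha : 1 ≤ a) (hℓ : 1 ≤ ℓ) (w : Fin k → ℤ) {δ q ε : ℝ≥0∞}
    (hTa : TightExit μ φ i₀ a R δ) (hSa : ∑' x, (exitMass μ φ i₀ a x - q) ≤ δ)
    (hTℓ : TightExit μ φ i₀ ℓ R δ)
    (hε : ∀ z, φ z = -(ℓ : ℤ) → pairsLaw μ φ (CommonEv φ ℓ (MeetSet φ A B z)) ≤ ε) :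
    pairsLaw μ φ (CutMeet φ i₀ w a A B ℓ) ≤ (aUp μ φ)⁻¹ *
      (δ * (aUp μ φ * aUp μ (-φ))⁻¹ + (δ + δ) + q * (((4 * R + 1) ^ k : ℕ) : ℝ≥0∞) * ε) := by
  refine (measure_iUnion_le _).trans
    ((ENNReal.tsum_le_tsum fun z => (measure_iUnion_le _).trans (ENNReal.tsum_le_tsum fun x =>
      (common_shift_le h a _ (measurableSet_common _ _)).trans_eq
        (by rw [common_lat_sum i₀ h ha]))).trans ?_)
  refine le_trans (le_of_eq ?_) ((ENNReal.tsum_le_tsum fun t : Word (k + 1) => mul_le_mul'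
    (le_refl (segWt μ (-φ) a t)) (split_meet_le i₀ h hi ha hℓ (w - lat i₀ (disp t)) hTa hSa hTℓ
      hε)).trans ?_)
  · simp only [← ENNReal.tsum_mul_right, ← ENNReal.tsum_mul_left]
    refine Eq.trans (tsum_congr fun z => ENNReal.tsum_comm) ?_
    rw [ENNReal.tsum_comm]
    refine tsum_congr fun t => tsum_congr fun z => tsum_congr fun x => ?_
    rw [mul_assoc, show w - lat i₀ (disp t) - lat i₀ z.1 - x =
      w - lat i₀ z.1 - x - lat i₀ (disp t) by abel]
  · rw [ENNReal.tsum_mul_right]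
    exact mul_le_mul' (tsum_segWt_le_inv h ha).2 le_rfl

omit [IsProbabilityMeasure μ] in
theorem mem_cutMeet (i₀ : Fin (k + 1)) {o : Site (k + 1)} (ho : φ o = 0) {n A B a L : ℕ}
    {ω : ℕ → PairW (k + 1)} (hω : ∀ i, IsPair φ (ω i)) (hmeet : ω ∈ Meet o n (4 * n))
    (hB : height φ ω (4 * n + 1) ≤ (B : ℤ)) (haA : a + A ≤ n) (hL : a + B < L) {m m' : ℕ}
    (hm : height φ ω m = (a : ℤ)) (hm' : height φ ω m' = (L : ℤ)) :
    ω ∈ CutMeet φ i₀ (lat i₀ o) a A B (L - a) := by
  have hma : m ≤ a := by have := le_height hω m; omega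
  have hmm : m ≤ m' := by
    by_contra hlt
    have := height_mono hω (show m' ≤ m by omega)
    omega
  obtain ⟨l, rfl⟩ := Nat.exists_eq_add_of_le hmm
  set ω' := shiftSeq m ω with hω'd
  have hω' : ∀ i, IsPair φ (ω' i) := fun i => hω _
  rw [show n = m + (n - m) by omega, show 4 * (m + (n - m)) = m + (4 * n - m) by omega,
    meet_shift] at hmeet
  set off := offAfter o ω m with hoff
  have hoff0 : φ off = 0 := level_offAfter ho hω m
  have hadd : ∀ j, height φ ω (m + j) = height φ ω m + height φ ω' j :=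
    fun j => height_add (φ := φ) ω m j
  have hl : height φ ω' l = ((L - a : ℕ) : ℤ) := by have := hadd l; omega
  have hBb : height φ ω' (4 * n - m + 1) ≤ (B : ℤ) := by
    have h1 := hadd (4 * n - m + 1)
    rw [show m + (4 * n - m + 1) = 4 * n + 1 by omega] at h1
    have h2 : 0 ≤ height φ ω m := by omega
    omega
  obtain ⟨hz, hex⟩ := meet_word hω' hoff0 (A := (A : ℤ)) (B := (B : ℤ)) (m := l) hmeet
    (le_trans (by omega) (le_height hω' (n - m))) hBb (by omega)
  set z := off - disp (xWord ω' l) with hzd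
  have hlatz : lat i₀ z = lat i₀ o - (lat i₀ (disp (xWord ω m)) + lat i₀ (disp (yWord ω m))) -
      lat i₀ (disp (xWord ω' l)) := by
    simp only [hzd, hoff, map_sub, offAfter_eq, disp_xWord, disp_yWord, Finset.sum_add_distrib,
      map_add]
  refine mem_iUnion.2 ⟨⟨z, by rw [hz, hl]⟩, mem_iUnion.2 ⟨lat i₀ (disp (xWord ω' l)), m, hm, ?_,
    l, hl, hex, rfl⟩⟩
  simp only [mem_ofPred_eq, hlatz]
  abel

variable (μ φ) in
/-- Spread exit positions on one side make far bands small. -/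
theorem bandSmall_of_regExit (i₀ : Fin (k + 1)) (h : Hyp μ φ) (hi : φ (stp (i₀, true)) ≠ 0)
    (hreg : RegExit μ φ i₀) : BandSmall μ φ := by
  classical
  have := isProbabilityMeasure_pairLaw μ φ h
  intro η hη
  set H : ℝ := ((aUp μ φ * aUp μ (-φ))⁻¹).toReal with hH
  have hH0 : 0 ≤ H := ENNReal.toReal_nonneg
  have hHt : (aUp μ φ * aUp μ (-φ))⁻¹ ≠ ∞ :=
    ENNReal.inv_ne_top.2 (mul_ne_zero h.up.ne' h.down.ne')
  have hat : aUp μ (-φ) ≤ 1 := ann_le_one 0 _
  have hinv : (aUp μ φ)⁻¹ ≤ ENNReal.ofReal H := by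
    rw [hH, ENNReal.ofReal_toReal hHt]
    exact ENNReal.inv_le_inv.2 (mul_le_of_le_one_right' hat)
  set C₁ : ℕ := ⌈25 * H / η⌉₊ + 1
  obtain ⟨J, hJ⟩ := ((ENNReal.tendsto_sum_nat_add _ (tsum_heightTail_ne_top h)).eventually
    (Iic_mem_nhds (ENNReal.ofReal_pos.2 (show (0 : ℝ) < η / 5 by positivity)))).exists
  set T : ℝ := ((J : ℝ) + 1) ^ 2 * H
  set δ : ℝ := η / (5 * (T * (H + 2) + 1))
  have hδ0 : 0 < δ := by positivity
  obtain ⟨A, N, hN⟩ := hreg δ hδ0 (64 * C₁ + 8)
  set A' : ℝ := max A 0 * 2 ^ k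
  set δ' : ℝ := η / (5 * (T * A' * 4 + 1))
  have hδ'0 : 0 < δ' := by positivity
  obtain ⟨N₁, hN₁⟩ := eventually_atTop.1 ((tendsto_reach_diff μ φ h.ell h.lev h.up).eventually
    (Iic_mem_nhds (ENNReal.ofReal_pos.2 hδ'0)))
  obtain ⟨N₂, hN₂⟩ := eventually_atTop.1
    ((tendsto_reach_diff μ (-φ) h.ell (isLevel_neg h.lev) h.down).eventually
      (Iic_mem_nhds (ENNReal.ofReal_pos.2 hδ'0)))
  refine ⟨16 * (N + N₁ + N₂ + J + 1), fun n hn o ho => ?_⟩
  set B := C₁ * n
  have hBn : n ≤ B := Nat.le_mul_of_pos_left n (by omega)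
  set a₀ := n / 4
  set L₀ := 3 * B
  set n' := n / 8
  obtain ⟨R, hR⟩ := hN n' (by omega)
  set q : ℝ≥0∞ := ENNReal.ofReal (A / (2 * (R : ℝ) + 1) ^ k)
  let G₁ : Set (ℕ → PairW (k + 1)) := {ω | (B : ℤ) < height φ ω (4 * n + 1)}
  let O : ℕ → Set (ℕ → PairW (k + 1)) := fun l =>
    {ω | ¬ ∃ m, (l : ℤ) ≤ height φ ω m ∧ height φ ω m ≤ l + J}
  let G₄ : Set (ℕ → PairW (k + 1)) := ⋃ al ∈ Finset.Icc a₀ (a₀ + J) ×ˢ Finset.Icc L₀ (L₀ + J),
    CutMeet φ i₀ (lat i₀ o) al.1 (n / 4) B (al.2 - al.1)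
  have hsub : pairsLaw μ φ (Meet o n (4 * n)) ≤
      pairsLaw μ φ (G₁ ∪ (O a₀ ∪ (O L₀ ∪ G₄))) := by
    refine measure_mono_ae ?_
    filter_upwards [ae_all_isPair h] with ω hω hmeet
    show ω ∈ G₁ ∪ (O a₀ ∪ (O L₀ ∪ G₄))
    by_contra hne
    simp only [mem_union, not_or] at hne
    obtain ⟨h1, h2, h3, h4⟩ := hne
    obtain ⟨m, hm1, hm2⟩ := not_not.1 h2
    obtain ⟨m', hm1', hm2'⟩ := not_not.1 h3
    refine h4 (mem_iUnion₂.2 ⟨((height φ ω m).toNat, (height φ ω m').toNat),
      Finset.mem_product.2 ⟨Finset.mem_Icc.2 ⟨by omega, by omega⟩,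
        Finset.mem_Icc.2 ⟨by omega, by omega⟩⟩, ?_⟩)
    exact mem_cutMeet i₀ ho hω hmeet (not_lt.1 h1) (by omega) (by omega) (m := m) (m' := m')
      (by omega) (by omega)
  have hη5 : (0 : ℝ) ≤ η / 5 := by positivity
  have hG₁ : pairsLaw μ φ G₁ ≤ ENNReal.ofReal (η / 5) := by
    have h1 := height_markov h (4 * n + 1) B
    rw [mul_comm, ← ENNReal.le_div_iff_mul_le (Or.inl (by simp))
      (Or.inl (ENNReal.add_ne_top.2 ⟨ENNReal.natCast_ne_top _, ENNReal.one_ne_top⟩))] at h1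
    refine h1.trans ?_
    rw [← ENNReal.ofReal_toReal hHt, ← hH, ← ENNReal.ofReal_natCast (4 * n + 1),
      ← ENNReal.ofReal_natCast B, ← ENNReal.ofReal_one,
      ← ENNReal.ofReal_add (by positivity) zero_le_one, ← ENNReal.ofReal_mul (by positivity),
      ← ENNReal.ofReal_div_of_pos (by positivity)]
    refine ENNReal.ofReal_le_ofReal ?_
    have hC : 25 * H / η ≤ (C₁ : ℝ) := by
      simp only [C₁]; push_cast
      exact (Nat.le_ceil _).trans (by linarith)
    rw [div_le_iff₀ hη] at hC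
    rw [div_le_iff₀ (by positivity)]
    have h4 := mul_le_mul_of_nonneg_right hC (n.cast_nonneg (α := ℝ))
    have h5 : (1 : ℝ) ≤ n := by exact_mod_cast (show 1 ≤ n by omega)
    simp only [B]
    push_cast
    nlinarith
  have hO : ∀ l, pairsLaw μ φ (O l) ≤ ENNReal.ofReal (η / 5) := fun l =>
    (overshoot_le h J).trans hJ
  have hG₄ : pairsLaw μ φ G₄ ≤ ENNReal.ofReal (η / 5 + η / 5) := by
    refine (measure_biUnion_finset_le _ _).trans ?_
    refine (Finset.sum_le_card_nsmul _ _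
      (ENNReal.ofReal (H * (δ * H + (δ + δ) + A' * (4 * δ')))) fun al hal => ?_).trans ?_
    · simp only [Finset.mem_product, Finset.mem_Icc] at hal
      have hm : n' ≤ al.1 ∧ al.1 ≤ (64 * C₁ + 8) * n' := by
        have h1 : al.1 ≤ 8 * n' := by omega
        have h2 : 8 * n' ≤ (64 * C₁ + 8) * n' := Nat.mul_le_mul_right _ (by omega)
        omega
      have hl : n' ≤ al.2 - al.1 ∧ al.2 - al.1 ≤ (64 * C₁ + 8) * n' := by
        have h1 : n ≤ 16 * n' := by omega
        have h2 : 4 * B ≤ 64 * (C₁ * n') :=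
          (Nat.mul_le_mul_left 4 (Nat.mul_le_mul_left C₁ h1)).trans (le_of_eq (by ring))
        have h3 : (64 * C₁ + 8) * n' = 64 * (C₁ * n') + 8 * n' := by ring
        omega
      obtain ⟨hTa, hSa⟩ := hR al.1 hm.1 hm.2
      obtain ⟨hTl, -⟩ := hR (al.2 - al.1) hl.1 hl.2
      refine (cutMeet_le i₀ h hi (by omega) (by omega) _ hTa hSa hTl
        (ε := ENNReal.ofReal (4 * δ')) fun z hz => ?_).trans ?_
      · refine (common_meet_le μ φ h z _ _ B hz (by omega) (by omega) (by omega)).trans ?_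
        refine le_trans (mul_le_mul' le_rfl
          (add_le_add (hN₁ (al.2 - al.1 - B) (by omega)) (hN₂ (n / 4) (by omega)))) (le_of_eq ?_)
        rw [← ENNReal.ofReal_add hδ'0.le hδ'0.le, ← ENNReal.ofReal_ofNat,
          ← ENNReal.ofReal_mul zero_le_two]
        congr 1
        ring
      · rw [ENNReal.ofReal_mul hH0]
        refine mul_le_mul' hinv ?_
        rw [← ENNReal.ofReal_toReal hHt, ← hH, ← ENNReal.ofReal_mul hδ0.le,
          ENNReal.ofReal_add (by positivity) (by positivity),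
          ENNReal.ofReal_add (mul_nonneg hδ0.le hH0) (by positivity),
          ENNReal.ofReal_add hδ0.le hδ0.le, ENNReal.ofReal_mul (show 0 ≤ A' by positivity)]
        refine add_le_add le_rfl (mul_le_mul' ?_ le_rfl)
        refine le_trans (mul_le_mul' (ENNReal.ofReal_le_ofReal
          (div_le_div_of_nonneg_right (le_max_left A 0) (by positivity))) le_rfl) ?_
        rw [← ENNReal.ofReal_natCast, ← ENNReal.ofReal_mul (by positivity)]
        refine ENNReal.ofReal_le_ofReal ?_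
        simp only [A']
        rw [div_mul_eq_mul_div, div_le_iff₀ (by positivity), mul_assoc]
        refine mul_le_mul_of_nonneg_left ?_ (le_max_right A 0)
        rw [← mul_pow]
        push_cast
        exact pow_le_pow_left₀ (by positivity) (by linarith [(R.cast_nonneg : (0 : ℝ) ≤ R)]) k
    · rw [Finset.card_product, Nat.card_Icc, Nat.card_Icc,
        show a₀ + J + 1 - a₀ = J + 1 by omega, show L₀ + J + 1 - L₀ = J + 1 by omega,
        nsmul_eq_mul, ← ENNReal.ofReal_natCast, ← ENNReal.ofReal_mul (by positivity)]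
      refine ENNReal.ofReal_le_ofReal ?_
      push_cast
      have h1 : T * (H + 2) * δ ≤ η / 5 := by
        simp only [δ]
        rw [mul_div_assoc', div_le_div_iff₀ (by positivity) (by norm_num)]
        nlinarith
      have h2 : T * A' * 4 * δ' ≤ η / 5 := by
        simp only [δ']
        rw [mul_div_assoc', div_le_div_iff₀ (by positivity) (by norm_num)]
        nlinarith
      simp only [T] at h1 h2
      linarith
  refine hsub.trans ((measure_union_le _ _).trans ((add_le_add hG₁ ((measure_union_le _ _).trans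
    (add_le_add (hO a₀) ((measure_union_le _ _).trans (add_le_add (hO L₀) hG₄))))).trans
      (le_of_eq ?_)))
  rw [← ENNReal.ofReal_add hη5 (by positivity), ← ENNReal.ofReal_add hη5 (by positivity),
    ← ENNReal.ofReal_add hη5 (by positivity)]
  congr 1
  ring

end Vale.Agent.P147.Flux
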