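import Vale.Agent.P147.Flux.SlabDefs
import Vale.Agent.P147.Flux.CutSq

/-!
# Exit positions from slabs are spread over at least diffusive boxes

An exit at height `a` is a cut at level `a`. Except for a small probability the first `c a` blocks
stay below `a`; given the later blocks their lateral sum must hit a point that depends only on
their height, which has probability `O(a ^ (-k/2))`, and the later cuts have total mass at most one
on each level.
-/

namespace Vale.Agent.P147.Flux

open MeasureTheory Set Filter Regen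
open scoped ENNReal

section level

variable {k : ℕ} {α : Type*} [MeasurableSpace α] [MeasurableSingletonClass α] [Countable α]
  {ν : Measure α} [IsProbabilityMeasure ν] {V : α → Fin k → ℤ} {hgt : α → ℤ}

/-- A geometric bound for the convolutions gives one for the mean at the target. -/
theorem levelMass_le {T : Finset α} {h₀ : ℤ} (hT : ∀ a ∈ T, hgt a = h₀)
    {f : ℕ → (Fin k → ℤ) → ℝ≥0∞}
    (hf : ∀ m z, ∑ a ∈ T, ν {a} * f m (z - V a) = (∑ a ∈ T, ν {a}) * f (m + 1) z)
    {K L q : ℝ≥0∞} (hu : ∀ m z, f m z ≤ K + L * q ^ m) :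
    ∀ (n m : ℕ) (G : ℤ → Fin k → ℤ), levelMass ν V hgt (f m) n G ≤ K + L * q ^ m *
      ((∑ a ∈ T, ν {a}) * q + ∑' b : ↥((T : Set α)ᶜ), ν {(b : α)}) ^ n := by
  classical
  set c := ∑ a ∈ T, ν {a}
  set c' := ∑' b : ↥((T : Set α)ᶜ), ν {(b : α)}
  have hcc : c + c' = 1 :=
    (ENNReal.sum_add_tsum_compl T fun a => ν {a}).trans tsum_singleton_eq_one
  intro n
  induction n with
  | zero => intro m G; simpa [levelMass] using hu m (G 0)
  | succ n ih =>
    intro m G
    rw [levelMass, ← ENNReal.sum_add_tsum_compl T, sum_levelMass hT (hf m) n]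
    calc c * levelMass ν V hgt (f (m + 1)) n (fun l => G (l + h₀)) +
          ∑' b : ↥((T : Set α)ᶜ), ν {(b : α)} * levelMass ν V hgt (f m) n (moved V hgt b G)
        ≤ c * (K + L * q ^ (m + 1) * (c * q + c') ^ n) +
          c' * (K + L * q ^ m * (c * q + c') ^ n) := by
          refine add_le_add (mul_le_mul' le_rfl (ih _ _)) ?_
          rw [← ENNReal.tsum_mul_right]
          exact ENNReal.tsum_le_tsum fun b => mul_le_mul' le_rfl (ih _ _)
      _ = (c + c') * K + L * q ^ m * (c * q + c') ^ (n + 1) := by ring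
      _ = _ := by rw [hcc, one_mul]

/-- The lateral sum hits a target given by the total height with probability `O(n ^ (-k/2))`. -/
theorem exists_level_le [DiscreteMeasurableSpace α] {h₀ : ℤ}
    (hstar : ∀ i, ∃ a b, 0 < ν {a} ∧ 0 < ν {b} ∧ hgt a = h₀ ∧ hgt b = h₀ ∧
      V b = V a + Pi.single i 1) :
    ∃ C : ℝ, 0 ≤ C ∧ ∀ (n : ℕ) (G : ℤ → Fin k → ℤ), (Measure.infinitePi fun _ : ℕ => ν)
        {om | seqSum V n om = G (∑ i ∈ Finset.range n, hgt (om i))} ≤
      ENNReal.ofReal (C / √((n : ℝ) + 1) ^ k) := by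
  classical
  rcases Nat.eq_zero_or_pos k with hk | hk
  · subst hk
    exact ⟨1, zero_le_one, fun n G => prob_le_one.trans (by simp)⟩
  choose a b hpa hpb hha hhb hab using hstar
  let i₀ : Fin k := ⟨0, hk⟩
  set T := Finset.univ.image a ∪ Finset.univ.image b
  have hT : ∀ x ∈ T, hgt x = h₀ := fun x hx => by
    simp only [T, Finset.mem_union, Finset.mem_image] at hx
    rcases hx with ⟨i, -, rfl⟩ | ⟨i, -, rfl⟩
    exacts [hha i, hhb i]
  have ha : ∀ i, a i ∈ T := fun i => Finset.mem_union_left _ (Finset.mem_image_of_mem a (Finset.mem_univ i))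
  have hb : ∀ i, b i ∈ T := fun i => Finset.mem_union_right _ (Finset.mem_image_of_mem b (Finset.mem_univ i))
  set c := ν.real (T : Set α)
  have hc : 0 < c := mass_pos (ha i₀) (hpa i₀)
  have hc1 : c ≤ 1 := measureReal_le_one
  have hp := isWeight_trunc (V := V) hc
  obtain ⟨C, hC0, hC⟩ := exists_convPow_le hp
    (hasSteps_trunc fun i => ⟨a i, ha i, b i, hb i, hpa i, hpb i, hab i⟩)
  obtain ⟨M, hM⟩ := (tendsto_sqrt_mul_exp (k := k) hc).bddAbove_range
  have hM0 : 0 ≤ M := le_trans (by positivity) (hM ⟨0, rfl⟩)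
  set f : ℕ → (Fin k → ℤ) → ℝ≥0∞ := fun m z =>
    ENNReal.ofReal (convPow (truncSupp V T) (truncWeight ν V T) m z)
  have hcT : ∑ x ∈ T, ν {x} = ENNReal.ofReal c := by
    rw [sum_measure_singleton, ofReal_measureReal]
  have hcc : ∑' x : ↥((T : Set α)ᶜ), ν {(x : α)} = ENNReal.ofReal (1 - c) := by
    have h := (ENNReal.sum_add_tsum_compl T fun a => ν {a}).trans tsum_singleton_eq_one
    rw [hcT] at h
    refine (ENNReal.add_right_inj ENNReal.ofReal_ne_top).1 (h.trans ?_)
    rw [← ENNReal.ofReal_add hc.le (by linarith), add_sub_cancel, ENNReal.ofReal_one]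
  have hf : ∀ m z, ∑ x ∈ T, ν {x} * f m (z - V x) = (∑ x ∈ T, ν {x}) * f (m + 1) z := fun m z => by
    rw [hcT]
    simp only [f]
    rw [← ENNReal.ofReal_mul hc.le, ← sum_mul_convPow,
      sum_truncWeight_mul T fun y => convPow (truncSupp V T) (truncWeight ν V T) m (z - y),
      mul_div_cancel₀ _ hc.ne', ENNReal.ofReal_sum_of_nonneg fun x _ =>
        mul_nonneg measureReal_nonneg (convPow_nonneg hp _ _)]
    exact Finset.sum_congr rfl fun x _ => by
      rw [ENNReal.ofReal_mul measureReal_nonneg, ofReal_measureReal]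
  refine ⟨C * √(2 / c) ^ k + M, by positivity, fun n G => ?_⟩
  set q : ℝ := Real.exp (-(1 / 2 : ℝ)) with hq
  set K : ℝ := C * √(2 / c) ^ k / √((n : ℝ) + 1) ^ k
  set L : ℝ := Real.exp (c / 4) ^ n
  have hu : ∀ m z, f m z ≤ ENNReal.ofReal K + ENNReal.ofReal L * ENNReal.ofReal q ^ m := by
    intro m z
    rw [← ENNReal.ofReal_pow (Real.exp_pos _).le, ← ENNReal.ofReal_mul (by positivity),
      ← ENNReal.ofReal_add (by positivity) (by positivity)]
    refine ENNReal.ofReal_le_ofReal ?_
    rcases le_or_gt (c * n / 2) m with h | h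
    · refine le_trans ((hC m z).trans ?_) (le_add_of_nonneg_right (by positivity))
      simp only [K]
      rw [Real.rpow_div_two_eq_sqrt _ (by positivity), Real.rpow_natCast, mul_div_assoc,
        ← div_pow, div_eq_mul_inv C, ← inv_pow]
      refine mul_le_mul_of_nonneg_left (pow_le_pow_left₀ (by positivity) ?_ k) hC0
      rw [← Real.sqrt_div (by positivity : (0 : ℝ) ≤ 2 / c), ← Real.sqrt_inv]
      refine Real.sqrt_le_sqrt ?_
      rw [← one_div, div_div, div_le_div_iff₀ (by positivity) (by positivity)]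
      nlinarith
    · refine (convPow_le_one hp m z).trans (le_add_of_nonneg_of_le (by positivity) ?_)
      simp only [L]
      rw [← Real.exp_nat_mul, ← Real.exp_nat_mul, ← Real.exp_add]
      exact Real.one_le_exp (by linarith)
  refine (law_level_le (f := f 0) (by simp [f, convPow]) n G).trans
    ((levelMass_le hT hf hu n 0 G).trans ?_)
  rw [hcT, hcc, pow_zero, mul_one, ← ENNReal.ofReal_mul hc.le,
    ← ENNReal.ofReal_add (by positivity) (by linarith), ← ENNReal.ofReal_pow ?_,
    ← ENNReal.ofReal_mul (by positivity), ← ENNReal.ofReal_add (by positivity) ?_]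
  rotate_left
  · have : 0 ≤ c * q + (1 - c) := by nlinarith [Real.exp_pos (-(1 / 2 : ℝ))]
    exact mul_nonneg (by positivity) (pow_nonneg this n)
  · nlinarith [Real.exp_pos (-(1 / 2 : ℝ))]
  refine ENNReal.ofReal_le_ofReal ?_
  rw [add_div]
  refine add_le_add le_rfl ?_
  rw [le_div_iff₀ (by positivity), mul_comm]
  refine le_trans (mul_le_mul_of_nonneg_left ?_ (by positivity)) (hM ⟨n, rfl⟩)
  have he : q ≤ 2 / 3 := by
    rw [hq, Real.exp_neg, inv_le_iff_one_le_mul₀ (Real.exp_pos _)]
    linarith [Real.add_one_le_exp (1 / 2 : ℝ)]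
  have hρ0 : 0 ≤ c * q + (1 - c) := by nlinarith [Real.exp_pos (-(1 / 2 : ℝ))]
  rw [← mul_pow]
  refine pow_le_pow_left₀ (by positivity) ((mul_le_mul_of_nonneg_left
    ((le_of_eq (by ring)).trans (Real.add_one_le_exp (-(c * (1 - q))))) (Real.exp_pos _).le).trans
      ?_) n
  rw [← Real.exp_add]
  exact Real.exp_le_exp.2 (by nlinarith)

end level

section slab

variable {k : ℕ} (μ : Measure (Step (k + 1) → ℝ)) [IsProbabilityMeasure μ]
  (φ : Site (k + 1) →+ ℤ)

/-- The `i`-th cut. -/
def cutSite (b : ℕ → Word (k + 1)) (i : ℕ) : Site (k + 1) := ∑ m ∈ Finset.range i, disp (b m)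

theorem measurable_cutSite (i : ℕ) : Measurable fun b : ℕ → Word (k + 1) => cutSite b i :=
  Finset.measurable_sum _ fun m _ =>
    (measurable_of_countable disp).comp (measurable_pi_apply m)

theorem cutSite_add (b : ℕ → Word (k + 1)) (j i : ℕ) :
    cutSite b (j + i) = cutSite b j + cutSite (fun m => b (j + m)) i :=
  Finset.sum_range_add (fun m => disp (b m)) j i

theorem disp_flatten_range (b : ℕ → Word (k + 1)) (n : ℕ) :
    disp ((List.range n).map b).flatten = cutSite b n := by
  induction n with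
  | zero => simp [cutSite, disp_nil]
  | succ n ih =>
    rw [List.range_succ, List.map_append, List.flatten_append, disp_append, ih, cutSite, cutSite,
      Finset.sum_range_succ]
    simp

omit [IsProbabilityMeasure μ] in
theorem cutSite_mono {b : ℕ → Word (k + 1)} (hb : ∀ i, IsBlock φ (b i)) :
    StrictMono fun i => φ (cutSite b i) := by
  refine strictMono_nat_of_lt_succ fun i => ?_
  have := (hb i).1.height_pos
  simp only [cutSite, Finset.sum_range_succ, map_add]
  omega

variable [IsProbabilityMeasure (blockLaw μ φ)]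

omit [IsProbabilityMeasure μ] in
/-- The cuts at one level have total mass at most one. -/
theorem sum_cutProb_level_le (F : Finset (Site (k + 1))) (l : ℤ) (hF : ∀ z ∈ F, φ z = l) :
    ∑ z ∈ F, cutProb μ φ z ≤ 1 := by
  have : IsProbabilityMeasure (blocksLaw μ φ) := by unfold blocksLaw; infer_instance
  have hU : ∀ z, cutProb μ φ z = blocksLaw μ φ (⋃ i, (fun b => cutSite b i) ⁻¹' {z}) := fun z => by
    simp only [cutProb]; congr 1; ext b; simp [cutSite]
  simp only [hU]
  rw [← measure_biUnion_finset₀]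
  · exact prob_le_one
  · intro z hz z' hz' hne
    refine measure_mono_null (fun b hb => ?_) (ae_iff.1 (SegAux.blocks_allPos μ (φ := φ)))
    obtain ⟨hb1, hb2⟩ := hb
    simp only [mem_iUnion, mem_preimage, mem_singleton_iff] at hb1 hb2
    obtain ⟨i, hi⟩ := hb1
    obtain ⟨i', hi'⟩ := hb2
    rintro ⟨-, hblk⟩
    have : i = i' := (cutSite_mono φ hblk).injective (by simp only [hi, hi', hF z hz, hF z' hz'])
    exact hne (by rw [← hi, ← hi', this])
  · exact fun z _ => (MeasurableSet.iUnion fun i =>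
      measurable_cutSite i (measurableSet_singleton z)).nullMeasurableSet

/-- A cut at level `a` with lateral position `x`. -/
def ExitEv (i₀ : Fin (k + 1)) (a : ℕ) (x : Fin k → ℤ) : Set (ℕ → Word (k + 1)) :=
  {b | ∃ i, φ (cutSite b i) = a ∧ lat i₀ (cutSite b i) = x}

/-- An exit is a cut. -/
theorem exitMass_le (i₀ : Fin (k + 1)) (a : ℕ) (x : Fin k → ℤ) :
    exitMass μ φ i₀ a x ≤ blocksLaw μ φ (ExitEv φ i₀ a x) := by
  set T : Set (Word (k + 1)) := {s | (IsSeg φ s ∧ φ (disp s) = (a : ℤ)) ∧ lat i₀ (disp s) = x}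
  have e : exitMass μ φ i₀ a x = ∑' s : T, wt μ s.1 := by
    rw [tsum_subtype T (wt μ)]
    refine tsum_congr fun s => ?_
    simp only [segWt, Set.indicator_apply, T, mem_ofPred_eq]
    by_cases h1 : IsSeg φ s ∧ φ (disp s) = (a : ℤ) <;> by_cases h2 : lat i₀ (disp s) = x <;>
      simp [h1, h2]
  have hw : ∀ s : T, wt μ s.1 = blocksLaw μ φ (Beg (blks φ s.1)) := fun s => by
    have hs := blks_spec (φ := φ) s.2.1.1
    rw [blocksLaw, infinitePi_Beg]
    conv_lhs => rw [← hs.2, wt_flatten μ (blks_seg s.2.1.1)]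
    exact congrArg List.prod (List.map_congr_left fun b hb => (blockLaw_singleton μ (hs.1 b hb)).symm)
  rw [e, tsum_congr hw, ← measure_iUnion ?_ fun s => measurableSet_Beg _]
  · refine measure_mono (iUnion_subset fun s b hb => ⟨(blks φ s.1).length, ?_⟩)
    rw [← disp_flatten_range, mem_Beg_iff.1 hb, (blks_spec s.2.1.1).2]
    exact ⟨s.2.1.2, s.2.2⟩
  · have key : ∀ s s' : T, blks φ s.1 <+: blks φ s'.1 → s = s' := by
      rintro s s' ⟨R, hR⟩
      have hR0 := length_le_toNat_height φ (L := R) fun t ht =>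
        blks_seg s'.2.1.1 t (hR ▸ List.mem_append_right _ ht)
      have h := congrArg List.flatten hR
      rw [List.flatten_append, (blks_spec s.2.1.1).2, (blks_spec s'.2.1.1).2] at h
      have h' := congrArg (fun t => φ (disp t)) h
      simp only [disp_append, map_add, s.2.1.2, s'.2.1.2] at h'
      have : R = [] := List.length_eq_zero_iff.1 (by omega)
      subst this
      exact Subtype.ext (by simpa using h)
    exact fun s s' hne => Set.disjoint_left.2 fun b hb hb' => hne
      ((compat_of_mem_Beg hb hb').elim (key s s') fun hp => (key s' s hp).symm)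

/-- Given the first `j` blocks a later cut at level `a` hits one lateral position rarely. -/
theorem exit_late_le (i₀ : Fin (k + 1)) (a j : ℕ) (x : Fin k → ℤ) {q : ℝ≥0∞}
    (hq : ∀ G : ℤ → Fin k → ℤ, blocksLaw μ φ {b | seqSum (fun s => lat i₀ (disp s)) j b =
      G (∑ m ∈ Finset.range j, φ (disp (b m)))} ≤ q) :
    blocksLaw μ φ {b | ∃ i, j ≤ i ∧ φ (cutSite b i) = a ∧ lat i₀ (cutSite b i) = x} ≤ q := by
  classical
  set A : Site (k + 1) → Set (ℕ → Word (k + 1)) := fun y =>
    {b | φ (cutSite b j) = (a : ℤ) - φ y ∧ lat i₀ (cutSite b j) = x - lat i₀ y}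
  set B : Site (k + 1) → Set (ℕ → Word (k + 1)) := fun y => {b | ∃ i, cutSite b i = y}
  have hAd : ∀ y, DependsOn (· ∈ A y) (Iio j) := fun y b b' h => by
    simp only [A, mem_ofPred_eq, cutSite]
    rw [Finset.sum_congr rfl fun m hm => by rw [h m (mem_Iio.2 (Finset.mem_range.1 hm))]]
  have hAm : ∀ y, MeasurableSet (A y) := fun y => measurableSet_of_dependsOn (hAd y)
  have hBm : ∀ y, MeasurableSet (B y) := fun y => by
    have : B y = ⋃ i, (fun b => cutSite b i) ⁻¹' {y} := by ext b; simp [B]
    rw [this]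
    exact MeasurableSet.iUnion fun i => measurable_cutSite i (measurableSet_singleton y)
  calc _ ≤ blocksLaw μ φ (⋃ y, A y ∩ (fun b m => b (j + m)) ⁻¹' B y) :=
        measure_mono fun b hb => by
          obtain ⟨i, hi, h1, h2⟩ := hb
          obtain ⟨i, rfl⟩ := Nat.exists_eq_add_of_le hi
          rw [cutSite_add, map_add] at h1 h2
          exact mem_iUnion.2 ⟨_, ⟨eq_sub_of_add_eq h1, eq_sub_of_add_eq h2⟩, i, rfl⟩
    _ ≤ ∑' y, blocksLaw μ φ (A y ∩ (fun b m => b (j + m)) ⁻¹' B y) := measure_iUnion_le _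
    _ = ∑' y, blocksLaw μ φ (A y) * cutProb μ φ y := tsum_congr fun y =>
        measure_past_inter_future (blockLaw μ φ) j (hAm y) (hAd y) (hBm y)
    _ ≤ q := by
        rw [ENNReal.tsum_eq_iSup_sum]
        refine iSup_le fun F => ?_
        set L := F.image φ
        have hg : ∀ l ∈ L, ∃ y : Site (k + 1), φ y = l ∧
            ∀ z ∈ F, φ z = l → blocksLaw μ φ (A z) ≤ blocksLaw μ φ (A y) := by
          intro l hl
          obtain ⟨z₀, hz₀, rfl⟩ := Finset.mem_image.1 hl
          obtain ⟨y, hy, hmax⟩ := Finset.exists_max_image (F.filter fun z => φ z = φ z₀)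
            (fun z => blocksLaw μ φ (A z)) ⟨z₀, by simp [hz₀]⟩
          exact ⟨y, (Finset.mem_filter.1 hy).2, fun z hz hzl => hmax z (by simp [hz, hzl])⟩
        choose! g hg1 hg2 using hg
        calc ∑ y ∈ F, blocksLaw μ φ (A y) * cutProb μ φ y
            = ∑ l ∈ L, ∑ y ∈ F with φ y = l, blocksLaw μ φ (A y) * cutProb μ φ y :=
              (Finset.sum_fiberwise_of_maps_to (fun y hy => Finset.mem_image_of_mem φ hy) _).symm
          _ ≤ ∑ l ∈ L, blocksLaw μ φ (A (g l)) := Finset.sum_le_sum fun l hl => by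
              refine le_trans (Finset.sum_le_sum fun y hy => mul_le_mul'
                (hg2 l hl y (Finset.mem_filter.1 hy).1 (Finset.mem_filter.1 hy).2) le_rfl) ?_
              rw [← Finset.mul_sum]
              exact mul_le_of_le_one_right'
                (sum_cutProb_level_le μ φ _ l fun y hy => (Finset.mem_filter.1 hy).2)
          _ = blocksLaw μ φ (⋃ l ∈ L, A (g l)) := (measure_biUnion_finset
              (fun l hl l' hl' hne => Set.disjoint_left.2 fun b hb hb' => hne (by
                have h1 := hb.1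
                have h2 := hb'.1
                rw [hg1 l hl] at h1
                rw [hg1 l' hl'] at h2
                omega)) fun l _ => hAm _).symm
          _ ≤ q := by
              refine le_trans (measure_mono fun b hb => ?_)
                (hq fun h => x - lat i₀ (g ((a : ℤ) - h)))
              simp only [mem_iUnion] at hb
              obtain ⟨l, hl, h1, h2⟩ := hb
              rw [hg1 l hl] at h1
              have e : (a : ℤ) - φ (cutSite b j) = l := by omega
              simp only [mem_ofPred_eq, seqSum]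
              rw [← map_sum, ← map_sum, ← cutSite, e, h2]

end slab

/-- At every height the exit positions carry, up to `δ`, mass at most `A a ^ (-k/2)` per point. -/
theorem exists_exit_spread {k : ℕ} (μ : Measure (Step (k + 1) → ℝ)) [IsProbabilityMeasure μ]
    (φ : Site (k + 1) →+ ℤ) (i₀ : Fin (k + 1)) (hi : φ (stp (i₀, true)) ≠ 0)
    (hell : IsElliptic μ) (hl : IsLevel φ) (ha : 0 < aUp μ φ) {δ : ℝ} (hδ : 0 < δ) :
    ∃ A : ℝ, 0 ≤ A ∧ ∃ N : ℕ, ∀ a ≥ N,
      ∑' x, (exitMass μ φ i₀ a x - ENNReal.ofReal (A / √(a : ℝ) ^ k)) ≤ ENNReal.ofReal δ := by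
  classical
  have := isProbabilityMeasure_blockLaw μ φ hell hl ha
  have : IsProbabilityMeasure (blocksLaw μ φ) := by unfold blocksLaw; infer_instance
  obtain ⟨e, he, rfl⟩ : ∃ e : Step (k + 1), φ (stp e) = 1 ∧ e.1 = i₀ := by
    have h1 := hl.1 (i₀, true)
    rw [abs_le] at h1
    rcases (show φ (stp (i₀, true)) = 1 ∨ φ (stp (i₀, true)) = -1 by omega) with h | h
    · exact ⟨_, h, rfl⟩
    · refine ⟨(i₀, false), ?_, rfl⟩
      have e := stp_neg_step (i₀, true)
      simp only [Bool.not_true] at e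
      rw [e, map_neg, h]; rfl
  obtain ⟨C, hC0, hC⟩ := exists_level_le (ν := blockLaw μ φ)
    (V := fun s => lat e.1 (disp s)) (hgt := fun s => φ (disp s)) (h₀ := 1) fun j => by
      obtain ⟨a, b, ha', hb', h1, h2, h3⟩ := exists_blocks_axis hl he j
      refine ⟨a, b, ?_, ?_, h1, h2, h3⟩
      · rw [blockLaw_singleton μ ha']; exact wt_pos μ hell _
      · rw [blockLaw_singleton μ hb']; exact wt_pos μ hell _
  set H := ((aUp μ φ)⁻¹).toReal
  have hH : (aUp μ φ)⁻¹ = ENNReal.ofReal H :=
    (ENNReal.ofReal_toReal (ENNReal.inv_ne_top.2 ha.ne')).symm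
  have hH0 : 0 ≤ H := ENNReal.toReal_nonneg
  set c := δ / (H + 1) with hc
  have hcp : 0 < c := by positivity
  refine ⟨C / √c ^ k, by positivity, 1, fun a ha1 => ?_⟩
  have ha0 : (0 : ℝ) < a := by exact_mod_cast ha1
  set j := ⌊c * a⌋₊ with hj
  have hj1 : (j : ℝ) ≤ c * a := Nat.floor_le (by positivity)
  have hj2 : c * a ≤ (j : ℝ) + 1 := (Nat.lt_floor_add_one _).le
  set q := ENNReal.ofReal (C / √c ^ k / √(a : ℝ) ^ k)
  set bad : Set (ℕ → Word (k + 1)) := {b | (a : ℤ) < φ (cutSite b j)}
  have hx : ∀ x, exitMass μ φ e.1 a x - q ≤ blocksLaw μ φ (ExitEv φ e.1 a x ∩ bad) := fun x => by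
    rw [tsub_le_iff_right]
    refine (exitMass_le μ φ e.1 a x).trans (le_trans (measure_mono_ae ?_)
      ((measure_union_le _ _).trans (add_le_add le_rfl (le_trans
        (exit_late_le μ φ e.1 a j x (q := ENNReal.ofReal (C / √((j : ℝ) + 1) ^ k)) fun G => hC j G)
        ?_))))
    · filter_upwards [SegAux.blocks_allPos μ (φ := φ)] with b hb
      rintro ⟨i, h1, h2⟩
      by_cases hij : j ≤ i
      · exact Or.inr ⟨i, hij, h1, h2⟩
      · refine Or.inl ⟨⟨i, h1, h2⟩, ?_⟩
        have := cutSite_mono φ hb.2 (not_le.1 hij)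
        simp only at this
        simp only [bad, mem_ofPred_eq]
        omega
    · refine ENNReal.ofReal_le_ofReal ?_
      rw [div_div, ← mul_pow, ← Real.sqrt_mul hcp.le]
      exact div_le_div_of_nonneg_left hC0 (by positivity)
        (pow_le_pow_left₀ (Real.sqrt_nonneg _) (Real.sqrt_le_sqrt hj2) k)
  refine (ENNReal.tsum_le_tsum hx).trans ?_
  have hEm : ∀ x, MeasurableSet (ExitEv φ e.1 a x ∩ bad) := fun x => by
    have e1 : ExitEv φ e.1 a x = ⋃ i, (fun b => cutSite b i) ⁻¹'
        {z | φ z = a ∧ lat e.1 z = x} := by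
      ext b; simp [ExitEv]
    rw [e1]
    exact (MeasurableSet.iUnion fun i => measurable_cutSite i (Set.to_countable _).measurableSet).inter
      (measurable_cutSite j (Set.to_countable {z : Site (k + 1) | (a : ℤ) < φ z}).measurableSet)
  have hbad : blocksLaw μ φ bad ≤ ENNReal.ofReal δ := by
    set F : (ℕ → Word (k + 1)) → ℝ≥0∞ := fun b =>
      ∑ m ∈ Finset.range j, ((φ (disp (b m))).toNat : ℝ≥0∞)
    have hFm : ∀ m : ℕ, Measurable fun b : ℕ → Word (k + 1) =>
        ((φ (disp (b m))).toNat : ℝ≥0∞) := fun m =>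
      (measurable_of_countable fun s : Word (k + 1) =>
        ((φ (disp s)).toNat : ℝ≥0∞)).comp (measurable_pi_apply m)
    have hE : ∫⁻ b, F b ∂blocksLaw μ φ ≤ (j : ℝ≥0∞) * (aUp μ φ)⁻¹ := by
      simp only [F]
      rw [lintegral_finsetSum _ fun m _ => hFm m]
      refine (Finset.sum_le_sum (g := fun _ => (aUp μ φ)⁻¹) fun m _ => ?_).trans
        (le_of_eq (by simp))
      rw [← lintegral_map (f := fun s : Word (k + 1) => ((φ (disp s)).toNat : ℝ≥0∞))
        (measurable_of_countable _) (measurable_pi_apply m), blocksLaw,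
        Measure.infinitePi_map_eval]
      exact lintegral_block_height μ φ hell hl ha
    have h1 : ((a : ℝ≥0∞) + 1) * blocksLaw μ φ bad ≤ (j : ℝ≥0∞) * (aUp μ φ)⁻¹ := by
      refine le_trans (mul_le_mul' le_rfl (measure_mono_ae ?_))
        ((mul_meas_ge_le_lintegral (Finset.measurable_sum _ fun m _ => hFm m) _).trans hE)
      filter_upwards [SegAux.blocks_allPos μ (φ := φ)] with b hb
      intro (hlt : (a : ℤ) < φ (cutSite b j))
      simp only [cutSite, map_sum] at hlt
      rw [Finset.sum_congr rfl fun m _ => (Int.toNat_of_nonneg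
        (hb.2 m).1.height_pos.le).symm, ← Nat.cast_sum] at hlt
      show (a : ℝ≥0∞) + 1 ≤ F b
      simp only [F, ← Nat.cast_sum]
      exact_mod_cast hlt
    rw [mul_comm, ← ENNReal.le_div_iff_mul_le (Or.inl (by simp)) (Or.inl (by simp))] at h1
    refine h1.trans ?_
    rw [hH, ← ENNReal.ofReal_natCast j, ← ENNReal.ofReal_natCast a, ← ENNReal.ofReal_one,
      ← ENNReal.ofReal_add (by positivity) zero_le_one, ← ENNReal.ofReal_mul (by positivity),
      ← ENNReal.ofReal_div_of_pos (by positivity)]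
    refine ENNReal.ofReal_le_ofReal ?_
    rw [div_le_iff₀ (by positivity)]
    have h3 : c * (H + 1) = δ := by rw [hc]; field_simp
    nlinarith [mul_le_mul_of_nonneg_right hj1 hH0, mul_nonneg hcp.le ha0.le]
  refine le_trans ?_ hbad
  rw [ENNReal.tsum_eq_iSup_sum]
  refine iSup_le fun S => ?_
  rw [← measure_biUnion_finset₀ ?_ fun x _ => (hEm x).nullMeasurableSet]
  · exact measure_mono (iUnion₂_subset fun x _ => inter_subset_right)
  · intro x _ x' _ hne
    refine measure_mono_null (fun b hb => ?_) (ae_iff.1 (SegAux.blocks_allPos μ (φ := φ)))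
    obtain ⟨⟨⟨i, h1, h2⟩, -⟩, ⟨i', h1', h2'⟩, -⟩ := hb
    rintro ⟨-, hblk⟩
    have : i = i' := (cutSite_mono φ hblk).injective (by simp only [h1, h1'])
    subst this
    exact hne (h2.symm.trans h2')

end Vale.Agent.P147.Flux
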